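import Mathlib

/-!
# P106 / U / H118 : enumeration of a finite set of cut points (helper118)
-/

set_option autoImplicit false

namespace Vale.Agent.P106.U.H118

open Finset

/-- the increasing enumeration of a finite set of cut points of `[0, n]` -/
theorem enum (C : Finset ℕ) (n : ℕ) (hn0 : 0 < n) (h0 : 0 ∈ C) (hn : n ∈ C) (hC : ∀ c ∈ C, c ≤ n) :
    ∃ (V : ℕ) (σ : ℕ → ℕ), V + 1 = C.card ∧ σ 0 = 0 ∧ σ V = n ∧
      (∀ v ≤ V, σ v ∈ C) ∧
      ∀ v < V, σ v < σ (v + 1) ∧ ∀ c ∈ C, c ≤ σ v ∨ σ (v + 1) ≤ c := by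
  classical
  have hcard : 0 < C.card := Finset.card_pos.2 ⟨0, h0⟩
  let f := C.orderEmbOfFin (rfl : C.card = C.card)
  have hf : ∀ k, f k ∈ C := fun k => Finset.orderEmbOfFin_mem C rfl k
  have hsurj : ∀ c ∈ C, ∃ k, f k = c := by
    intro c hc
    have : c ∈ Set.range f := by
      rw [Finset.range_orderEmbOfFin]; exact hc
    exact this
  obtain ⟨V, hV⟩ : ∃ V, V + 1 = C.card := ⟨C.card - 1, by omega⟩
  let σ : ℕ → ℕ := fun v => if h : v < C.card then f ⟨v, h⟩ else n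
  have hσ : ∀ v (h : v < C.card), σ v = f ⟨v, h⟩ := fun v h => by simp [σ, h]
  have h00 : σ 0 = 0 := by
    obtain ⟨k, hk⟩ := hsurj 0 h0
    have : f ⟨0, hcard⟩ ≤ f k := f.monotone (Fin.mk_le_of_le_val (Nat.zero_le _))
    rw [hσ 0 hcard]
    omega
  have hVn : σ V = n := by
    obtain ⟨k, hk⟩ := hsurj n hn
    have h1 : f k ≤ f ⟨V, by omega⟩ := f.monotone (by
      rw [Fin.le_def]; have := k.2; simp only; omega)
    have h2 := hC _ (hf ⟨V, by omega⟩)
    rw [hσ V (by omega)]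
    omega
  refine ⟨V, σ, hV, h00, hVn, ?_, ?_⟩
  · intro v hv
    rw [hσ v (by omega)]
    exact hf _
  · intro v hv
    rw [hσ v (by omega), hσ (v + 1) (by omega)]
    refine ⟨f.strictMono (by rw [Fin.lt_def]; simp), ?_⟩
    intro c hc
    obtain ⟨k, rfl⟩ := hsurj c hc
    rcases Nat.lt_or_ge v k.1 with h | h
    · right
      exact f.monotone (by rw [Fin.le_def]; simp only; omega)
    · left
      exact f.monotone (by rw [Fin.le_def]; simp only; omega)

end Vale.Agent.P106.U.H118
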