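import Vale.Agent.P106.U.H118.Sum

/-!
# P106 / U / H118 : zones (helper118)

Real numbers only.  `psi` : potential of the cells; `psiV` : potential of other letters, used in the zones (young steps);
`psiG i := psiV i` in a zone, `psi i` outside.  `S` contains the steps at which a zone begins or ends.

* `glue_T` : the trivial inequality for `psiG`; `glue_L` : the windows; `glue_H` : the heavy intervals.  The price is `qG`:
  `3 m` for the steps at distance `< L2` before a boundary, `3 m + 2 c1 + cz` at the boundary; `sum_qG` : total price.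
-/

set_option autoImplicit false

namespace Vale.Agent.P106.U.H118

open Finset

section

variable (zone : ℕ → Prop) (psi psiV : ℕ → ℝ)

open Classical in
/-- the potential with zones -/
noncomputable def psiG (i : ℕ) : ℝ := if zone i then psiV i else psi i

open Classical in
/-- the price with zones -/
noncomputable def qG (S : Finset ℕ) (L2 : ℕ) (m c1 cz : ℝ) (q : ℕ → ℝ) (t : ℕ) : ℝ :=
  q t + (if ∃ j ∈ S, t ≤ j ∧ j < t + L2 then 3 * m else 0) + (if t ∈ S then 3 * m + 2 * c1 + cz else 0)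

variable {zone psi psiV} {n L1 L2 K0 M : ℕ} {g : ℕ → Prop} {a R : ℕ → ℕ} {S : Finset ℕ} {m c1 cj cz : ℝ} {err q : ℕ → ℝ}

theorem le_qG (hm : 0 ≤ m) (hc1 : 0 ≤ c1) (hcz : 0 ≤ cz) (t : ℕ) : q t ≤ qG S L2 m c1 cz q t := by
  unfold qG
  split_ifs <;> linarith

theorem qG_near (hm : 0 ≤ m) (hc1 : 0 ≤ c1) (hcz : 0 ≤ cz) {t j : ℕ} (hj : j ∈ S) (h1 : t ≤ j) (h2 : j < t + L2) :
    q t + 3 * m ≤ qG S L2 m c1 cz q t := by
  unfold qG
  rw [if_pos ⟨j, hj, h1, h2⟩]
  split_ifs <;> linarith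

theorem qG_bd (hm : 0 ≤ m) {t : ℕ} (ht : t ∈ S) : q t + (3 * m + 2 * c1 + cz) ≤ qG S L2 m c1 cz q t := by
  unfold qG
  rw [if_pos ht]
  split_ifs <;> linarith

theorem sum_le_qG (hm : 0 ≤ m) (hc1 : 0 ≤ c1) (hcz : 0 ≤ cz) (i k : ℕ) :
    ∑ t ∈ Ico i k, q t ≤ ∑ t ∈ Ico i k, qG S L2 m c1 cz q t :=
  Finset.sum_le_sum fun t _ => le_qG hm hc1 hcz t

/-- without a boundary the zone is constant -/
theorem zone_const (hS : ∀ j < n, (zone j ↔ zone (j + 1)) ∨ j ∈ S) {i : ℕ} : ∀ k, i ≤ k → k ≤ n →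
    (∀ j, i ≤ j → j < k → j ∉ S) → (zone i ↔ zone k) := by
  intro k hk
  induction k, hk using Nat.le_induction with
  | base => intro _ _; exact Iff.rfl
  | succ k hk ih =>
    intro hn h
    have h1 := ih (by omega) fun j h2 h3 => h j h2 (by omega)
    rcases hS k (by omega) with h4 | h4
    · exact h1.trans h4
    · exact absurd h4 (h k hk (Nat.lt_succ_self k))

theorem psiG_near (hcz : 0 ≤ cz) (hz : ∀ i ≤ n, zone i → |psiV i - psi i| ≤ cz) {i : ℕ} (hi : i ≤ n) :
    |psiG zone psi psiV i - psi i| ≤ cz := by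
  unfold psiG
  by_cases h : zone i
  · rw [if_pos h]
    exact hz i hi h
  · rw [if_neg h, sub_self, abs_zero]
    exact hcz

theorem T_pure (hS : ∀ j < n, (zone j ↔ zone (j + 1)) ∨ j ∈ S)
    (hTO : ∀ i k, i ≤ k → k ≤ n → - c1 - ∑ j ∈ Ico i k, q j ≤ psi k - psi i)
    (hTV : ∀ i k, i ≤ k → k ≤ n → (∀ j, i ≤ j → j ≤ k → zone j) → - c1 - ∑ j ∈ Ico i k, q j ≤ psiV k - psiV i)
    {i k : ℕ} (hik : i ≤ k) (hk : k ≤ n) (h : ∀ j, i ≤ j → j < k → j ∉ S) :
    - c1 - ∑ j ∈ Ico i k, q j ≤ psiG zone psi psiV k - psiG zone psi psiV i := by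
  have h1 := zone_const hS k hik hk h
  unfold psiG
  by_cases h2 : zone i
  · rw [if_pos h2, if_pos (h1.1 h2)]
    refine hTV i k hik hk fun j h3 h4 => ?_
    exact (zone_const hS j h3 (by omega) fun j' h5 h6 => h j' h5 (by omega)).1 h2
  · rw [if_neg h2, if_neg (fun h3 => h2 (h1.2 h3))]
    exact hTO i k hik hk

theorem G_step (hcz : 0 ≤ cz)
    (hz : ∀ i ≤ n, zone i → |psiV i - psi i| ≤ cz)
    (hTO : ∀ i k, i ≤ k → k ≤ n → - c1 - ∑ j ∈ Ico i k, q j ≤ psi k - psi i)
    (hTV : ∀ i k, i ≤ k → k ≤ n → (∀ j, i ≤ j → j ≤ k → zone j) → - c1 - ∑ j ∈ Ico i k, q j ≤ psiV k - psiV i)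
    {j : ℕ} (hj : j < n) :
    - c1 - cz - q j ≤ psiG zone psi psiV (j + 1) - psiG zone psi psiV j := by
  have e : ∑ t ∈ Ico j (j + 1), q t = q j := by simp
  by_cases h1 : zone j ↔ zone (j + 1)
  · by_cases h2 : zone j
    · have h3 := hTV j (j + 1) (by omega) (by omega) fun t h4 h5 => by
        rcases (by omega : t = j ∨ t = j + 1) with h6 | h6
        · rw [h6]; exact h2
        · rw [h6]; exact h1.1 h2
      unfold psiG
      rw [if_pos h2, if_pos (h1.1 h2)]
      rw [e] at h3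
      linarith
    · have h3 := hTO j (j + 1) (by omega) (by omega)
      unfold psiG
      rw [if_neg h2, if_neg (fun h4 => h2 (h1.2 h4))]
      rw [e] at h3
      linarith
  · have h3 := hTO j (j + 1) (by omega) (by omega)
    rw [e] at h3
    unfold psiG
    by_cases h2 : zone j
    · have h4 : ¬ zone (j + 1) := fun h5 => h1 ⟨fun _ => h5, fun _ => h2⟩
      rw [if_pos h2, if_neg h4]
      have := abs_le.1 (hz j (by omega) h2)
      linarith [this.1, this.2]
    · have h4 : zone (j + 1) := by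
        by_contra h5
        exact h1 ⟨fun h6 => absurd h6 h2, fun h6 => absurd h6 h5⟩
      rw [if_neg h2, if_pos h4]
      have := abs_le.1 (hz (j + 1) (by omega) h4)
      linarith [this.1, this.2]

/-- least boundary of `[i, k)` -/
theorem first_bd {i k : ℕ} (h : ∃ j, i ≤ j ∧ j < k ∧ j ∈ S) :
    ∃ j, i ≤ j ∧ j < k ∧ j ∈ S ∧ ∀ t, i ≤ t → t < j → t ∉ S := by
  classical
  have h1 := Nat.find_spec h
  refine ⟨Nat.find h, h1.1, h1.2.1, h1.2.2, fun t h2 h3 h4 => ?_⟩
  exact Nat.find_min h h3 ⟨h2, by omega, h4⟩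

/-- **trivial inequality with zones** -/
theorem glue_T (hS : ∀ j < n, (zone j ↔ zone (j + 1)) ∨ j ∈ S) (hm : 0 ≤ m) (hc1 : 0 ≤ c1) (hcz : 0 ≤ cz)
    (hz : ∀ i ≤ n, zone i → |psiV i - psi i| ≤ cz)
    (hTO : ∀ i k, i ≤ k → k ≤ n → - c1 - ∑ j ∈ Ico i k, q j ≤ psi k - psi i)
    (hTV : ∀ i k, i ≤ k → k ≤ n → (∀ j, i ≤ j → j ≤ k → zone j) → - c1 - ∑ j ∈ Ico i k, q j ≤ psiV k - psiV i) :
    ∀ d i k, k = i + d → k ≤ n →
      - c1 - ∑ j ∈ Ico i k, qG S L2 m c1 cz q j ≤ psiG zone psi psiV k - psiG zone psi psiV i := by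
  intro d
  induction d using Nat.strong_induction_on with
  | _ d ih =>
    intro i k hd hk
    by_cases h : ∃ j, i ≤ j ∧ j < k ∧ j ∈ S
    · obtain ⟨j, h1, h2, h3, h4⟩ := first_bd h
      have e1 := T_pure hS hTO hTV h1 (by omega) h4
      have e2 := G_step hcz hz hTO hTV (j := j) (by omega)
      have e3 := ih (k - (j + 1)) (by omega) (j + 1) k (by omega) hk
      have e4 := sum_le_qG (S := S) (L2 := L2) (q := q) hm hc1 hcz i j
      have e5 := qG_bd (L2 := L2) (c1 := c1) (cz := cz) (q := q) hm h3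
      have e6 : ∑ t ∈ Ico i k, qG S L2 m c1 cz q t = ∑ t ∈ Ico i j, qG S L2 m c1 cz q t + (qG S L2 m c1 cz q j +
          ∑ t ∈ Ico (j + 1) k, qG S L2 m c1 cz q t) := by
        rw [← Finset.sum_eq_sum_Ico_succ_bot (by omega : j < k), Finset.sum_Ico_consecutive _ h1 (by omega)]
      rw [e6]
      linarith
    · have h' : ∀ j, i ≤ j → j < k → j ∉ S := fun j h1 h2 h3 => h ⟨j, h1, h2, h3⟩
      have e1 := T_pure hS hTO hTV (by omega : i ≤ k) hk h'
      have e2 := sum_le_qG (S := S) (L2 := L2) (q := q) hm hc1 hcz i k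
      linarith

/-- the counted part of a window -/
theorem CS_split (f : ℕ → ℝ) {i j k : ℕ} (h1 : i ≤ j) (h2 : j ≤ k) :
    ∑ t ∈ CS M n g a R i k, f t = ∑ t ∈ CS M n g a R i j, f t + ∑ t ∈ CS M n g a R j k, f t := by
  classical
  unfold CS
  rw [Finset.sum_filter, Finset.sum_filter, Finset.sum_filter, Finset.sum_Ico_consecutive _ h1 h2]

theorem CS_le (hm : 0 ≤ m) (D : Sdat n g a R) (herr : ∀ j, 0 ≤ err j) {i k : ℕ} (hik : i ≤ k) (hk : k ≤ n) :
    ∑ t ∈ CS M n g a R i k, (full m a R t - err t) ≤ 3 * m * ((k : ℝ) - i) := by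
  have h1 : ∑ t ∈ CS M n g a R i k, (full m a R t - err t) ≤ ∑ t ∈ CS M n g a R i k, 3 * m := by
    refine Finset.sum_le_sum fun t ht => ?_
    have h2 := mem_CS.1 ht
    have h3 := full_le hm D (j := t) (by omega)
    have h4 := herr t
    linarith
  refine h1.trans ?_
  rw [Finset.sum_const, nsmul_eq_mul]
  have h2 : (CS M n g a R i k).card ≤ k - i := by
    rw [← Nat.card_Ico]
    exact Finset.card_le_card fun t ht => by
      rw [Finset.mem_Ico]
      exact (mem_CS.1 ht).1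
  have h3 : ((CS M n g a R i k).card : ℝ) ≤ (k : ℝ) - i := by
    rw [← Nat.cast_sub hik]
    exact_mod_cast h2
  nlinarith

/-- **windows with zones** -/
theorem glue_L (D : Sdat n g a R) (hS : ∀ j < n, (zone j ↔ zone (j + 1)) ∨ j ∈ S)
    (hm : 0 ≤ m) (hc1 : 0 ≤ c1) (hcj : 0 ≤ cj) (hcz : 0 ≤ cz) (herr : ∀ j, 0 ≤ err j)
    (hz : ∀ i ≤ n, zone i → |psiV i - psi i| ≤ cz)
    (hTO : ∀ i k, i ≤ k → k ≤ n → - c1 - ∑ j ∈ Ico i k, q j ≤ psi k - psi i)
    (hTV : ∀ i k, i ≤ k → k ≤ n → (∀ j, i ≤ j → j ≤ k → zone j) → - c1 - ∑ j ∈ Ico i k, q j ≤ psiV k - psiV i)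
    (hLO : ∀ i k i1, i ≤ k → k ≤ i + L1 → k ≤ i1 → i1 ≤ n → i1 ≤ i + L2 → a k + K0 ≤ a i1 → R k + K0 ≤ R i1 →
      (∀ j, i ≤ j → j ≤ i1 → ¬ zone j) →
      ∑ j ∈ CS M n g a R i k, (full m a R j - err j) - c1 * ((k : ℝ) - i) - cj - ∑ j ∈ Ico i k, q j ≤
        psi k - psi i)
    (hLV : ∀ i k i1, i ≤ k → k ≤ i + L1 → k ≤ i1 → i1 ≤ n → i1 ≤ i + L2 → a k + K0 ≤ a i1 → R k + K0 ≤ R i1 →
      (∀ j, i ≤ j → j ≤ i1 → zone j) →
      ∑ j ∈ CS M n g a R i k, (full m a R j - err j) - c1 * ((k : ℝ) - i) - cj - ∑ j ∈ Ico i k, q j ≤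
        psiV k - psiV i) :
    ∀ i k i1, i ≤ k → k ≤ i + L1 → k ≤ i1 → i1 ≤ n → i1 ≤ i + L2 → a k + K0 ≤ a i1 → R k + K0 ≤ R i1 →
      ∑ j ∈ CS M n g a R i k, (full m a R j - err j) - c1 * ((k : ℝ) - i) - cj -
        ∑ j ∈ Ico i k, qG S L2 m c1 cz q j ≤ psiG zone psi psiV k - psiG zone psi psiV i := by
  have key : ∀ d i k i1, k = i + d → k ≤ i + L1 → k ≤ i1 → i1 ≤ n → i1 ≤ i + L2 → a k + K0 ≤ a i1 →
      R k + K0 ≤ R i1 → ∑ j ∈ CS M n g a R i k, (full m a R j - err j) - c1 * ((k : ℝ) - i) - cj -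
        ∑ j ∈ Ico i k, qG S L2 m c1 cz q j ≤ psiG zone psi psiV k - psiG zone psi psiV i := by
    intro d
    induction d using Nat.strong_induction_on with
    | _ d ih =>
      intro i k i1 hd hL1 hk1 hn hL2 hak hRk
      have hik : i ≤ k := by omega
      have hik' : (0 : ℝ) ≤ (k : ℝ) - i := by
        have : (i : ℝ) ≤ k := by exact_mod_cast hik
        linarith
      by_cases h : ∃ j, i ≤ j ∧ j < i1 ∧ j ∈ S
      · obtain ⟨j, h1, h2, h3, h4⟩ := first_bd h
        have near : ∀ t, i ≤ t → t ≤ j → q t + 3 * m ≤ qG S L2 m c1 cz q t := fun t ht ht' =>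
          qG_near hm hc1 hcz h3 ht' (by omega)
        have nsum : ∀ k', i ≤ k' → k' ≤ j → ∑ t ∈ Ico i k', q t + 3 * m * ((k' : ℝ) - i) ≤
            ∑ t ∈ Ico i k', qG S L2 m c1 cz q t := by
          intro k' hk' hkj
          have e1 : ∑ t ∈ Ico i k', (q t + 3 * m) ≤ ∑ t ∈ Ico i k', qG S L2 m c1 cz q t :=
            Finset.sum_le_sum fun t ht => by
              rw [Finset.mem_Ico] at ht
              exact near t ht.1 (by omega)
          rw [Finset.sum_add_distrib, Finset.sum_const, Nat.card_Ico, nsmul_eq_mul, Nat.cast_sub hk'] at e1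
          linarith
        rcases Nat.lt_or_ge j k with h5 | h5
        · -- a boundary inside the window
          have e1 := T_pure hS hTO hTV h1 (by omega) h4
          have e2 := G_step hcz hz hTO hTV (j := j) (by omega)
          have e3 := ih (k - (j + 1)) (by omega) (j + 1) k i1 (by omega) (by omega) hk1 hn (by omega) hak hRk
          have e4 := nsum j h1 le_rfl
          have e5 := qG_bd (L2 := L2) (c1 := c1) (cz := cz) (q := q) hm h3
          have e6 : ∑ t ∈ Ico i k, qG S L2 m c1 cz q t = ∑ t ∈ Ico i j, qG S L2 m c1 cz q t +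
              (qG S L2 m c1 cz q j + ∑ t ∈ Ico (j + 1) k, qG S L2 m c1 cz q t) := by
            rw [← Finset.sum_eq_sum_Ico_succ_bot h5, Finset.sum_Ico_consecutive _ h1 (by omega)]
          have e7 := CS_split (M := M) (n := n) (g := g) (a := a) (R := R) (fun t => full m a R t - err t)
            (i := i) (j := j + 1) (k := k) (by omega) (by omega)
          have e8 := CS_le (M := M) hm D herr (i := i) (k := j + 1) (by omega) (by omega)
          have e9 : (i : ℝ) ≤ j := by exact_mod_cast h1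
          push_cast at e3 e8
          rw [e6, e7]
          nlinarith
        · -- a boundary between the window and its later index
          have e1 := T_pure hS hTO hTV hik (by omega) (fun t h6 h7 => h4 t h6 (by omega))
          have e2 := nsum k hik h5
          have e3 := CS_le (M := M) hm D herr (i := i) (k := k) hik (by omega)
          rcases Nat.eq_zero_or_pos d with h6 | h6
          · have h7 : k = i := by omega
            subst h7
            have e4 : ∑ t ∈ Ico k k, qG S L2 m c1 cz q t = 0 := by simp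
            rw [sub_self, mul_zero] at e3
            rw [e4, sub_self, sub_self, mul_zero]
            linarith
          · have h7 : (1 : ℝ) ≤ (k : ℝ) - i := by
              have : (i : ℝ) + 1 ≤ k := by exact_mod_cast (by omega : i + 1 ≤ k)
              linarith
            have h8 : c1 ≤ c1 * ((k : ℝ) - i) := le_mul_of_one_le_right hc1 h7
            linarith
      · have h' : ∀ j, i ≤ j → j < i1 → j ∉ S := fun j h1 h2 h3 => h ⟨j, h1, h2, h3⟩
        have e2 := sum_le_qG (S := S) (L2 := L2) (q := q) hm hc1 hcz i k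
        have hc : ∀ j, i ≤ j → j ≤ i1 → (zone i ↔ zone j) := fun j h1 h2 =>
          zone_const hS j h1 (by omega) fun t h3 h4 => h' t h3 (by omega)
        have hk' := hc k hik hk1
        unfold psiG
        by_cases h2 : zone i
        · rw [if_pos h2, if_pos (hk'.1 h2)]
          have := hLV i k i1 hik hL1 hk1 hn hL2 hak hRk fun j h3 h4 => (hc j h3 h4).1 h2
          linarith
        · rw [if_neg h2, if_neg (fun h3 => h2 (hk'.2 h3))]
          have := hLO i k i1 hik hL1 hk1 hn hL2 hak hRk fun j h3 h4 h5 => h2 ((hc j h3 h4).2 h5)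
          linarith
  intro i k i1 hik
  exact key (k - i) i k i1 (by omega)

/-- **heavy intervals with zones** : `ch` becomes `ch + 2 cz` -/
theorem glue_H (hm : 0 ≤ m) (hc1 : 0 ≤ c1) (hcz : 0 ≤ cz) (hz : ∀ i ≤ n, zone i → |psiV i - psi i| ≤ cz)
    {i i1 : ℕ} (hi : i ≤ i1) (hi1 : i1 ≤ n) {Y ch : ℝ}
    (h : Y - ch - ∑ j ∈ Ico i i1, q j ≤ psi i1 - psi i) :
    Y - (ch + 2 * cz) - ∑ j ∈ Ico i i1, qG S L2 m c1 cz q j ≤ psiG zone psi psiV i1 - psiG zone psi psiV i := by
  have h1 := abs_le.1 (psiG_near hcz hz (i := i) (by omega))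
  have h2 := abs_le.1 (psiG_near hcz hz hi1)
  have h3 := sum_le_qG (S := S) (L2 := L2) (q := q) hm hc1 hcz i i1
  linarith [h1.1, h1.2, h2.1, h2.2]

/-- **total price** -/
theorem sum_qG (hm : 0 ≤ m) (hc1 : 0 ≤ c1) (hcz : 0 ≤ cz) (n : ℕ) :
    ∑ t ∈ range n, qG S L2 m c1 cz q t ≤ ∑ t ∈ range n, q t + S.card * (3 * m * L2 + (3 * m + 2 * c1 + cz)) := by
  classical
  unfold qG
  rw [Finset.sum_add_distrib, Finset.sum_add_distrib]
  have e1 : ∑ t ∈ range n, (if ∃ j ∈ S, t ≤ j ∧ j < t + L2 then 3 * m else 0) ≤ S.card * (3 * m * L2) := by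
    have h1 : ∀ t ∈ range n, (if ∃ j ∈ S, t ≤ j ∧ j < t + L2 then 3 * m else 0) ≤
        ∑ j ∈ S, if t ≤ j ∧ j < t + L2 then 3 * m else 0 := by
      intro t _
      split_ifs with h
      · obtain ⟨j, hj, h2⟩ := h
        have := Finset.single_le_sum (f := fun j => if t ≤ j ∧ j < t + L2 then 3 * m else 0)
          (fun j _ => by split_ifs <;> linarith) hj
        simpa [h2] using this
      · exact Finset.sum_nonneg fun j _ => by split_ifs <;> linarith
    refine (Finset.sum_le_sum h1).trans ?_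
    rw [Finset.sum_comm, ← nsmul_eq_mul]
    refine Finset.sum_le_card_nsmul _ _ _ fun j _ => ?_
    rw [← Finset.sum_filter, Finset.sum_const, nsmul_eq_mul]
    have h2 : ((range n).filter fun t => t ≤ j ∧ j < t + L2).card ≤ L2 := by
      calc _ ≤ (Ico (j + 1 - L2) (j + 1)).card := Finset.card_le_card fun t ht => by
            simp only [Finset.mem_filter, Finset.mem_range] at ht
            rw [Finset.mem_Ico]
            omega
        _ ≤ L2 := by rw [Nat.card_Ico]; omega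
    have h3 : (((range n).filter fun t => t ≤ j ∧ j < t + L2).card : ℝ) ≤ L2 := by exact_mod_cast h2
    nlinarith
  have e2 : ∑ t ∈ range n, (if t ∈ S then 3 * m + 2 * c1 + cz else 0) ≤ S.card * (3 * m + 2 * c1 + cz) := by
    rw [← Finset.sum_filter, Finset.sum_const, nsmul_eq_mul]
    refine mul_le_mul_of_nonneg_right ?_ (by positivity)
    exact_mod_cast Finset.card_le_card fun t ht => (Finset.mem_filter.1 ht).2
  rw [mul_add]
  linarith

end

end Vale.Agent.P106.U.H118
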