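import Vale.Agent.P106.U.H118.Enum

/-!
# P106 / U / H118 : the greedy word (helper118)

`g i` : the step `i` is a good a-step; `r` : level of the frame, unit or zero steps, constant at good a-steps.

* `Hvy` : a heavy interval `[s, e)` : the rise is larger than `N1` (threshold) and about `N0` times the length.
* `Lgt` : a light step, it lies in a stretch between two consecutive good a-steps with rise at most `N1`.
* `greedy` : the word is cut into heavy intervals and light single steps.
-/

set_option autoImplicit false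

namespace Vale.Agent.P106.U.H118

open Finset

open Classical in
/-- number of good a-steps in `[i, j)` -/
noncomputable def cg (g : ℕ → Prop) (i j : ℕ) : ℕ := ((Ico i j).filter g).card

/-- a heavy interval `[s, e)` -/
structure Hvy (N1 N0 n : ℕ) (g : ℕ → Prop) (r : ℕ → ℕ) (s e : ℕ) : Prop where
  lt : s < e
  le : e ≤ n
  gs : g s
  ge : e = n ∨ g e
  big : r s + N1 < r e
  lo : N0 * cg g s e + r s < r e + N0
  hi : e = n ∨ r e ≤ r s + N0 * cg g s e

/-- the stretch `[i, p)` between consecutive good a-steps (or `n`) -/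
structure Strt (n : ℕ) (g : ℕ → Prop) (i p : ℕ) : Prop where
  lt : i < p
  le : p ≤ n
  gi : g i
  gp : p = n ∨ g p
  no : ∀ j, i < j → j < p → ¬ g j

/-- a light step : the stretch has rise at most `N1` -/
def Lgt (N1 n : ℕ) (g : ℕ → Prop) (r : ℕ → ℕ) (k : ℕ) : Prop :=
  ∃ i p, i ≤ k ∧ k < p ∧ Strt n g i p ∧ r p ≤ r i + N1

/-- the cut word -/
structure Wrd (L N1 N0 n : ℕ) (g : ℕ → Prop) (r : ℕ → ℕ) (V : ℕ) (σ : ℕ → ℕ) (H : Finset ℕ) :
    Prop where
  s0 : σ 0 = 0
  sV : σ V = n
  HV : ∀ v ∈ H, v < V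
  lt : ∀ v < V, σ v < σ (v + 1)
  le : ∀ v < V, v ∉ H → σ (v + 1) ≤ σ v + L
  hv : ∀ v ∈ H, Hvy N1 N0 n g r (σ v) (σ (v + 1))
  lg : ∀ v < V, v ∉ H → ∀ k, σ v ≤ k → k < σ (v + 1) → Lgt N1 n g r k

section

variable {N1 N0 n : ℕ} {g : ℕ → Prop} {r : ℕ → ℕ}

theorem cg_split {i j k : ℕ} (h1 : i ≤ j) (h2 : j ≤ k) : cg g i k = cg g i j + cg g j k := by
  classical
  unfold cg
  rw [← Finset.Ico_union_Ico_eq_Ico h1 h2, Finset.filter_union,
    Finset.card_union_of_disjoint]
  exact Finset.disjoint_filter_filter (Finset.Ico_disjoint_Ico_consecutive i j k)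

theorem cg_one {i : ℕ} (h : g i) : cg g i (i + 1) = 1 := by
  classical
  unfold cg
  rw [Nat.Ico_succ_singleton, Finset.filter_singleton, if_pos h, Finset.card_singleton]

theorem cg_zero {i j : ℕ} (h : ∀ k, i ≤ k → k < j → ¬ g k) : cg g i j = 0 := by
  classical
  unfold cg
  rw [Finset.card_eq_zero, Finset.filter_eq_empty_iff]
  intro k hk
  rw [Finset.mem_Ico] at hk
  exact h k hk.1 hk.2

theorem rmono (hr : ∀ i < n, r (i + 1) = r i ∨ (r (i + 1) = r i + 1 ∧ ¬ g i)) {i j : ℕ} (hij : i ≤ j)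
    (hj : j ≤ n) : r i ≤ r j := by
  induction j, hij using Nat.le_induction with
  | base => exact le_rfl
  | succ j hij ih =>
    have h1 := ih (by omega)
    rcases hr j (by omega) with h | ⟨h, _⟩ <;> omega

/-- the greedy recursion -/
theorem greedy_aux (hr : ∀ i < n, r (i + 1) = r i ∨ (r (i + 1) = r i + 1 ∧ ¬ g i)) :
    ∀ d i, n - i ≤ d → i ≤ n → (i = n ∨ g i) → ∃ H : Finset (ℕ × ℕ),
      (∀ q ∈ H, i ≤ q.1 ∧ Hvy N1 N0 n g r q.1 q.2) ∧
      (∀ q ∈ H, ∀ q' ∈ H, q ≠ q' → q.2 ≤ q'.1 ∨ q'.2 ≤ q.1) ∧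
      ∀ k, i ≤ k → k < n → (∃ q ∈ H, q.1 ≤ k ∧ k < q.2) ∨ Lgt N1 n g r k := by
  classical
  intro d
  induction d with
  | zero =>
    intro i h1 h2 _
    refine ⟨∅, by simp, by simp, ?_⟩
    intro k h3 h4
    omega
  | succ d ih =>
    intro i h1 h2 h3
    rcases h3 with h3 | h3
    · refine ⟨∅, by simp, by simp, ?_⟩
      intro k h4 h5
      omega
    rcases Nat.lt_or_ge i n with hin | hin
    swap
    · refine ⟨∅, by simp, by simp, ?_⟩
      intro k h4 h5
      omega
    -- the next good a-step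
    have hex : ∃ p, i < p ∧ p ≤ n ∧ (p = n ∨ g p) := ⟨n, hin, le_rfl, Or.inl rfl⟩
    obtain ⟨hp1, hp2, hp3⟩ := Nat.find_spec hex
    have hp4 : ∀ m, m < Nat.find hex → ¬ (i < m ∧ m ≤ n ∧ (m = n ∨ g m)) := fun m hm =>
      Nat.find_min hex hm
    generalize Nat.find hex = p at hp1 hp2 hp3 hp4
    have hp5 : ∀ m, i < m → m < p → ¬ g m := fun m e1 e2 e3 => hp4 m e2 ⟨e1, by omega, Or.inr e3⟩
    rcases Nat.lt_or_ge (r i + N1) (r p) with hbig | hsm
    · -- heavy
      have hex2 : ∃ c, i < c ∧ c ≤ n ∧ (c = n ∨ (g c ∧ r c ≤ r i + N0 * cg g i c)) :=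
        ⟨n, hin, le_rfl, Or.inl rfl⟩
      obtain ⟨he1, he2, he3⟩ := Nat.find_spec hex2
      have he4 : ∀ m, m < Nat.find hex2 →
          ¬ (i < m ∧ m ≤ n ∧ (m = n ∨ (g m ∧ r m ≤ r i + N0 * cg g i m))) := fun m hm =>
        Nat.find_min hex2 hm
      generalize Nat.find hex2 = e at he1 he2 he3 he4
      have hge : e = n ∨ g e := by
        rcases he3 with h | h
        · exact Or.inl h
        · exact Or.inr h.1
      have hpe : p ≤ e := by
        by_contra hcon
        exact hp4 e (not_le.1 hcon) ⟨he1, he2, hge⟩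
      have hrpe := rmono hr hpe he2
      have hH : Hvy N1 N0 n g r i e := by
        refine ⟨he1, he2, h3, hge, by omega, ?_, ?_⟩
        · rcases ((Ico (i + 1) e).filter g).eq_empty_or_nonempty with h0 | h0
          · have h4 : cg g (i + 1) e = 0 := by
              unfold cg
              rw [Finset.card_eq_zero]
              exact h0
            rw [cg_split (g := g) (Nat.le_succ i) (by omega : i + 1 ≤ e), cg_one h3, h4]
            omega
          · set c := ((Ico (i + 1) e).filter g).max' h0 with hc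
            have h4 : c ∈ (Ico (i + 1) e).filter g := Finset.max'_mem _ _
            rw [Finset.mem_filter, Finset.mem_Ico] at h4
            have h5 : ∀ m, c + 1 ≤ m → m < e → ¬ g m := by
              intro m e1 e2 e3
              have : m ≤ c := Finset.le_max' _ m (by
                rw [Finset.mem_filter, Finset.mem_Ico]
                exact ⟨⟨by omega, e2⟩, e3⟩)
              omega
            have h6 : cg g i e = cg g i c + 1 := by
              rw [cg_split (g := g) (by omega : i ≤ c) (by omega : c ≤ e),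
                cg_split (g := g) (Nat.le_succ c) (by omega : c + 1 ≤ e), cg_one h4.2, cg_zero h5]
            have h7 : ¬ (r c ≤ r i + N0 * cg g i c) := fun h8 =>
              he4 c h4.1.2 ⟨by omega, by omega, Or.inr ⟨h4.2, h8⟩⟩
            have h8 := rmono hr h4.1.2.le he2
            rw [h6, Nat.mul_add, Nat.mul_one]
            omega
        · rcases he3 with h | h
          · exact Or.inl h
          · exact Or.inr h.2
      obtain ⟨H, a1, a2, a3⟩ := ih e (by omega) he2 hge
      refine ⟨insert (i, e) H, ?_, ?_, ?_⟩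
      · intro q hq
        rcases Finset.mem_insert.1 hq with rfl | hq
        · exact ⟨le_rfl, hH⟩
        · exact ⟨by have := (a1 q hq).1; omega, (a1 q hq).2⟩
      · intro q hq q' hq' hne
        rcases Finset.mem_insert.1 hq with rfl | hq <;> rcases Finset.mem_insert.1 hq' with rfl | hq'
        · exact absurd rfl hne
        · exact Or.inl (a1 q' hq').1
        · exact Or.inr (a1 q hq).1
        · exact a2 q hq q' hq' hne
      · intro k h4 h5
        rcases Nat.lt_or_ge k e with h6 | h6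
        · exact Or.inl ⟨(i, e), Finset.mem_insert_self _ _, h4, h6⟩
        · rcases a3 k h6 h5 with ⟨q, hq, hq2⟩ | h7
          · exact Or.inl ⟨q, Finset.mem_insert_of_mem hq, hq2⟩
          · exact Or.inr h7
    · obtain ⟨H, a1, a2, a3⟩ := ih p (by omega) hp2 hp3
      refine ⟨H, ?_, a2, ?_⟩
      · intro q hq
        exact ⟨by have := (a1 q hq).1; omega, (a1 q hq).2⟩
      · intro k h4 h5
        rcases Nat.lt_or_ge k p with h6 | h6
        · right
          exact ⟨i, p, h4, h6, ⟨hp1, hp2, h3, hp3, hp5⟩, hsm⟩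
        · exact a3 k h6 h5

/-- **the greedy word** : the light pieces have length at most `L` -/
theorem greedy {L : ℕ} (hL : 0 < L) (hr : ∀ i < n, r (i + 1) = r i ∨ (r (i + 1) = r i + 1 ∧ ¬ g i))
    (hn : 0 < n) (h0 : g 0) : ∃ (V : ℕ) (σ : ℕ → ℕ) (H : Finset ℕ), Wrd L N1 N0 n g r V σ H ∧
      (V - H.card) * L ≤ n + (H.card + 1) * L := by
  classical
  obtain ⟨F, a1, a2, a3⟩ := greedy_aux (N1 := N1) (N0 := N0) hr n 0 (by omega) (by omega) (Or.inr h0)
  -- the ends of the heavy intervals
  set A := (F.image Prod.fst) ∪ (F.image Prod.snd) with hA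
  have memA : ∀ {j}, j ∈ A ↔ ∃ q ∈ F, q.1 = j ∨ q.2 = j := by
    intro j
    simp only [hA, Finset.mem_union, Finset.mem_image]
    constructor
    · rintro (⟨q, h1, h2⟩ | ⟨q, h1, h2⟩)
      · exact ⟨q, h1, Or.inl h2⟩
      · exact ⟨q, h1, Or.inr h2⟩
    · rintro ⟨q, h1, h2 | h2⟩
      · exact Or.inl ⟨q, h1, h2⟩
      · exact Or.inr ⟨q, h1, h2⟩
  set C := (range (n + 1)).filter fun j => (∀ q ∈ F, ¬ (q.1 < j ∧ j < q.2)) ∧
    (j = n ∨ L ∣ j ∨ j ∈ A) with hC
  have memC : ∀ {j}, j ∈ C ↔ j ≤ n ∧ (∀ q ∈ F, ¬ (q.1 < j ∧ j < q.2)) ∧ (j = n ∨ L ∣ j ∨ j ∈ A) := by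
    intro j
    rw [hC, Finset.mem_filter, Finset.mem_range, Nat.lt_succ_iff]
  have hend : ∀ q ∈ F, q.1 ∈ C ∧ q.2 ∈ C := by
    intro q hq
    have b1 := (a1 q hq).2.lt
    have b2 := (a1 q hq).2.le
    constructor
    · rw [memC]
      refine ⟨by omega, fun q' hq' h3 => ?_, Or.inr (Or.inr (memA.2 ⟨q, hq, Or.inl rfl⟩))⟩
      have h4 : q ≠ q' := by
        rintro rfl
        omega
      rcases a2 q hq q' hq' h4 with h5 | h5 <;> omega
    · rw [memC]
      refine ⟨by omega, fun q' hq' h3 => ?_, Or.inr (Or.inr (memA.2 ⟨q, hq, Or.inr rfl⟩))⟩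
      have h4 : q ≠ q' := by
        rintro rfl
        omega
      rcases a2 q hq q' hq' h4 with h5 | h5 <;> omega
  obtain ⟨V, σ, b1, b2, b3, b4, b5⟩ := enum C n hn
    (memC.2 ⟨by omega, fun q _ h => by omega, Or.inr (Or.inl (Nat.dvd_zero L |>.trans (by simp)))⟩)
    (memC.2 ⟨le_rfl, fun q hq h => by have := (a1 q hq).2.le; omega, Or.inl rfl⟩)
    (fun c hc => (memC.1 hc).1)
  have key : ∀ v < V, ∀ k, σ v ≤ k → k < σ (v + 1) → ∀ q ∈ F, q.1 ≤ k → k < q.2 →
      q = (σ v, σ (v + 1)) := by
    intro v hv k hk1 hk2 q hq h1 h2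
    have c1 := memC.1 (b4 v hv.le)
    have c2 := memC.1 (b4 (v + 1) hv)
    have c3 : q.1 ≤ σ v := by
      rcases (b5 v hv).2 _ (hend q hq).1 with h3 | h3 <;> omega
    have c5 : σ (v + 1) ≤ q.2 := by
      rcases (b5 v hv).2 _ (hend q hq).2 with h3 | h3 <;> omega
    have c4 : q.1 = σ v := by
      have := c1.2.1 q hq
      omega
    have c6 : q.2 ≤ σ (v + 1) := by
      have h3 := c2.2.1 q hq
      have h4 := (b5 v hv).1
      omega
    exact Prod.ext c4 (le_antisymm c6 c5)
  set H := (range V).filter fun v => (σ v, σ (v + 1)) ∈ F with hH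
  have memH : ∀ {v}, v ∈ H ↔ v < V ∧ (σ v, σ (v + 1)) ∈ F := by
    intro v
    rw [hH, Finset.mem_filter, Finset.mem_range]
  refine ⟨V, σ, H, ⟨b2, b3, fun v hv => (memH.1 hv).1, fun v hv => (b5 v hv).1, ?_,
    fun v hv => (a1 _ (memH.1 hv).2).2, ?_⟩, ?_⟩
  · intro v hv hvH
    by_contra hcon
    have h1 := (b5 v hv).1
    have h3 := (memC.1 (b4 (v + 1) hv)).1
    -- the next multiple of `L`
    obtain ⟨j, hj1, hj2, hj3⟩ : ∃ j, σ v < j ∧ j ≤ σ v + L ∧ L ∣ j := by
      refine ⟨L * (σ v / L + 1), ?_, ?_, Dvd.intro _ rfl⟩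
      · have := Nat.lt_mul_div_succ (σ v) hL
        exact this
      · have := Nat.mul_div_le (σ v) L
        rw [Nat.mul_add, Nat.mul_one]
        omega
    have h2 : j ∉ C := by
      intro h3
      rcases (b5 v hv).2 _ h3 with h4 | h4 <;> omega
    have h4 : ¬ ∀ q ∈ F, ¬ (q.1 < j ∧ j < q.2) := fun h5 => h2 (memC.2 ⟨by omega, h5, Or.inr (Or.inl hj3)⟩)
    push Not at h4
    obtain ⟨q, hq, h5, h6⟩ := h4
    have h7 := key v hv j (by omega) (by omega) q hq (by omega) h6
    exact hvH (memH.2 ⟨hv, h7 ▸ hq⟩)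
  · intro v hv hvH k hk1 hk2
    have h3 := (memC.1 (b4 (v + 1) hv)).1
    rcases a3 k (by omega) (by omega) with ⟨q, hq, h4, h5⟩ | h4
    · exact absurd (memH.2 ⟨hv, key v hv k hk1 hk2 q hq h4 h5 ▸ hq⟩) hvH
    · exact h4
  · -- the number of light pieces
    have hinj : ∀ v v', v < v' → v' ≤ V → σ v < σ v' := by
      intro v v' h
      induction v', h using Nat.le_induction with
      | base => intro h'; exact (b5 v (by omega)).1
      | succ v' h'' ih =>
        intro h'
        have := ih (by omega)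
        have := (b5 v' (by omega)).1
        omega
    have hloc : ∀ k < n, ∃ v < V, σ v ≤ k ∧ k < σ (v + 1) := by
      intro k hk
      have hex : ∃ w, k < σ w := ⟨V, by omega⟩
      have e1 := Nat.find_spec hex
      have e2 : ∀ m, m < Nat.find hex → ¬ k < σ m := fun m hm => Nat.find_min hex hm
      generalize Nat.find hex = w at e1 e2
      rcases Nat.eq_zero_or_pos w with h0 | h0
      · rw [h0, b2] at e1
        omega
      · obtain ⟨w', rfl⟩ : ∃ w', w = w' + 1 := ⟨w - 1, by omega⟩
        have e3 := e2 w' (by omega)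
        have e4 : ¬ V < w' + 1 := fun h => e2 V h (by omega)
        exact ⟨w', by omega, by omega, e1⟩
    have hFH : F.card ≤ H.card := by
      have h1 : ∀ q ∈ F, ∃ v ∈ H, q = (σ v, σ (v + 1)) := by
        intro q hq
        have h2 := (a1 q hq).2.lt
        have h3 := (a1 q hq).2.le
        obtain ⟨v, hv, h4, h5⟩ := hloc q.1 (by omega)
        have h6 := key v hv q.1 h4 h5 q hq le_rfl h2
        exact ⟨v, memH.2 ⟨hv, h6 ▸ hq⟩, h6⟩
      have h2 : F ⊆ H.image fun v => (σ v, σ (v + 1)) := by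
        intro q hq
        obtain ⟨v, hv, h3⟩ := h1 q hq
        exact Finset.mem_image.2 ⟨v, hv, h3.symm⟩
      exact (Finset.card_le_card h2).trans Finset.card_image_le
    have h1 : ((range V) \ H).card ≤
        (((range n).filter fun j => L ∣ j) ∪ F.image Prod.snd).card := by
      refine Finset.card_le_card_of_injOn σ ?_ ?_
      · intro v hv
        rw [Finset.mem_coe, Finset.mem_sdiff, Finset.mem_range] at hv
        have h2 := memC.1 (b4 v hv.1.le)
        have h3 := hinj v V hv.1 le_rfl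
        rw [Finset.mem_coe, Finset.mem_union, Finset.mem_filter, Finset.mem_range]
        rcases h2.2.2 with h4 | h4 | h4
        · omega
        · exact Or.inl ⟨by omega, h4⟩
        · obtain ⟨q, hq, h5 | h5⟩ := memA.1 h4
          · exfalso
            have h6 := (a1 q hq).2.lt
            have h7 := key v hv.1 (σ v) le_rfl (b5 v hv.1).1 q hq (by omega) (by omega)
            exact hv.2 (memH.2 ⟨hv.1, h7 ▸ hq⟩)
          · exact Or.inr (Finset.mem_image.2 ⟨q, hq, h5⟩)
      · intro v hv v' hv' heq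
        rw [Finset.mem_coe, Finset.mem_sdiff, Finset.mem_range] at hv hv'
        rcases lt_trichotomy v v' with h | h | h
        · have := hinj v v' h hv'.1.le
          omega
        · exact h
        · have := hinj v' v h hv.1.le
          omega
    have h2 : ((range V) \ H).card = V - H.card := by
      rw [Finset.card_sdiff_of_subset fun v hv => Finset.mem_range.2 (memH.1 hv).1, card_range]
    have h3 : ((range n).filter fun j => L ∣ j).card ≤ n / L + 1 := by
      have h4 : ((range n).filter fun j => L ∣ j).card ≤ (range (n / L + 1)).card := by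
        refine Finset.card_le_card_of_injOn (fun j => j / L) ?_ ?_
        · intro j hj
          rw [Finset.mem_coe, Finset.mem_filter, Finset.mem_range] at hj
          rw [Finset.mem_coe, Finset.mem_range, Nat.lt_succ_iff]
          exact Nat.div_le_div_right hj.1.le
        · intro j hj j' hj' heq
          rw [Finset.mem_coe, Finset.mem_filter] at hj hj'
          simp only at heq
          rw [← Nat.mul_div_cancel' hj.2, ← Nat.mul_div_cancel' hj'.2, heq]
      rwa [card_range] at h4
    have h4 : (F.image Prod.snd).card ≤ F.card := Finset.card_image_le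
    have h5 := Finset.card_union_le ((range n).filter fun j => L ∣ j) (F.image Prod.snd)
    have h6 : V - H.card ≤ n / L + (H.card + 1) := by omega
    have h7 := Nat.mul_le_mul_right L h6
    have h8 := Nat.div_mul_le_self n L
    rw [Nat.add_mul] at h7
    omega

end

end Vale.Agent.P106.U.H118
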