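import Vale.Agent.P106.U.H118.HeavyRunM

/-!
# P106 / U / H118 : the heavy intervals over a run, young levels (helper118)

* `mixY V C M k` : the mixed letter: `M k` at the young levels (`V`), `C k` at the old ones.
* `chg V z` : the kind of the level changes between `z` and `z + 1`.
* **`heavy_reV`** : `heavy_reM` for the mixed letters: `V` = set of the young levels, `M k` = letter of the step `k`; inputs at
  the young steps: the `(V, Z)`-step `hVY`, the nesting `hMM` of two consecutive young a-steps, the two junctions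
  `J1 : hc (cell) (M) ≤ jm`, `J2 : hc (M) (cell) ≤ jm`, the strip count `hSY`.  The junctions are paid at the changes of the
  kind of the level (`u2`) and once in the constant.
-/

set_option autoImplicit false

namespace Vale.Agent.P106.U.H118

open Finset Vale.Agent.P127 Vale.Agent.P127.Stk
open Vale.Agent.P127.U.CellD (q2)
open Vale.Agent.P106.U.Cell Vale.Agent.P106.U.S3
open Vale.Agent.P106.U.H833 (aN RN)

/-- mixed letter -/
noncomputable def mixY {Ω S T : Type} (a : ℕ → ℕ) (V : Set ℕ) (C : ℕ → Ω → S) (M : ℕ → Ω → T) (k : ℕ) (ω : Ω) : S ⊕ T := by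
  classical
  exact if a k ∈ V then Sum.inr (M k ω) else Sum.inl (C k ω)

theorem mixY_young {Ω S T : Type} {a : ℕ → ℕ} {V : Set ℕ} {C : ℕ → Ω → S} {M : ℕ → Ω → T} {k : ℕ} (h : a k ∈ V) (ω ω' : Ω) :
    mixY a V C M k ω = mixY a V C M k ω' ↔ M k ω = M k ω' := by
  unfold mixY
  rw [if_pos h, if_pos h, Sum.inr.injEq]

theorem mixY_old {Ω S T : Type} {a : ℕ → ℕ} {V : Set ℕ} {C : ℕ → Ω → S} {M : ℕ → Ω → T} {k : ℕ} (h : a k ∉ V) (ω ω' : Ω) :
    mixY a V C M k ω = mixY a V C M k ω' ↔ C k ω = C k ω' := by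
  unfold mixY
  rw [if_neg h, if_neg h, Sum.inl.injEq]

/-- the kind of the level changes -/
def chg (V : Set ℕ) (z : ℕ) : Prop := ¬ (z ∈ V ↔ z + 1 ∈ V)

/-- price of the change -/
noncomputable def uch (V : Set ℕ) (jm : ℝ) (z : ℕ) : ℝ := by
  classical
  exact if chg V z then jm else 0

theorem uch_nonneg {V : Set ℕ} {jm : ℝ} (h : 0 ≤ jm) (z : ℕ) : 0 ≤ uch V jm z := by
  unfold uch
  split_ifs <;> linarith

variable {Ω : Type} [Fintype Ω] {τ υ : Type} {R : Run Ω τ υ}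

/-- **heavy intervals over a run**, along the indices `f`, young levels `V` -/
theorem heavy_reV {p : Run.Num} {K c' g' gU : ℝ} (h : R.Ok p K c' g' gU) (hK : 1 ≤ K)
    {f : ℕ → ℕ} (hf : Monotone f) {N : ℕ} (hfs : ∀ i k, i < k → k ≤ N → f i < f k) (hfn : ∀ k ≤ N, f k ≤ R.n)
    {A0 R0 b : ℕ} {a r : ℕ → ℕ} (hA : ∀ k ≤ N, R.C.a (f k) = A0 + R.m * a k)
    (hR : ∀ k ≤ N, R.C.R (f k) b = R0 + R.m * r k) (hst : ∀ k < N, a (k + 1) = a k ∨ a (k + 1) = a k + 1)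
    (hf1 : ∀ k < N, a (k + 1) = a k + 1 → R.C.a (f (k + 1)) = R.C.a (f k + 1))
    {ε δ co : ℝ} {c y c3 cY Kμ : ℕ} (hxB : b < p.B₁) (hbx : R.m + y ≤ b)
    (hc : 2 * K * q2 c ≤ 1) (hy : 40 * K ^ 6 * q2 y ≤ 1) (hq : K * q2 R.q ≤ 1)
    (hKμ : 2 * R.m + 2 * c + 1 + y ≤ R.m * Kμ)
    (h3a : (p.s + 1) * R.m + R.m + c + y + 3 * R.C.μ ≤ R.m * c3)
    (h3b : (p.s + 1) * R.m + 3 * R.m + 2 * c + 8 * R.C.μ ≤ R.m * c3)
    (hb8 : 8 * R.C.μ ≤ b) (h9 : 9 * R.C.μ ≤ R.C.R (f 0) b)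
    (hμ : 40 * K ^ 2 * q2 R.C.μ ≤ (1 / 4 : ℝ) ^ R.m)
    -- the young levels
    (V : Set ℕ) {σ : Type} (M : ℕ → Ω → σ) (hMt : ∀ k ≤ N, a k ∈ V → Fn R.Q (td R.C (f k)) (M k))
    {u : ℕ → ℝ} {ν eS jm : ℝ}
    (hVO : ∀ k < N, a (k + 1) = a k + 1 → a k ∉ V → 2 * (R.m * Real.log 2) - u (a k) ≤
      Stk.hc R.Q (R.C.VZ (f (k + 1)) b)
        (fun ω => (td R.C (f (k + 1)) ω, (R.C.cell (f k) b ω, R.C.VZ (f k) b ω))))
    (hVY : ∀ k < N, a (k + 1) = a k + 1 → a k ∈ V → 2 * (R.m * Real.log 2) - u (a k) ≤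
      Stk.hc R.Q (R.C.VZ (f (k + 1)) b) (fun ω => (td R.C (f (k + 1)) ω, (M k ω, R.C.VZ (f k) b ω))))
    (hu : ∀ z, 0 ≤ u z)
    (hν : nuK K + Real.log 45 ≤ ν)
    (hMM : ∀ k k2, k < N → a (k + 1) = a k + 1 → k < k2 → k2 ≤ N → a k2 = a k + 1 → a k ∈ V → a k2 ∈ V →
      Stk.hc R.Q (fun ω => (M k ω, R.C.VZ (f k) b ω)) (fun ω => (M k2 ω, R.C.VZ (f k2) b ω)) ≤ ν)
    (hjm : 0 ≤ jm)
    (J1 : ∀ k ≤ N, a k ∈ V → Stk.hc R.Q (R.C.cell (f k) b) (M k) ≤ jm)
    (J2 : ∀ k ≤ N, a k ∈ V → Stk.hc R.Q (M k) (R.C.cell (f k) b) ≤ jm)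
    (hδ0 : 0 ≤ δ) (heS : eSK (3 * ε + 2 * c') R.m R.C.μ ≤ eS)
    (hδ : eS + ν ≤ δ * (R.m * Real.log 2)) (hδ1 : δ ≤ 1) (hco : 0 ≤ co)
    (hcY : c3 + Kμ ≤ cY)
    (hSY : ∀ i i1, R.Good p ε b (f i) → i < i1 → i1 ≤ N → r i + 3 * (a i1 - a i) + cY < r i1 →
      ∃ Kc : ℕ, Kμ + Kc ≤ 3 * (a i1 - a i) + cY ∧
        ∀ k, i1 ≤ k → k < N → a (k + 1) = a k + 1 → a i1 + Kμ ≤ a k → a k + Kc + r i < a i + r i1 → a k ∈ V →
          Stk.hc (two R.Q (R.XZ (f i) b)) (fun p => R.C.VZ (f (k + 1)) b p.fst)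
            (fun p => (R.C.cell (f i1) b p.snd, (td R.C (f (k + 1)) p.fst, (M k p.fst, R.C.VZ (f k) b p.fst)))) ≤
            R.m * Real.log 2 + eS)
    {xo : ℕ → ℝ} (hxo : ∀ j, 0 ≤ xo j) {cx : ℝ} (hcx : 0 ≤ cx)
    (hov : ∀ i i1, R.Good p ε b (f i) → i < i1 → i1 ≤ N → a N + r i < a i + r i1 →
      R.m * Real.log 2 * ((r i1 : ℝ) - r i) ≤
        ∑ j ∈ Ico i i1, xo j + co + R.m * Real.log 2 * cx * ((a i1 : ℝ) - a i) ∨
      ((a i : ℝ) + r i1 - r i - a N) * (R.m * Real.log 2) * (1 - δ) -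
          (co + ∑ j ∈ Ico i i1, xo j + R.m * Real.log 2 * cx * ((a i1 : ℝ) - a i)) ≤
        Stk.hc (two R.Q (R.XZ (f i) b)) (fun p => R.C.cell (f i1) b p.snd)
          (fun p => (R.C.cell (f N) b p.fst, R.C.VZ (f N) b p.fst))) (M1 : ℕ) :
    ∀ i i1, R.Good p ε b (f i) → i < i1 → i1 ≤ N → r i + M1 < r i1 →
      R.m * Real.log 2 * (1 - δ) * ((r i1 : ℝ) - r i) - R.m * Real.log 2 * (3 + 2 + cx) * ((a i1 : ℝ) - a i) -
        ∑ z ∈ Icc (a i) (a i + (r i1 - r i)), (u z + uch V jm z) -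
        ((cY : ℝ) * (R.m * Real.log 2) + (2 * nuK K + 2 * jm) + co) -
        ∑ j ∈ Ico i i1, (H833.qc R.Q R.ry (fun i => Zw R (f i)) (fun j ω => fl1 (R.C.a (f j)) (R.C.t ω)) j +
          xo j) ≤
      H833.psi R.Q R.ry (fun i => Zw R (f i)) (fun k => R.C.cell (f k) b) i1 -
        H833.psi R.Q R.ry (fun i => Zw R (f i)) (fun k => R.C.cell (f k) b) i := by
  classical
  have hpow : (1 / 4 : ℝ) ^ R.m ≤ 1 := pow_le_one₀ (by norm_num) (by norm_num)
  have hμ10 : 10 * K ^ 2 * q2 R.C.μ ≤ 1 := by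
    have h1 : 0 ≤ K ^ 2 * q2 R.C.μ := mul_nonneg (by positivity) (Vale.Agent.P127.U.CellD.q2_pos _).le
    nlinarith
  have hLev : ∀ k, (R.C.re f hf).Lev k b := fun k =>
    H300.Lev_mono (R.C.re f hf) (Nat.zero_le k) ⟨hb8, (by omega : 8 * R.C.μ ≤ 9 * R.C.μ).trans h9⟩
  have hok : ∀ ω, 0 < R.Q.w ω → (R.C.re f hf).Ok K ω := fun ω hω => Pth.re_ok f hf (h.ok ω hω)
  have hnu := nuK_nonneg K
  have hcc : ∀ k k2, k ≤ k2 → Stk.hc R.Q (fun ω => (R.C.cell (f k) b ω, R.C.VZ (f k) b ω))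
      (fun ω => (R.C.cell (f k2) b ω, R.C.VZ (f k2) b ω)) ≤ nuK K + Real.log 45 := fun k k2 hk =>
    cvz_near R.Q (R.C.re f hf) hK hok (k := k) (k2 := k2) (b := b) hk (hLev k) hμ10
  set Y : ℕ → Ω → _ := mixY a V (fun k => R.C.cell (f k) b) M with hYdef
  have key := heavy_reM h hK hf hfs hfn hA hR hst hf1 (ε := ε) (δ := δ) (co := co) (c := c) (y := y) (c3 := c3) (cY := cY)
    (Kμ := Kμ) hxB hbx hc hy hq hKμ h3a h3b hb8 h9 hμ Y (fun k => a k ∉ V)
    (fun k _ hO ω ω' _ _ e => (mixY_old hO ω ω').2 e)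
    (fun k _ hO ω ω' _ _ e => (mixY_old (C := fun k => R.C.cell (f k) b) (M := M) hO ω ω').1 e)
    (fun k hk hO ω ω' p1 p2 e => hMt k hk (not_not.1 hO) ω ω' p1 p2
      ((mixY_young (C := fun k => R.C.cell (f k) b) (M := M) (not_not.1 hO) ω ω').1 e))
    (u1 := u) (u2 := uch V jm) (ν := ν) (eS := eS) (c0 := nuK K + jm) (cE := jm) hVO
    (fun k hk hak hO => by
      refine (hVY k hk hak (not_not.1 hO)).trans (hc_mono_right R.Q _ fun ω ω' _ _ e => ?_)
      simp only [Prod.mk.injEq] at e ⊢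
      exact ⟨e.1, (mixY_young (C := fun k => R.C.cell (f k) b) (M := M) (not_not.1 hO) ω ω').2 e.2.1, e.2.2⟩)
    hu (uch_nonneg hjm) hν
    (fun k k2 hk hak hk2 hk2N ha2 ha3 hO => by
      by_cases h1 : a k ∈ V
      · by_cases h2 : a k2 ∈ V
        · have e1 := hMM k k2 hk hak hk2 hk2N ha2 h1 h2
          have e2 : Stk.hc R.Q (fun ω => (Y k ω, R.C.VZ (f k) b ω)) (fun ω => (Y k2 ω, R.C.VZ (f k2) b ω)) ≤
              Stk.hc R.Q (fun ω => (M k ω, R.C.VZ (f k) b ω)) (fun ω => (M k2 ω, R.C.VZ (f k2) b ω)) := by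
            refine (hc_mono_left R.Q fun ω ω' _ _ e => ?_).trans (hc_mono_right R.Q _ fun ω ω' _ _ e => ?_)
            · simp only [Prod.mk.injEq] at e ⊢
              exact ⟨(mixY_young h1 ω ω').2 e.1.1, e.1.2⟩
            · simp only [Prod.mk.injEq] at e ⊢
              exact ⟨(mixY_young (C := fun k => R.C.cell (f k) b) (M := M) h2 ω ω').1 e.1, e.2⟩
          have := uch_nonneg (V := V) hjm (a k)
          linarith
        · -- young, old
          have hch : uch V jm (a k) = jm := by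
            unfold uch
            rw [if_pos]
            unfold chg
            rw [← ha2]
            tauto
          have e1 := hcc k k2 hk2.le
          have e2 := J2 k hk.le h1
          have e3 : Stk.hc R.Q (fun ω => (Y k ω, R.C.VZ (f k) b ω)) (fun ω => (Y k2 ω, R.C.VZ (f k2) b ω)) ≤
              Stk.hc R.Q (fun ω => (M k ω, (R.C.cell (f k) b ω, R.C.VZ (f k) b ω)))
                (fun ω => (R.C.cell (f k2) b ω, R.C.VZ (f k2) b ω)) := by
            refine (hc_mono_left R.Q fun ω ω' _ _ e => ?_).trans (hc_mono_right R.Q _ fun ω ω' _ _ e => ?_)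
            · simp only [Prod.mk.injEq] at e ⊢
              exact ⟨(mixY_young h1 ω ω').2 e.1.1, e.1.2.2⟩
            · simp only [Prod.mk.injEq] at e ⊢
              exact ⟨(mixY_old (C := fun k => R.C.cell (f k) b) (M := M) h2 ω ω').1 e.1, e.2⟩
          have e4 := hc_pair R.Q (fun ω => (R.C.cell (f k) b ω, R.C.VZ (f k) b ω)) (M k)
            (fun ω => (R.C.cell (f k2) b ω, R.C.VZ (f k2) b ω))
          have e5 : Stk.hc R.Q (fun ω => (M k ω, (R.C.cell (f k) b ω, R.C.VZ (f k) b ω)))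
              (fun ω => (R.C.cell (f k2) b ω, R.C.VZ (f k2) b ω)) ≤
              Stk.hc R.Q (fun ω => ((R.C.cell (f k) b ω, R.C.VZ (f k) b ω), M k ω))
              (fun ω => (R.C.cell (f k2) b ω, R.C.VZ (f k2) b ω)) :=
            hc_mono_left R.Q fun ω ω' _ _ e => by
              simp only [Prod.mk.injEq] at e ⊢
              exact ⟨e.1.2, e.1.1⟩
          have e6 : Stk.hc R.Q (M k) (fun ω => ((R.C.cell (f k) b ω, R.C.VZ (f k) b ω),
              (R.C.cell (f k2) b ω, R.C.VZ (f k2) b ω))) ≤ Stk.hc R.Q (M k) (R.C.cell (f k) b) :=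
            hc_mono_right R.Q _ fun ω ω' _ _ e => by
              simp only [Prod.mk.injEq] at e
              exact e.1.1
          rw [hch]
          linarith
      · have h2 : a k2 ∈ V := by
          by_contra h3
          exact hO ⟨h1, h3⟩
        have hch : uch V jm (a k) = jm := by
          unfold uch
          rw [if_pos]
          unfold chg
          rw [← ha2]
          tauto
        have e1 := hcc k k2 hk2.le
        have e2 := J1 k2 hk2N h2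
        have e3 : Stk.hc R.Q (fun ω => (Y k ω, R.C.VZ (f k) b ω)) (fun ω => (Y k2 ω, R.C.VZ (f k2) b ω)) ≤
            Stk.hc R.Q (fun ω => (R.C.cell (f k) b ω, R.C.VZ (f k) b ω)) (fun ω => (M k2 ω, R.C.VZ (f k2) b ω)) := by
          refine (hc_mono_left R.Q fun ω ω' _ _ e => ?_).trans (hc_mono_right R.Q _ fun ω ω' _ _ e => ?_)
          · simp only [Prod.mk.injEq] at e ⊢
            exact ⟨(mixY_old h1 ω ω').2 e.1.1, e.1.2⟩
          · simp only [Prod.mk.injEq] at e ⊢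
            exact ⟨(mixY_young (C := fun k => R.C.cell (f k) b) (M := M) h2 ω ω').1 e.1, e.2⟩
        have e4 := hc_le_add' R.Q (fun ω => (R.C.cell (f k) b ω, R.C.VZ (f k) b ω)) (R.C.cell (f k2) b)
          (fun ω => (M k2 ω, R.C.VZ (f k2) b ω))
        have e5 : Stk.hc R.Q (R.C.cell (f k2) b) (fun ω => (M k2 ω, R.C.VZ (f k2) b ω)) ≤
            Stk.hc R.Q (R.C.cell (f k2) b) (M k2) :=
          hc_mono_right R.Q _ fun _ _ _ _ e => congrArg Prod.fst e
        have e6 : Stk.hc R.Q (fun ω => (R.C.cell (f k) b ω, R.C.VZ (f k) b ω))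
            (fun ω => (R.C.cell (f k2) b ω, (M k2 ω, R.C.VZ (f k2) b ω))) ≤
            Stk.hc R.Q (fun ω => (R.C.cell (f k) b ω, R.C.VZ (f k) b ω))
              (fun ω => (R.C.cell (f k2) b ω, R.C.VZ (f k2) b ω)) :=
          hc_mono_right R.Q _ fun ω ω' _ _ e => by
            simp only [Prod.mk.injEq] at e ⊢
            exact ⟨e.1, e.2.2⟩
        rw [hch]
        linarith)
    hδ0 heS hδ hδ1 hco (by linarith)
    (fun i k hik hk hO => by
      have e1 := J1 k hk (not_not.1 hO)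
      have e2 := H300.n2 R.Q (R.C.re f hf) hK hok hik.le (hLev i)
      have e3 : Stk.hc R.Q (R.C.cell (f i) b) (fun ω => (Y k ω, R.C.VZ (f k) b ω)) ≤
          Stk.hc R.Q (R.C.cell (f i) b) (M k) := hc_mono_right R.Q _ fun ω ω' _ _ e => by
        simp only [Prod.mk.injEq] at e
        exact (mixY_young (C := fun k => R.C.cell (f k) b) (M := M) (not_not.1 hO) ω ω').1 e.1
      have e4 := hc_le_add' R.Q (R.C.cell (f i) b) (R.C.cell (f k) b) (M k)
      have e5 : Stk.hc R.Q (R.C.cell (f i) b) (fun ω => (R.C.cell (f k) b ω, M k ω)) ≤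
          Stk.hc R.Q (R.C.cell (f i) b) (R.C.cell (f k) b) :=
        hc_mono_right R.Q _ fun _ _ _ _ e => congrArg Prod.fst e
      have e6 : Stk.hc R.Q (R.C.cell (f i) b) (R.C.cell (f k) b) ≤ nuK K := e2
      linarith)
    hjm
    (fun hO => by
      have e1 := J2 N le_rfl (not_not.1 hO)
      have e3 : Stk.hc R.Q (Y N) (fun ω => (R.C.cell (f N) b ω, R.C.VZ (f N) b ω)) ≤
          Stk.hc R.Q (M N) (R.C.cell (f N) b) := by
        refine (hc_mono_left R.Q fun ω ω' _ _ e => ?_).trans (hc_mono_right R.Q _ fun ω ω' _ _ e => ?_)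
        · simp only [Prod.mk.injEq] at e ⊢
          exact (mixY_young (C := fun k => R.C.cell (f k) b) (not_not.1 hO) ω ω').2 e.1
        · simp only [Prod.mk.injEq] at e
          exact e.1
      linarith)
    hcY
    (fun i i1 hg hi hi1 hJ => by
      obtain ⟨Kc, e1, e2⟩ := hSY i i1 hg hi hi1 hJ
      refine ⟨Kc, e1, fun k k1 k2 k3 k4 k5 hO => ?_⟩
      refine le_trans (hc_mono_right _ _ fun q q' _ _ e => ?_) (e2 k k1 k2 k3 k4 k5 (not_not.1 hO))
      simp only [Prod.mk.injEq] at e ⊢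
      exact ⟨e.1, e.2.1, (mixY_young (C := fun k => R.C.cell (f k) b) (M := M) (not_not.1 hO) q.fst q'.fst).1 e.2.2.1,
        e.2.2.2⟩)
    hxo hcx hov M1
  intro i i1 hg hi hi1 hM
  have := key i i1 hg hi hi1 hM
  linarith

end Vale.Agent.P106.U.H118
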