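import Vale.Agent.P106.U.H118.RiseX
import Vale.Agent.P106.U.H118.HeavyV

/-!
# P106 / U / H118 : the heavy intervals over a run, young levels of several kinds (helper118)

* `usw S jm x z` : price of a switch of the letter at the level `z` : `2 jm + x (z + 1)` on `S`.
* **`heavy_reX`** : the heavy intervals for the mixed letters: `V` = set of the young levels, `M k` = letter of the step `k`
  (any kind), `S` = set of levels where the kind may change; inputs at the young steps: the `(V, Z)`-step `hVY`, the nesting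
  `hMM` of two consecutive young time steps off `S`, the two junctions `J1 : hc (cell) (M) ≤ jm + x (level)`,
  `J2 : hc (M) (cell) ≤ jm`, the strip count `hSY`.
-/

set_option autoImplicit false

namespace Vale.Agent.P106.U.H118

open Finset Vale.Agent.P127 Vale.Agent.P127.Stk
open Vale.Agent.P127.U.CellD (q2)
open Vale.Agent.P106.U.Cell Vale.Agent.P106.U.S3
open Vale.Agent.P106.U.H833 (aN RN)

/-- price of the switch -/
noncomputable def usw (S : Set ℕ) (jm : ℝ) (x : ℕ → ℝ) (z : ℕ) : ℝ := by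
  classical
  exact if z ∈ S then 2 * jm + x (z + 1) else 0

theorem usw_nonneg {S : Set ℕ} {jm : ℝ} (h : 0 ≤ jm) {x : ℕ → ℝ} (hx : ∀ z, 0 ≤ x z) (z : ℕ) : 0 ≤ usw S jm x z := by
  unfold usw
  have := hx (z + 1)
  split_ifs <;> linarith

variable {Ω : Type} [Fintype Ω] {τ υ : Type} {R : Run Ω τ υ}

/-- **heavy intervals over a run**, along the indices `f`, young levels `V` of several kinds -/
theorem heavy_reX {p : Run.Num} {K c' g' gU : ℝ} (h : R.Ok p K c' g' gU) (hK : 1 ≤ K)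
    {f : ℕ → ℕ} (hf : Monotone f) {N : ℕ} (hfs : ∀ i k, i < k → k ≤ N → f i < f k) (hfn : ∀ k ≤ N, f k ≤ R.n)
    {A0 R0 b : ℕ} {a r : ℕ → ℕ} (hA : ∀ k ≤ N, R.C.a (f k) = A0 + R.m * a k)
    (hR : ∀ k ≤ N, R.C.R (f k) b = R0 + R.m * r k) (hst : ∀ k < N, a (k + 1) = a k ∨ a (k + 1) = a k + 1)
    (hf1 : ∀ k < N, a (k + 1) = a k + 1 → R.C.a (f (k + 1)) = R.C.a (f k + 1))
    {ε δ co : ℝ} {c y c3 cY Kμ : ℕ} (hxB : b < p.B₁) (hbx : R.m + y ≤ b)
    (hc : 2 * K * q2 c ≤ 1) (hy : 40 * K ^ 6 * q2 y ≤ 1) (hq : K * q2 R.q ≤ 1)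
    (hKμ : 2 * R.m + 2 * c + 1 + y ≤ R.m * Kμ)
    (h3a : (p.s + 1) * R.m + R.m + c + y + 3 * R.C.μ ≤ R.m * c3)
    (h3b : (p.s + 1) * R.m + 3 * R.m + 2 * c + 8 * R.C.μ ≤ R.m * c3)
    (hb8 : 8 * R.C.μ ≤ b) (h9 : 9 * R.C.μ ≤ R.C.R (f 0) b)
    (hμ : 40 * K ^ 2 * q2 R.C.μ ≤ (1 / 4 : ℝ) ^ R.m)
    -- the young levels
    (V S : Set ℕ) {σ : Type} (M : ℕ → Ω → σ) (hMt : ∀ k ≤ N, a k ∈ V → Fn R.Q (td R.C (f k)) (M k))
    {u x : ℕ → ℝ} {ν eS jm : ℝ}
    (hVO : ∀ k < N, a (k + 1) = a k + 1 → a k ∉ V → 2 * (R.m * Real.log 2) - u (a k) ≤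
      Stk.hc R.Q (R.C.VZ (f (k + 1)) b)
        (fun ω => (td R.C (f (k + 1)) ω, (R.C.cell (f k) b ω, R.C.VZ (f k) b ω))))
    (hVY : ∀ k < N, a (k + 1) = a k + 1 → a k ∈ V → 2 * (R.m * Real.log 2) - u (a k) ≤
      Stk.hc R.Q (R.C.VZ (f (k + 1)) b) (fun ω => (td R.C (f (k + 1)) ω, (M k ω, R.C.VZ (f k) b ω))))
    (hu : ∀ z, 0 ≤ u z) (hx : ∀ z, 0 ≤ x z)
    (hν : nuK K + Real.log 45 ≤ ν)
    (hVS : ∀ z, z ∉ S → (z ∈ V ↔ z + 1 ∈ V))
    (hMM : ∀ k k2, k < N → a (k + 1) = a k + 1 → k < k2 → k2 ≤ N → a k2 = a k + 1 →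
      (k2 = N ∨ a (k2 + 1) = a k2 + 1) → a k ∈ V → a k2 ∈ V → a k ∉ S →
      Stk.hc R.Q (fun ω => (M k ω, R.C.VZ (f k) b ω)) (fun ω => (M k2 ω, R.C.VZ (f k2) b ω)) ≤ ν)
    (hjm : 0 ≤ jm)
    (J1 : ∀ k ≤ N, a k ∈ V → (k = N ∨ a (k + 1) = a k + 1) → Stk.hc R.Q (R.C.cell (f k) b) (M k) ≤ jm + x (a k))
    (J2 : ∀ k ≤ N, a k ∈ V → (k = N ∨ a (k + 1) = a k + 1) → Stk.hc R.Q (M k) (R.C.cell (f k) b) ≤ jm)
    (hδ0 : 0 ≤ δ) (heS : eSK (3 * ε + 2 * c') R.m R.C.μ ≤ eS)
    (hδ : eS + ν ≤ δ * (R.m * Real.log 2)) (hδ1 : δ ≤ 1) (hco : 0 ≤ co)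
    (hcY : c3 + Kμ ≤ cY)
    (hSY : ∀ i i1, R.Good p ε b (f i) → i < i1 → i1 ≤ N → r i + 3 * (a i1 - a i) + cY < r i1 →
      ∃ Kc : ℕ, Kμ + Kc ≤ 3 * (a i1 - a i) + cY ∧
        ∀ k, i1 ≤ k → k < N → a (k + 1) = a k + 1 → a i1 + Kμ ≤ a k → a k + Kc + r i < a i + r i1 → a k ∈ V →
          Stk.hc (two R.Q (R.XZ (f i) b)) (fun p => R.C.VZ (f (k + 1)) b p.fst)
            (fun p => (R.C.cell (f i1) b p.snd, (td R.C (f (k + 1)) p.fst, (M k p.fst, R.C.VZ (f k) b p.fst)))) ≤
            R.m * Real.log 2 + eS)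
    {xo : ℕ → ℝ} (hxo : ∀ j, 0 ≤ xo j) {cx : ℝ} (hcx : 0 ≤ cx)
    (hov : ∀ i i1, R.Good p ε b (f i) → i < i1 → i1 ≤ N → a N + r i < a i + r i1 →
      R.m * Real.log 2 * ((r i1 : ℝ) - r i) ≤
        ∑ j ∈ Ico i i1, xo j + co + R.m * Real.log 2 * cx * ((a i1 : ℝ) - a i) ∨
      ((a i : ℝ) + r i1 - r i - a N) * (R.m * Real.log 2) * (1 - δ) -
          (co + ∑ j ∈ Ico i i1, xo j + R.m * Real.log 2 * cx * ((a i1 : ℝ) - a i)) ≤
        Stk.hc (two R.Q (R.XZ (f i) b)) (fun p => R.C.cell (f i1) b p.snd)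
          (fun p => (R.C.cell (f N) b p.fst, R.C.VZ (f N) b p.fst))) (M1 : ℕ) :
    ∀ i i1, R.Good p ε b (f i) → i < i1 → i1 ≤ N → r i + M1 < r i1 →
      R.m * Real.log 2 * (1 - δ) * ((r i1 : ℝ) - r i) - R.m * Real.log 2 * (3 + 2 + cx) * ((a i1 : ℝ) - a i) -
        ∑ z ∈ Icc (a i) (a i + (r i1 - r i)), (u z + usw S jm x z + x z) -
        ((cY : ℝ) * (R.m * Real.log 2) + (2 * nuK K + 2 * jm) + co) -
        ∑ j ∈ Ico i i1, (H833.qc R.Q R.ry (fun i => Zw R (f i)) (fun j ω => fl1 (R.C.a (f j)) (R.C.t ω)) j +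
          xo j) ≤
      H833.psi R.Q R.ry (fun i => Zw R (f i)) (fun k => R.C.cell (f k) b) i1 -
        H833.psi R.Q R.ry (fun i => Zw R (f i)) (fun k => R.C.cell (f k) b) i := by
  classical
  have hpow : (1 / 4 : ℝ) ^ R.m ≤ 1 := pow_le_one₀ (by norm_num) (by norm_num)
  have hμ10 : 10 * K ^ 2 * q2 R.C.μ ≤ 1 := by
    have h1 : 0 ≤ K ^ 2 * q2 R.C.μ := mul_nonneg (by positivity) (Vale.Agent.P127.U.CellD.q2_pos _).le
    nlinarith
  have hLev : ∀ k, (R.C.re f hf).Lev k b := fun k =>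
    H300.Lev_mono (R.C.re f hf) (Nat.zero_le k) ⟨hb8, (by omega : 8 * R.C.μ ≤ 9 * R.C.μ).trans h9⟩
  have hok : ∀ ω, 0 < R.Q.w ω → (R.C.re f hf).Ok K ω := fun ω hω => Pth.re_ok f hf (h.ok ω hω)
  have hnu := nuK_nonneg K
  have hcc : ∀ k k2, k ≤ k2 → Stk.hc R.Q (fun ω => (R.C.cell (f k) b ω, R.C.VZ (f k) b ω))
      (fun ω => (R.C.cell (f k2) b ω, R.C.VZ (f k2) b ω)) ≤ nuK K + Real.log 45 := fun k k2 hk =>
    cvz_near R.Q (R.C.re f hf) hK hok (k := k) (k2 := k2) (b := b) hk (hLev k) hμ10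
  have hpr := Run.hpair_re (ε := ε) h hK (R.C.re f hf) (f := f) (n := N) rfl rfl rfl (fun _ _ => rfl)
    (fun _ _ => rfl) (fun _ _ _ _ => rfl) (fun ω hω => Pth.re_ok f hf hω) hfs hfn hf1 (A0 := A0) (R0 := R0)
    (a := a) (r := r) hA hR hxB hbx hc hy hq hKμ h3a h3b (fun i => R.XZ (f i) b)
    (fun i _ _ _ _ _ e => e) (fun i _ _ _ _ _ e => e)
  have hm1 := h.pth.m1
  have ham : ∀ k k', k ≤ k' → k' ≤ N → a k ≤ a k' := by
    intro k k' hk
    induction k', hk using Nat.le_induction with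
    | base => intro _; exact le_rfl
    | succ k' _ ih =>
      intro h2
      have h3 := ih (by omega)
      rcases hst k' (by omega) with h4 | h4 <;> omega
  set Y : ℕ → Ω → _ := mixY a V (fun k => R.C.cell (f k) b) M with hYdef
  have key := heavy_capX R.Q (R.C.re f hf) (n := N) (m := R.m) (b := b) (A0 := A0) (a := a) (R := r) hA hst R.ry
    (Z := fun i => Zw R (f i))
    (fun i _ ω ω' p1 p2 e => by
      simp only [Zw, Prod.mk.injEq] at e ⊢
      exact ⟨h.Um (f i) (f (i + 1)) (hf (Nat.le_succ i)) ω ω' p1 p2 e.1,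
        R.C.T_anti' (hf (Nat.le_succ i)) e.2⟩)
    (fun i _ ω ω' _ _ e => by
      simp only [Zw, Prod.mk.injEq] at e
      exact e.2)
    (fun i hi ω ω' p1 p2 e => by
      have := (Run.XZ_equiv h b (f i) (hfn i hi)).2 ω ω' p1 p2 e
      simp only [Run.XZ, Prod.mk.injEq] at this
      exact this.2)
    Y (fun i => R.XZ (f i) b)
    (fun i _ ω ω' _ _ e => by
      simp only [Run.XZ, Prod.mk.injEq] at e
      exact e.2) (u1 := u) (u2 := usw S jm x) (u3 := x) (ν := ν) (eS := eS) (δ := δ) (co := co)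
    (c0 := nuK K + jm) (cE := jm) (cN := nuK K)
    (fun k hk => by
      by_cases hO : a k ∈ V
      · intro ω ω' p1 p2 e
        exact hMt k hk hO ω ω' p1 p2 ((mixY_young (C := fun k => R.C.cell (f k) b) (M := M) hO ω ω').1 e)
      · intro ω ω' p1 p2 e
        exact td_of_T (C := R.C.re f hf) (cell_T (C := R.C.re f hf)
          ((mixY_old (C := fun k => R.C.cell (f k) b) (M := M) hO ω ω').1 e)))
    (fun k hk hak => by
      by_cases hO : a k ∈ V
      · refine (hVY k hk hak hO).trans (hc_mono_right R.Q _ fun ω ω' p1 p2 e => ?_)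
        simp only [Prod.mk.injEq] at e ⊢
        exact ⟨e.1, (mixY_young (C := fun k => R.C.cell (f k) b) (M := M) hO ω ω').2 e.2.1, e.2.2⟩
      · refine (hVO k hk hak hO).trans (hc_mono_right R.Q _ fun ω ω' p1 p2 e => ?_)
        simp only [Prod.mk.injEq] at e ⊢
        exact ⟨e.1, (mixY_old (C := fun k => R.C.cell (f k) b) (M := M) hO ω ω').2 e.2.1, e.2.2⟩)
    hu (usw_nonneg hjm hx) hx
    (fun k k2 hk hak hk2 hk2N ha2 ha3 => by
      change Stk.hc R.Q (fun ω => (Y k ω, R.C.VZ (f k) b ω)) (fun ω => (Y k2 ω, R.C.VZ (f k2) b ω)) ≤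
        ν + usw S jm x (a k)
      have e1 := hcc k k2 hk2.le
      have hus := usw_nonneg (S := S) hjm hx (a k)
      by_cases h1 : a k ∈ V
      · by_cases h2 : a k2 ∈ V
        · by_cases hs : a k ∈ S
          · -- young, young, other kind
            have hch : usw S jm x (a k) = 2 * jm + x (a k2) := by
              unfold usw
              rw [if_pos hs, ha2]
            have e2 := J2 k hk.le h1 (Or.inr hak)
            have e3 := J1 k2 hk2N h2 ha3
            -- cells in between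
            set A : Ω → _ := fun ω => (R.C.cell (f k) b ω, R.C.VZ (f k) b ω) with hA'
            set B : Ω → _ := fun ω => (M k2 ω, R.C.VZ (f k2) b ω) with hB'
            have f1 : Stk.hc R.Q (fun ω => (Y k ω, R.C.VZ (f k) b ω)) (fun ω => (Y k2 ω, R.C.VZ (f k2) b ω)) ≤
                Stk.hc R.Q (fun ω => (A ω, M k ω)) B := by
              refine (hc_mono_left R.Q fun ω ω' _ _ e => ?_).trans (hc_mono_right R.Q _ fun ω ω' _ _ e => ?_)
              · simp only [hA', Prod.mk.injEq] at e ⊢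
                exact ⟨(mixY_young h1 ω ω').2 e.1.2, e.1.1.2⟩
              · simp only [hB', Prod.mk.injEq] at e ⊢
                exact ⟨(mixY_young (C := fun k => R.C.cell (f k) b) (M := M) h2 ω ω').1 e.1, e.2⟩
            have f2 := hc_pair R.Q A (M k) B
            have f3 : Stk.hc R.Q (M k) (fun ω => (A ω, B ω)) ≤ Stk.hc R.Q (M k) (R.C.cell (f k) b) :=
              hc_mono_right R.Q _ fun ω ω' _ _ e => by
                simp only [hA', Prod.mk.injEq] at e
                exact e.1.1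
            have f4 := hc_le_add' R.Q A (R.C.cell (f k2) b) B
            have f5 : Stk.hc R.Q (R.C.cell (f k2) b) B ≤ Stk.hc R.Q (R.C.cell (f k2) b) (M k2) :=
              hc_mono_right R.Q _ fun _ _ _ _ e => congrArg Prod.fst e
            have f6 : Stk.hc R.Q A (fun ω => (R.C.cell (f k2) b ω, B ω)) ≤
                Stk.hc R.Q A (fun ω => (R.C.cell (f k2) b ω, R.C.VZ (f k2) b ω)) :=
              hc_mono_right R.Q _ fun ω ω' _ _ e => by
                simp only [hB', Prod.mk.injEq] at e ⊢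
                exact ⟨e.1, e.2.2⟩
            rw [hch]
            linarith
          · have e2 := hMM k k2 hk hak hk2 hk2N ha2 ha3 h1 h2 hs
            have e3 : Stk.hc R.Q (fun ω => (Y k ω, R.C.VZ (f k) b ω)) (fun ω => (Y k2 ω, R.C.VZ (f k2) b ω)) ≤
                Stk.hc R.Q (fun ω => (M k ω, R.C.VZ (f k) b ω)) (fun ω => (M k2 ω, R.C.VZ (f k2) b ω)) := by
              refine (hc_mono_left R.Q fun ω ω' _ _ e => ?_).trans (hc_mono_right R.Q _ fun ω ω' _ _ e => ?_)
              · simp only [Prod.mk.injEq] at e ⊢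
                exact ⟨(mixY_young h1 ω ω').2 e.1.1, e.1.2⟩
              · simp only [Prod.mk.injEq] at e ⊢
                exact ⟨(mixY_young (C := fun k => R.C.cell (f k) b) (M := M) h2 ω ω').1 e.1, e.2⟩
            linarith
        · -- young, old
          have hs : a k ∈ S := by
            by_contra hs
            exact h2 (ha2 ▸ (hVS _ hs).1 h1)
          have hch : usw S jm x (a k) = 2 * jm + x (a k2) := by
            unfold usw
            rw [if_pos hs, ha2]
          have hxx := hx (a k2)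
          have e2 := J2 k hk.le h1 (Or.inr hak)
          have e3 : Stk.hc R.Q (fun ω => (Y k ω, R.C.VZ (f k) b ω)) (fun ω => (Y k2 ω, R.C.VZ (f k2) b ω)) ≤
              Stk.hc R.Q (fun ω => ((R.C.cell (f k) b ω, R.C.VZ (f k) b ω), M k ω))
                (fun ω => (R.C.cell (f k2) b ω, R.C.VZ (f k2) b ω)) := by
            refine (hc_mono_left R.Q fun ω ω' _ _ e => ?_).trans (hc_mono_right R.Q _ fun ω ω' _ _ e => ?_)
            · simp only [Prod.mk.injEq] at e ⊢
              exact ⟨(mixY_young h1 ω ω').2 e.1.2, e.1.1.2⟩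
            · simp only [Prod.mk.injEq] at e ⊢
              exact ⟨(mixY_old (C := fun k => R.C.cell (f k) b) (M := M) h2 ω ω').1 e.1, e.2⟩
          have e4 := hc_pair R.Q (fun ω => (R.C.cell (f k) b ω, R.C.VZ (f k) b ω)) (M k)
            (fun ω => (R.C.cell (f k2) b ω, R.C.VZ (f k2) b ω))
          have e6 : Stk.hc R.Q (M k) (fun ω => ((R.C.cell (f k) b ω, R.C.VZ (f k) b ω),
              (R.C.cell (f k2) b ω, R.C.VZ (f k2) b ω))) ≤ Stk.hc R.Q (M k) (R.C.cell (f k) b) :=
            hc_mono_right R.Q _ fun ω ω' _ _ e => by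
              simp only [Prod.mk.injEq] at e
              exact e.1.1
          rw [hch]
          linarith
      · by_cases h2 : a k2 ∈ V
        · have hs : a k ∈ S := by
            by_contra hs
            exact h1 ((hVS _ hs).2 (ha2 ▸ h2))
          have hch : usw S jm x (a k) = 2 * jm + x (a k2) := by
            unfold usw
            rw [if_pos hs, ha2]
          have e2 := J1 k2 hk2N h2 ha3
          have e3 : Stk.hc R.Q (fun ω => (Y k ω, R.C.VZ (f k) b ω)) (fun ω => (Y k2 ω, R.C.VZ (f k2) b ω)) ≤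
              Stk.hc R.Q (fun ω => (R.C.cell (f k) b ω, R.C.VZ (f k) b ω)) (fun ω => (M k2 ω, R.C.VZ (f k2) b ω)) := by
            refine (hc_mono_left R.Q fun ω ω' _ _ e => ?_).trans (hc_mono_right R.Q _ fun ω ω' _ _ e => ?_)
            · simp only [Prod.mk.injEq] at e ⊢
              exact ⟨(mixY_old h1 ω ω').2 e.1.1, e.1.2⟩
            · simp only [Prod.mk.injEq] at e ⊢
              exact ⟨(mixY_young (C := fun k => R.C.cell (f k) b) (M := M) h2 ω ω').1 e.1, e.2⟩
          have e4 := hc_le_add' R.Q (fun ω => (R.C.cell (f k) b ω, R.C.VZ (f k) b ω)) (R.C.cell (f k2) b)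
            (fun ω => (M k2 ω, R.C.VZ (f k2) b ω))
          have e5 : Stk.hc R.Q (R.C.cell (f k2) b) (fun ω => (M k2 ω, R.C.VZ (f k2) b ω)) ≤
              Stk.hc R.Q (R.C.cell (f k2) b) (M k2) :=
            hc_mono_right R.Q _ fun _ _ _ _ e => congrArg Prod.fst e
          have e6 : Stk.hc R.Q (fun ω => (R.C.cell (f k) b ω, R.C.VZ (f k) b ω))
              (fun ω => (R.C.cell (f k2) b ω, (M k2 ω, R.C.VZ (f k2) b ω))) ≤
              Stk.hc R.Q (fun ω => (R.C.cell (f k) b ω, R.C.VZ (f k) b ω))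
                (fun ω => (R.C.cell (f k2) b ω, R.C.VZ (f k2) b ω)) :=
            hc_mono_right R.Q _ fun ω ω' _ _ e => by
              simp only [Prod.mk.injEq] at e ⊢
              exact ⟨e.1, e.2.2⟩
          rw [hch]
          linarith
        · have e2 : Stk.hc R.Q (fun ω => (Y k ω, R.C.VZ (f k) b ω)) (fun ω => (Y k2 ω, R.C.VZ (f k2) b ω)) ≤
              Stk.hc R.Q (fun ω => (R.C.cell (f k) b ω, R.C.VZ (f k) b ω))
                (fun ω => (R.C.cell (f k2) b ω, R.C.VZ (f k2) b ω)) := by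
            refine (hc_mono_left R.Q fun ω ω' _ _ e => ?_).trans (hc_mono_right R.Q _ fun ω ω' _ _ e => ?_)
            · simp only [Prod.mk.injEq] at e ⊢
              exact ⟨(mixY_old h1 ω ω').2 e.1.1, e.1.2⟩
            · simp only [Prod.mk.injEq] at e ⊢
              exact ⟨(mixY_old (C := fun k => R.C.cell (f k) b) (M := M) h2 ω ω').1 e.1, e.2⟩
          linarith)
    hδ0 hδ hδ1 hco (by linarith)
    (fun i k hik hk hk3 => by
      have e2 : Stk.hc R.Q (R.C.cell (f i) b) (R.C.cell (f k) b) ≤ nuK K :=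
        H300.n2 R.Q (R.C.re f hf) hK hok hik.le (hLev i)
      have hxx := hx (a k)
      by_cases hO : a k ∈ V
      · have e1 := J1 k hk hO hk3
        have e3 : Stk.hc R.Q (R.C.cell (f i) b) (fun ω => (Y k ω, R.C.VZ (f k) b ω)) ≤
            Stk.hc R.Q (R.C.cell (f i) b) (M k) := hc_mono_right R.Q _ fun ω ω' _ _ e => by
          simp only [Prod.mk.injEq] at e
          exact (mixY_young (C := fun k => R.C.cell (f k) b) (M := M) hO ω ω').1 e.1
        have e4 := hc_le_add' R.Q (R.C.cell (f i) b) (R.C.cell (f k) b) (M k)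
        have e5 : Stk.hc R.Q (R.C.cell (f i) b) (fun ω => (R.C.cell (f k) b ω, M k ω)) ≤
            Stk.hc R.Q (R.C.cell (f i) b) (R.C.cell (f k) b) :=
          hc_mono_right R.Q _ fun _ _ _ _ e => congrArg Prod.fst e
        change Stk.hc R.Q (R.C.cell (f i) b) (fun ω => (Y k ω, R.C.VZ (f k) b ω)) ≤ _
        linarith
      · have e3 : Stk.hc R.Q (R.C.cell (f i) b) (fun ω => (Y k ω, R.C.VZ (f k) b ω)) ≤
            Stk.hc R.Q (R.C.cell (f i) b) (R.C.cell (f k) b) := hc_mono_right R.Q _ fun ω ω' _ _ e => by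
          simp only [Prod.mk.injEq] at e
          exact (mixY_old (C := fun k => R.C.cell (f k) b) (M := M) hO ω ω').1 e.1
        change Stk.hc R.Q (R.C.cell (f i) b) (fun ω => (Y k ω, R.C.VZ (f k) b ω)) ≤ _
        linarith)
    (by
      by_cases hO : a N ∈ V
      · have e1 := J2 N le_rfl hO (Or.inl rfl)
        have e3 : Stk.hc R.Q (Y N) (fun ω => (R.C.cell (f N) b ω, R.C.VZ (f N) b ω)) ≤
            Stk.hc R.Q (M N) (R.C.cell (f N) b) := by
          refine (hc_mono_left R.Q fun ω ω' _ _ e => ?_).trans (hc_mono_right R.Q _ fun ω ω' _ _ e => ?_)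
          · simp only [Prod.mk.injEq] at e ⊢
            exact (mixY_young (C := fun k => R.C.cell (f k) b) hO ω ω').2 e.1
          · simp only [Prod.mk.injEq] at e
            exact e.1
        change Stk.hc R.Q (Y N) (fun ω => (R.C.cell (f N) b ω, R.C.VZ (f N) b ω)) ≤ _
        linarith
      · refine le_trans (le_of_eq (hc_zero R.Q ?_)) hjm
        intro ω ω' p1 p2 e
        simp only [Prod.mk.injEq] at e
        exact (mixY_old hO ω ω').2 e.1)
    (fun i k hik _ => H300.n2 R.Q (R.C.re f hf) hK hok hik (hLev i))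
    (fun i => R.Good p ε b (f i)) M1 cY 3 hxo hcx
    (fun i i1 hg hi hi1 _ hJ => by
      by_cases hcs : R.m * Real.log 2 * ((r i1 : ℝ) - r i) ≤
          ∑ j ∈ Ico i i1, xo j + co + R.m * Real.log 2 * cx * ((a i1 : ℝ) - a i)
      · exact Or.inl hcs
      · obtain ⟨m', Kc, e1, e2, e3⟩ := hpr i i1 hg hi hi1 (by omega)
        obtain ⟨Kc2, d2, d3⟩ := hSY i i1 hg hi hi1 hJ
        refine Or.inr ⟨Kμ, max Kc Kc2, by omega, fun k k1 k2 k3 k4 k5 => ?_, fun ho => ?_⟩
        · by_cases hO : a k ∈ V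
          · refine le_trans (hc_mono_right _ _ fun q q' _ _ e => ?_) (d3 k k1 k2 k3 k4 (by omega) hO)
            simp only [Prod.mk.injEq] at e ⊢
            exact ⟨e.1, e.2.1, (mixY_young (C := fun k => R.C.cell (f k) b) (M := M) hO q.fst q'.fst).1 e.2.2.1,
              e.2.2.2⟩
          · have hai : a i ≤ a i1 := ham i i1 hi.le hi1
            have hak1 : a i1 ≤ a k := ham i1 k k1 k2.le
            have hSL : SLv (R.C.re f hf) i i1 k b R.m m' := by
              have d1 : (R.C.re f hf).a k = A0 + R.m * a k := hA k k2.le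
              have d2 : (R.C.re f hf).a (k + 1) = A0 + R.m * a (k + 1) := hA (k + 1) k2
              have d3 : (R.C.re f hf).R k b = R0 + R.m * r k := hR k k2.le
              have d5 : (R.C.re f hf).R i b = R0 + R.m * r i := hR i (by omega)
              have d6 : (R.C.re f hf).R i1 b = R0 + R.m * r i1 := hR i1 hi1
              have d7 : (R.C.re f hf).a i = A0 + R.m * a i := hA i (by omega)
              have d4 := H300.R_mono (R.C.re f hf) k1 b
              have d8 := H300.R_mono (R.C.re f hf) (Nat.zero_le k) b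
              have d9 : (R.C.re f hf).μ = R.C.μ := rfl
              have d10 : (R.C.re f hf).R 0 b = R.C.R (f 0) b := rfl
              rw [d9] at e1
              refine ⟨hi.le, k1, ?_, hb8, ?_, ?_, ?_⟩
              · rw [d1, d2, k3]
                ring
              · rw [d9]
                exact (h9.trans (le_of_eq d10.symm)).trans d8
              · have g1 : r i + Kc ≤ r i1 := by omega
                have g2 : R.m * (r i + Kc) ≤ R.m * r i1 := Nat.mul_le_mul_left _ g1
                rw [Nat.mul_add] at g2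
                rw [d9]
                omega
              · have g1 : a k + Kc + r i ≤ a i + r i1 := by omega
                have g2 : R.m * (a k + Kc + r i) ≤ R.m * (a i + r i1) := Nat.mul_le_mul_left _ g1
                rw [d1, d5, d7, d6, d9]
                rw [Nat.mul_add R.m (a k + Kc) (r i), Nat.mul_add R.m (a k) Kc,
                  Nat.mul_add R.m (a i) (r i1)] at g2
                omega
            have s1 := strip_eS R.Q (R.C.re f hf) hK hSL hμ (R.XZ (f i) b)
              (fun ω ω' _ _ e => Run.XZ_l h e) (e3 k k1 k2 k3 k4)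
            have s2 : Stk.hc (two R.Q (R.XZ (f i) b)) (fun p => (R.C.re f hf).VZ (k + 1) b p.fst)
                (fun p => ((R.C.re f hf).cell i1 b p.snd, (td (R.C.re f hf) (k + 1) p.fst,
                  (Y k p.fst, (R.C.re f hf).VZ k b p.fst)))) ≤
                Stk.hc (two R.Q (R.XZ (f i) b)) (fun p => (R.C.re f hf).VZ (k + 1) b p.fst)
                (fun p => ((R.C.re f hf).cell i1 b p.snd, (td (R.C.re f hf) (k + 1) p.fst,
                  ((R.C.re f hf).cell k b p.fst, (R.C.re f hf).VZ k b p.fst)))) := by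
              refine hc_mono_right _ _ fun q q' p1 p2 e => ?_
              simp only [Prod.mk.injEq] at e ⊢
              exact ⟨e.1, e.2.1, (mixY_old (C := fun k => R.C.cell (f k) b) (M := M) hO q.fst q'.fst).1 e.2.2.1,
                e.2.2.2⟩
            have s3 : eSK (3 * ε + 2 * c') R.m (R.C.re f hf).μ = eSK (3 * ε + 2 * c') R.m R.C.μ := rfl
            rw [s3] at s1
            linarith
        · exact (hov i i1 hg hi hi1 (by omega)).resolve_left hcs)
  intro i i1 hg hi hi1 hM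
  have := key i i1 hg hi hi1 hM
  rw [show 2 * nuK K + 2 * jm = nuK K + jm + jm + nuK K by ring]
  push_cast at this ⊢
  exact this

end Vale.Agent.P106.U.H118
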