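import Vale.Agent.P106.U.H118.Word

/-!
# P106 / U / H118 : the summation over the word (helper118)

Interface of helper833: everything is about one real function `psi` on the states `0, …, n` of the path.
-/

set_option autoImplicit false

namespace Vale.Agent.P106.U.H118

open Finset

/-- the path at one base level : unit or null steps -/
structure Sdat (n : ℕ) (g : ℕ → Prop) (a R : ℕ → ℕ) : Prop where
  hr : ∀ i < n, R (i + 1) = R i ∨ (R (i + 1) = R i + 1 ∧ ¬ g i)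
  ha : ∀ i < n, a (i + 1) = a i ∨ (a (i + 1) = a i + 1 ∧ R (i + 1) = R i)
  ga : ∀ i < n, g i → a (i + 1) = a i + 1

open Classical in
/-- the counted steps of `[i, k)` : a-steps, and r-steps with a near good a-step on the same level -/
noncomputable def CS (M n : ℕ) (g : ℕ → Prop) (a R : ℕ → ℕ) (i k : ℕ) : Finset ℕ :=
  (Ico i k).filter fun j => a (j + 1) = a j + 1 ∨
    (R (j + 1) = R j + 1 ∧ ∃ q, j < q ∧ q < n ∧ g q ∧ a q = a j ∧ R q ≤ R j + M)

/-- full weight of a step -/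
def full (m : ℝ) (a R : ℕ → ℕ) (j : ℕ) : ℝ :=
  3 * m * ((a (j + 1) : ℝ) - a j) + m * ((R (j + 1) : ℝ) - R j)

section

variable {n : ℕ} {g : ℕ → Prop} {a R : ℕ → ℕ}

theorem mem_CS {M i k j : ℕ} : j ∈ CS M n g a R i k ↔ (i ≤ j ∧ j < k) ∧ (a (j + 1) = a j + 1 ∨
    (R (j + 1) = R j + 1 ∧ ∃ q, j < q ∧ q < n ∧ g q ∧ a q = a j ∧ R q ≤ R j + M)) := by
  classical
  unfold CS
  rw [Finset.mem_filter, Finset.mem_Ico]

theorem Sdat.am (D : Sdat n g a R) {i j : ℕ} (hij : i ≤ j) (hj : j ≤ n) : a i ≤ a j := by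
  induction j, hij using Nat.le_induction with
  | base => exact le_rfl
  | succ j _ ih =>
    have h1 := ih (by omega)
    rcases D.ha j (by omega) with h2 | h2 <;> omega

theorem Sdat.al (D : Sdat n g a R) {i j : ℕ} (hij : i ≤ j) (hj : j ≤ n) : a j ≤ a i + (j - i) := by
  induction j, hij using Nat.le_induction with
  | base => omega
  | succ j _ ih =>
    have h1 := ih (by omega)
    rcases D.ha j (by omega) with h2 | h2 <;> omega

theorem forced {J0 : ℕ} (hF : ∀ j, j + J0 ≤ n → R j + 1 ≤ R (j + J0)) (t : ℕ) :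
    ∀ j, j + J0 * t ≤ n → R j + t ≤ R (j + J0 * t) := by
  induction t with
  | zero => intro j _; simp
  | succ t ih =>
    intro j h
    rw [Nat.mul_succ] at h ⊢
    have h1 := ih j (by omega)
    have h2 := hF (j + J0 * t) (by omega)
    rw [Nat.add_assoc] at h2
    omega

/-- a step which is not counted -/
theorem full_of_not {m : ℝ} (D : Sdat n g a R) {M i k j : ℕ} (hk : k ≤ n) (h1 : i ≤ j) (h2 : j < k)
    (h : j ∉ CS M n g a R i k) : full m a R j = if R (j + 1) = R j + 1 then m else 0 := by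
  rw [mem_CS] at h
  have h3 : ¬ a (j + 1) = a j + 1 := fun h4 => h ⟨⟨h1, h2⟩, Or.inl h4⟩
  have h5 : a (j + 1) = a j := by
    rcases D.ha j (by omega) with h6 | h6
    · exact h6
    · exact absurd h6.1 h3
  unfold full
  rw [h5]
  rcases D.hr j (by omega) with h6 | ⟨h6, _⟩
  · rw [if_neg (by omega), h6]
    ring
  · rw [if_pos h6, h6]
    push_cast
    ring

theorem full_le {m : ℝ} (hm : 0 ≤ m) (D : Sdat n g a R) {j : ℕ} (hj : j < n) :
    full m a R j ≤ 3 * m := by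
  unfold full
  rcases D.ha j hj with h6 | ⟨h6, h7⟩
  · rcases D.hr j hj with h8 | ⟨h8, _⟩
    · rw [h6, h8]
      nlinarith
    · rw [h6, h8]
      push_cast
      nlinarith
  · rw [h6, h7]
    push_cast
    nlinarith

theorem full_nonneg {m : ℝ} (hm : 0 ≤ m) (D : Sdat n g a R) {j : ℕ} (hj : j < n) :
    0 ≤ full m a R j := by
  unfold full
  rcases D.ha j hj with h6 | ⟨h6, h7⟩
  · rcases D.hr j hj with h8 | ⟨h8, _⟩
    · rw [h6, h8]
      nlinarith
    · rw [h6, h8]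
      push_cast
      nlinarith
  · rw [h6, h7]
    push_cast
    nlinarith

theorem sum_full (m : ℝ) (i k : ℕ) (h : i ≤ k) :
    ∑ j ∈ Ico i k, full m a R j = 3 * m * ((a k : ℝ) - a i) + m * ((R k : ℝ) - R i) := by
  unfold full
  rw [Finset.sum_add_distrib, ← Finset.mul_sum, ← Finset.mul_sum,
    Finset.sum_Ico_sub (fun j => (a j : ℝ)) h, Finset.sum_Ico_sub (fun j => (R j : ℝ)) h]

variable {L N1 N0 V : ℕ} {σ : ℕ → ℕ} {H : Finset ℕ}

/-- sum over the pieces -/
theorem Wrd.sum_pieces (W : Wrd L N1 N0 n g R V σ H) (f : ℕ → ℝ) :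
    ∑ v ∈ range V, ∑ j ∈ Ico (σ v) (σ (v + 1)), f j = ∑ j ∈ range n, f j := by
  have h : ∀ k ≤ V, ∑ v ∈ range k, ∑ j ∈ Ico (σ v) (σ (v + 1)), f j = ∑ j ∈ range (σ k), f j := by
    intro k
    induction k with
    | zero => intro _; simp [W.s0]
    | succ k ih =>
      intro hk
      rw [Finset.sum_range_succ, ih (by omega), Finset.range_eq_Ico, Finset.range_eq_Ico,
        Finset.sum_Ico_consecutive _ (Nat.zero_le _) (W.lt k (by omega)).le]
  rw [h V le_rfl, W.sV]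

/-- the r-steps of the light windows which are not counted -/
theorem light_nc {p M0 M1 : ℕ} (W : Wrd L M1 N0 n g R V σ H) (D : Sdat n g a R)
    (hsc : ∀ T : Finset ℕ, (∀ k ∈ T, k < n ∧ R (k + 1) = R k + 1 ∧
      ∃ i q, i ≤ k ∧ k < q ∧ Strt n g i q ∧ R i + M0 < R q ∧ R q ≤ R i + M1) →
      p * T.card ≤ R n - R 0)
    (E : Finset ℕ) (hE : ∀ i < n, a (i + 1) = a i + 1 → ¬ g i → i ∈ E)
    (Nc : ℕ → Finset ℕ) (hNc : ∀ v < V, v ∉ H → ∀ k ∈ Nc v, σ v ≤ k ∧ k < σ (v + 1) ∧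
      R (k + 1) = R k + 1 ∧ k ∉ CS M0 n g a R (σ v) (σ (v + 1))) :
    p * ∑ v ∈ range V \ H, (Nc v).card ≤ p * (M0 * (E.card + 1)) + (R n - R 0) := by
  classical
  set U := (range V \ H).biUnion Nc with hU
  have h2 : ∑ v ∈ range V \ H, (Nc v).card = U.card := by
    rw [hU, Finset.card_biUnion]
    intro v hv v' hv' hne
    rw [Finset.mem_coe, Finset.mem_sdiff, Finset.mem_range] at hv hv'
    rw [Function.onFun, Finset.disjoint_left]
    intro k hk hk'
    have e1 := hNc v hv.1 hv.2 k hk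
    have e2 := hNc v' hv'.1 hv'.2 k hk'
    rcases Nat.lt_or_gt_of_ne hne with h | h
    · have := W.mono (by omega : v + 1 ≤ v') (by omega)
      omega
    · have := W.mono (by omega : v' + 1 ≤ v) (by omega)
      omega
  have hUk : ∀ k ∈ U, k < n ∧ R (k + 1) = R k + 1 ∧
      (¬ ∃ q, k < q ∧ q < n ∧ g q ∧ a q = a k ∧ R q ≤ R k + M0) ∧ Lgt M1 n g R k := by
    intro k hk
    obtain ⟨v, hv, hk⟩ := Finset.mem_biUnion.1 hk
    rw [Finset.mem_sdiff, Finset.mem_range] at hv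
    obtain ⟨e1, e2, e3, e4⟩ := hNc v hv.1 hv.2 k hk
    have hle := W.le_n (v + 1) hv.1
    rw [mem_CS] at e4
    exact ⟨by omega, e3, fun h => e4 ⟨⟨e1, e2⟩, Or.inr ⟨e3, h⟩⟩, W.lg v hv.1 hv.2 k e1 e2⟩
  set B := U.filter fun k => Lgt M0 n g R k with hB
  set T := U.filter fun k => ¬ Lgt M0 n g R k with hT
  have h3 : B.card + T.card = U.card := Finset.card_filter_add_card_filter_not _
  have h4 : B.card ≤ M0 * (E.card + 1) := by
    refine exc a D.hr D.ha B E hE fun k hk => ?_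
    rw [hB, Finset.mem_filter] at hk
    exact ⟨(hUk k hk.1).2.1, hk.2, (hUk k hk.1).2.2.1⟩
  have h5 : p * T.card ≤ R n - R 0 := by
    refine hsc T fun k hk => ?_
    rw [hT, Finset.mem_filter] at hk
    obtain ⟨e1, e2, e3, i, q, f1, f2, f3, f4⟩ := hUk k hk.1
    refine ⟨e1, e2, i, q, f1, f2, f3, ?_, f4⟩
    by_contra hcon
    exact hk.2 ⟨i, q, f1, f2, f3, not_lt.1 hcon⟩
  rw [h2, ← h3, Nat.mul_add]
  exact Nat.add_le_add (Nat.mul_le_mul_left _ h4) h5

/-- the counted steps of the light windows without lookahead -/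
theorem light_fail {M0 M1 L2 K0 : ℕ} (W : Wrd L M1 N0 n g R V σ H) (D : Sdat n g a R)
    (hL2 : L ≤ L2) :
    ∃ F1 F2 : ℕ, F1 ≤ L2 ∧ F2 * (L2 - L) ≤ (M0 + 1) * (L + K0) * n ∧
      ∀ s : Finset ℕ, (∀ v ∈ s, v < V ∧ v ∉ H ∧
        ¬ (σ v + L2 ≤ n ∧ a (σ (v + 1)) + K0 ≤ a (σ v + L2))) →
        ∑ v ∈ s, (CS M0 n g a R (σ v) (σ (v + 1))).card ≤ F1 + F2 := by
  classical
  set S := (range V).filter (fun v => v ∉ H ∧
        ¬ (σ v + L2 ≤ n ∧ a (σ (v + 1)) + K0 ≤ a (σ v + L2))) with hS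
  set U := S.biUnion fun v => CS M0 n g a R (σ v) (σ (v + 1)) with hU
  set U1 := U.filter fun j => n < j + L2 with hU1
  set U2 := U.filter fun j => ¬ n < j + L2 with hU2
  have hUk : ∀ k ∈ U, ∃ v < V, σ (v + 1) ≤ σ v + L ∧
      ¬ (σ v + L2 ≤ n ∧ a (σ (v + 1)) + K0 ≤ a (σ v + L2)) ∧ k ∈ CS M0 n g a R (σ v) (σ (v + 1)) := by
    intro k hk
    obtain ⟨v, hv, hk⟩ := Finset.mem_biUnion.1 hk
    rw [hS, Finset.mem_filter, Finset.mem_range] at hv
    exact ⟨v, hv.1, W.le v hv.1 hv.2.1, hv.2.2, hk⟩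
  refine ⟨U1.card, U2.card, ?_, ?_, ?_⟩
  · have h1 : U1 ⊆ Ico (n + 1 - L2) n := by
      intro j hj
      rw [hU1, Finset.mem_filter] at hj
      obtain ⟨v, hv, _, _, h4⟩ := hUk j hj.1
      rw [mem_CS] at h4
      have := W.le_n (v + 1) hv
      rw [Finset.mem_Ico]
      omega
    refine (Finset.card_le_card h1).trans ?_
    rw [Nat.card_Ico]
    omega
  · refine look n (L2 - L) (L + K0) (M0 + 1) a (fun i j h h' => D.am h h') U ?_ U2 ?_
    · intro z
      refine lvl (N0 := M0) D.hr (fun i j h h' => D.am h h') D.ga U ?_ z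
      intro k hk
      obtain ⟨v, hv, _, _, h4⟩ := hUk k hk
      rw [mem_CS] at h4
      have := W.le_n (v + 1) hv
      exact ⟨by omega, h4.2⟩
    · intro k hk
      rw [hU2, Finset.mem_filter] at hk
      obtain ⟨v, hv, h1, h2, h4⟩ := hUk k hk.1
      rw [mem_CS] at h4
      have h5 := W.le_n (v + 1) hv
      have h6 : σ v + L2 ≤ n := by omega
      have h7 : a (σ v + L2) < a (σ (v + 1)) + K0 := by
        by_contra hcon
        exact h2 ⟨h6, not_lt.1 hcon⟩
      have h8 := D.am (by omega : k + (L2 - L) ≤ σ v + L2) h6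
      have h9 := D.al (by omega : k ≤ σ (v + 1)) h5
      refine ⟨hk.1, by omega, by omega⟩
  · intro s hs
    have h1 : s ⊆ S := by
      intro v hv
      rw [hS, Finset.mem_filter, Finset.mem_range]
      exact hs v hv
    have h2 : ∑ v ∈ S, (CS M0 n g a R (σ v) (σ (v + 1))).card = U.card := by
      rw [hU, Finset.card_biUnion]
      intro v hv v' hv' hne
      rw [Finset.mem_coe, hS, Finset.mem_filter, Finset.mem_range] at hv hv'
      rw [Function.onFun, Finset.disjoint_left]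
      intro k hk hk'
      rw [mem_CS] at hk hk'
      rcases Nat.lt_or_gt_of_ne hne with h | h
      · have := W.mono (by omega : v + 1 ≤ v') (by omega)
        omega
      · have := W.mono (by omega : v' + 1 ≤ v) (by omega)
        omega
    have h3 : U1.card + U2.card = U.card := Finset.card_filter_add_card_filter_not _
    rw [h3, ← h2]
    exact Finset.sum_le_sum_of_subset_of_nonneg h1 fun _ _ _ => Nat.zero_le _

end

/-- **summation** over the word, one function `psi` -/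
theorem summation {p θ n : ℕ} {g : ℕ → Prop} {a R : ℕ → ℕ} (hp : 0 < p) (hn : 0 < n)
    (D : Sdat n g a R) (h0 : g 0) (E : Finset ℕ) (hE : ∀ i < n, a (i + 1) = a i + 1 → ¬ g i → i ∈ E)
    (M : ℕ → ℕ) (hM : Monotone M) (hθ : 1 ≤ θ) (hθM : θ ≤ M 0) :
    ∃ s < p, ∀ (L1 L2 K0 J0 : ℕ) (_ : 0 < L1) (_ : L1 + J0 * K0 ≤ L2)
      (_ : ∀ j, j + J0 ≤ n → R j + 1 ≤ R (j + J0))
      (psi err q u : ℕ → ℝ) (m c1 cj ch cw δ η : ℝ) (_ : 0 ≤ m) (_ : 0 ≤ c1) (_ : 0 ≤ cj)
      (_ : 0 ≤ ch) (_ : 0 ≤ cw) (_ : 0 ≤ δ) (_ : 0 < η) (_ : ∀ j, 0 ≤ err j) (_ : ∀ z, 0 ≤ u z)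
      (T : Finset ℕ) (_ : ∀ z, z ∉ T → u z = 0)
      (_ : ∀ i k i1, i ≤ k → k ≤ i + L1 → k ≤ i1 → i1 ≤ n → i1 ≤ i + L2 → a k + K0 ≤ a i1 →
        R k + K0 ≤ R i1 →
        ∑ j ∈ CS (M s) n g a R i k, (full m a R j - err j) - c1 * ((k : ℝ) - i) - cj -
          ∑ j ∈ Ico i k, q j ≤ psi k - psi i)
      (_ : ∀ i k, i ≤ k → k ≤ n → - c1 - ∑ j ∈ Ico i k, q j ≤ psi k - psi i)
      (_ : ∀ i i1, g i → i < i1 → i1 ≤ n → R i + M (s + 1) < R i1 →
        m * (1 - δ) * ((R i1 : ℝ) - R i) - m * cw * ((a i1 : ℝ) - a i) -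
          ∑ z ∈ Icc (a i) (a i + (R i1 - R i)), u z - ch - ∑ j ∈ Ico i i1, q j ≤ psi i1 - psi i),
      ∃ Hn F2 : ℕ, (M (s + 1) + 1) * Hn ≤ R n - R 0 ∧
        F2 * (L2 - L1) ≤ (M s + 1) * (L1 + K0) * n ∧
      3 * m * ((a n : ℝ) - a 0) + m * ((R n : ℝ) - R 0) -
        (∑ j ∈ range n, err j + ∑ j ∈ range n, q j + c1 * n +
          (cj + c1) * ((n : ℝ) / L1 + Hn + 1) +
          m * ((M s : ℝ) * (E.card + 1) + ((R n : ℝ) - R 0) / p) + 3 * m * ((L2 : ℝ) + F2) +
          (m * δ + η) * ((R n : ℝ) - R 0) +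
          (m * (cw + 3) + η) * (2 * ((R n : ℝ) - R 0) / θ + E.card) + (ch + c1) * Hn +
          m * ((20 * θ + 1) / η * ∑ z ∈ T, u z)) ≤ psi n - psi 0 := by
  classical
  obtain ⟨s, hs, hsc⟩ := scales hp M hM D.hr
  refine ⟨s, hs, ?_⟩
  intro L1 L2 K0 J0 hL1 hL2 hF psi err q u m c1 cj ch cw δ η hm hc1 hcj hch hcw hδ hη herr hu T hT
    hLt hTr hHv
  obtain ⟨V, σ, H, W, hV⟩ := greedy (N1 := M (s + 1)) (N0 := θ) hL1 D.hr hn h0
  obtain ⟨F1, F2, hF1, hF2, hF3⟩ := light_fail (M0 := M s) (K0 := K0) W D (by omega : L1 ≤ L2)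
  have hMs : θ ≤ M (s + 1) := hθM.trans (hM (Nat.zero_le _))
  -- notation
  set J : ℕ → ℕ := fun v => R (σ (v + 1)) - R (σ v) with hJ
  set w : ℕ → ℕ := fun v => a (σ (v + 1)) - a (σ v) with hw
  set B := H.filter fun v => η * (max (J v) (w v) : ℕ) <
      ∑ z ∈ Icc (a (σ v)) (a (σ v) + 2 * max (J v) (w v)), u z with hB
  have hbad := W.bad a hθ (fun i h => (D.ha i h).imp id fun h' => h'.1) D.ga u hu T hT hη J w
    (fun _ => rfl) (fun _ => rfl) B (Finset.filter_subset _ _) (fun v hv => (Finset.mem_filter.1 hv).2)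
  set ok : ℕ → Prop := fun v => σ v + L2 ≤ n ∧ a (σ (v + 1)) + K0 ≤ a (σ v + L2) with hok
  set Nv : ℕ → Finset ℕ := fun v => (Ico (σ v) (σ (v + 1))).filter fun j =>
    R (j + 1) = R j + 1 ∧ j ∉ CS (M s) n g a R (σ v) (σ (v + 1)) with hNv
  set Cv : ℕ → Finset ℕ := fun v => CS (M s) n g a R (σ v) (σ (v + 1)) with hCv
  -- one light piece
  have hlight : ∀ v ∈ range V \ H, ∑ j ∈ Ico (σ v) (σ (v + 1)), full m a R j ≤
      (psi (σ (v + 1)) - psi (σ v)) + ∑ j ∈ Ico (σ v) (σ (v + 1)), q j +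
      (m * (Nv v).card + ∑ j ∈ Ico (σ v) (σ (v + 1)), err j +
        c1 * ((σ (v + 1) : ℝ) - σ v) + (cj + c1) + if ok v then 0 else 3 * m * (Cv v).card) := by
    intro v hv
    rw [Finset.mem_sdiff, Finset.mem_range] at hv
    have e1 := W.lt v hv.1
    have e2 := W.le_n (v + 1) hv.1
    have e3 := W.le v hv.1 hv.2
    have hsub : Cv v ⊆ Ico (σ v) (σ (v + 1)) := by
      intro j hj
      rw [hCv] at hj
      rw [Finset.mem_Ico]
      exact (mem_CS.1 hj).1
    have hfull : ∑ j ∈ Ico (σ v) (σ (v + 1)), full m a R j =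
        m * (Nv v).card + ∑ j ∈ Cv v, full m a R j := by
      rw [← Finset.sum_sdiff hsub]
      congr 1
      have e4 : ∀ j ∈ Ico (σ v) (σ (v + 1)) \ Cv v, full m a R j =
          if R (j + 1) = R j + 1 then m else 0 := by
        intro j hj
        rw [Finset.mem_sdiff, Finset.mem_Ico] at hj
        exact full_of_not D e2 hj.1.1 hj.1.2 hj.2
      rw [Finset.sum_congr rfl e4, ← Finset.sum_filter, Finset.sum_const, nsmul_eq_mul, mul_comm]
      congr 3
      ext j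
      simp only [hNv, hCv, Finset.mem_filter, Finset.mem_sdiff]
      tauto
    have herrs : ∑ j ∈ Cv v, err j ≤ ∑ j ∈ Ico (σ v) (σ (v + 1)), err j :=
      Finset.sum_le_sum_of_subset_of_nonneg hsub fun j _ _ => herr j
    have e5 : (0 : ℝ) ≤ (σ (v + 1) : ℝ) - σ v := by
      have : (σ v : ℝ) ≤ σ (v + 1) := by exact_mod_cast e1.le
      linarith
    have e6 : 0 ≤ ∑ j ∈ Ico (σ v) (σ (v + 1)), err j := Finset.sum_nonneg fun j _ => herr j
    by_cases h : ok v
    · rw [if_pos h]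
      have h1 : R (σ (v + 1)) + K0 ≤ R (σ v + L2) := by
        have h2 := forced hF K0 (σ (v + 1)) (by have := h.1; omega)
        have h3 := rmono D.hr (by omega : σ (v + 1) + J0 * K0 ≤ σ v + L2) h.1
        omega
      have h2 := hLt (σ v) (σ (v + 1)) (σ v + L2) e1.le e3 (by omega) h.1 le_rfl h.2 h1
      rw [Finset.sum_sub_distrib] at h2
      have h3 : CS (M s) n g a R (σ v) (σ (v + 1)) = Cv v := rfl
      rw [h3] at h2
      rw [hfull]
      linarith
    · rw [if_neg h]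
      have h2 := hTr (σ v) (σ (v + 1)) e1.le e2
      have h3 : ∑ j ∈ Cv v, full m a R j ≤ 3 * m * (Cv v).card := by
        refine (Finset.sum_le_card_nsmul _ _ (3 * m) fun j hj => ?_).trans ?_
        · have := Finset.mem_Ico.1 (hsub hj)
          exact full_le hm D (by omega)
        · rw [nsmul_eq_mul, mul_comm]
      have h4 : 0 ≤ c1 * ((σ (v + 1) : ℝ) - σ v) := mul_nonneg hc1 e5
      rw [hfull]
      linarith
  -- one heavy piece
  have hheavy : ∀ v ∈ H, ∑ j ∈ Ico (σ v) (σ (v + 1)), full m a R j ≤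
      (psi (σ (v + 1)) - psi (σ v)) + ∑ j ∈ Ico (σ v) (σ (v + 1)), q j +
      ((m * δ + η) * (J v : ℝ) + (m * (cw + 3) + η) * (w v : ℝ) + (ch + c1) +
        if v ∈ B then m * (J v : ℝ) else 0) := by
    intro v hv
    have e0 := W.hv v hv
    have e1 := e0.lt
    have e2 := e0.le
    have e3 : ((J v : ℕ) : ℝ) = (R (σ (v + 1)) : ℝ) - R (σ v) := by
      rw [hJ]
      simp only
      rw [Nat.cast_sub (rmono D.hr e1.le e2)]
    have e4 : ((w v : ℕ) : ℝ) = (a (σ (v + 1)) : ℝ) - a (σ v) := by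
      rw [hw]
      simp only
      rw [Nat.cast_sub (D.am e1.le e2)]
    rw [sum_full m _ _ e1.le, ← e3, ← e4]
    have n1 : (0 : ℝ) ≤ J v := Nat.cast_nonneg _
    have n2 : (0 : ℝ) ≤ w v := Nat.cast_nonneg _
    by_cases h : v ∈ B
    · rw [if_pos h]
      have h2 := hTr (σ v) (σ (v + 1)) e1.le e2
      have h3 : 0 ≤ (m * δ + η) * (J v : ℝ) := by positivity
      have h4 : 3 * m * (w v : ℝ) ≤ (m * (cw + 3) + η) * (w v : ℝ) := by
        have : 0 ≤ (m * cw + η) * (w v : ℝ) := by positivity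
        nlinarith
      linarith
    · rw [if_neg h]
      have h2 := hHv (σ v) (σ (v + 1)) e0.gs e1 e2 e0.big
      have h3 : ∑ z ∈ Icc (a (σ v)) (a (σ v) + (R (σ (v + 1)) - R (σ v))), u z ≤
          η * ((J v : ℝ) + w v) := by
        have h4 : ¬ (η * (max (J v) (w v) : ℕ) <
            ∑ z ∈ Icc (a (σ v)) (a (σ v) + 2 * max (J v) (w v)), u z) := fun h5 =>
          h (Finset.mem_filter.2 ⟨hv, h5⟩)
        have h5 : ∑ z ∈ Icc (a (σ v)) (a (σ v) + (R (σ (v + 1)) - R (σ v))), u z ≤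
            ∑ z ∈ Icc (a (σ v)) (a (σ v) + 2 * max (J v) (w v)), u z := by
          refine Finset.sum_le_sum_of_subset_of_nonneg (Finset.Icc_subset_Icc_right ?_)
            fun z _ _ => hu z
          have : J v = R (σ (v + 1)) - R (σ v) := rfl
          omega
        have h6 : ((max (J v) (w v) : ℕ) : ℝ) ≤ (J v : ℝ) + w v := by
          have : max (J v) (w v) ≤ J v + w v := by omega
          exact_mod_cast this
        have h7 : η * ((max (J v) (w v) : ℕ) : ℝ) ≤ η * ((J v : ℝ) + w v) :=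
          mul_le_mul_of_nonneg_left h6 hη.le
        linarith [not_lt.1 h4]
      rw [← e3, ← e4] at h2
      nlinarith
  -- the whole sum
  have hsub : H ⊆ range V := fun v hv => Finset.mem_range.2 (W.HV v hv)
  have htel : ∑ v ∈ range V, (psi (σ (v + 1)) - psi (σ v)) = psi n - psi 0 := by
    rw [Finset.sum_range_sub (fun v => psi (σ v)), W.s0, W.sV]
  have hq : ∑ v ∈ range V, ∑ j ∈ Ico (σ v) (σ (v + 1)), q j = ∑ j ∈ range n, q j := W.sum_pieces q
  have he : ∑ v ∈ range V, ∑ j ∈ Ico (σ v) (σ (v + 1)), err j = ∑ j ∈ range n, err j :=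
    W.sum_pieces err
  have hfl : ∑ v ∈ range V, ∑ j ∈ Ico (σ v) (σ (v + 1)), full m a R j =
      3 * m * ((a n : ℝ) - a 0) + m * ((R n : ℝ) - R 0) := by
    rw [W.sum_pieces, Finset.range_eq_Ico, sum_full m 0 n (Nat.zero_le _)]
  have hlen : ∑ v ∈ range V \ H, ((σ (v + 1) : ℝ) - σ v) ≤ n := by
    have h1 : ∑ v ∈ range V, ((σ (v + 1) : ℝ) - σ v) = n := by
      rw [Finset.sum_range_sub (fun v => (σ v : ℝ)), W.s0, W.sV]
      simp
    rw [← h1]
    refine Finset.sum_le_sum_of_subset_of_nonneg Finset.sdiff_subset fun v hv _ => ?_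
    have : (σ v : ℝ) ≤ σ (v + 1) := by exact_mod_cast (W.lt v (Finset.mem_range.1 hv)).le
    linarith
  have hel : ∑ v ∈ range V \ H, ∑ j ∈ Ico (σ v) (σ (v + 1)), err j ≤ ∑ j ∈ range n, err j := by
    rw [← he]
    exact Finset.sum_le_sum_of_subset_of_nonneg Finset.sdiff_subset fun v _ _ =>
      Finset.sum_nonneg fun j _ => herr j
  -- the noncounted steps
  have hnc : ∑ v ∈ range V \ H, ((Nv v).card : ℝ) ≤
      (M s : ℝ) * (E.card + 1) + ((R n : ℝ) - R 0) / p := by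
    have h1 := light_nc (p := p) (M0 := M s) (M1 := M (s + 1)) W D hsc E hE Nv
      (fun v hv hvH k hk => by
        rw [hNv, Finset.mem_filter, Finset.mem_Ico] at hk
        exact ⟨hk.1.1, hk.1.2, hk.2.1, hk.2.2⟩)
    have h2 : (p : ℝ) * ∑ v ∈ range V \ H, ((Nv v).card : ℝ) ≤
        p * ((M s : ℝ) * (E.card + 1)) + ((R n : ℝ) - R 0) := by
      have h3 := rmono D.hr (Nat.zero_le n) le_rfl
      have h4 : ((R n - R 0 : ℕ) : ℝ) = (R n : ℝ) - R 0 := Nat.cast_sub h3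
      rw [← h4]
      exact_mod_cast h1
    have hp' : (0 : ℝ) < p := by exact_mod_cast hp
    have h3 : (M s : ℝ) * (E.card + 1) + ((R n : ℝ) - R 0) / p =
        (p * ((M s : ℝ) * (E.card + 1)) + ((R n : ℝ) - R 0)) / p := by
      field_simp
    rw [h3, le_div_iff₀ hp', mul_comm]
    exact h2
  -- the windows without lookahead
  have hfail : ∑ v ∈ range V \ H, (if ok v then (0 : ℝ) else 3 * m * (Cv v).card) ≤
      3 * m * ((L2 : ℝ) + F2) := by
    have h1 := hF3 ((range V \ H).filter fun v => ¬ ok v) (fun v hv => by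
      rw [Finset.mem_filter, Finset.mem_sdiff, Finset.mem_range] at hv
      exact ⟨hv.1.1, hv.1.2, hv.2⟩)
    have h2 : ∑ v ∈ range V \ H, (if ok v then (0 : ℝ) else 3 * m * (Cv v).card) =
        3 * m * ∑ v ∈ (range V \ H).filter (fun v => ¬ ok v), ((Cv v).card : ℝ) := by
      rw [Finset.mul_sum, Finset.sum_filter]
      refine Finset.sum_congr rfl fun v _ => ?_
      by_cases h : ok v
      · rw [if_pos h, if_neg (not_not.2 h)]
      · rw [if_neg h, if_pos h]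
    rw [h2]
    refine mul_le_mul_of_nonneg_left ?_ (by positivity)
    have h3 : ∑ v ∈ (range V \ H).filter (fun v => ¬ ok v), ((Cv v).card : ℝ) ≤ (F1 : ℝ) + F2 := by
      exact_mod_cast h1
    have h4 : (F1 : ℝ) ≤ L2 := by exact_mod_cast hF1
    linarith
  -- the number of light windows
  have hcardl : ((range V \ H).card : ℝ) ≤ (n : ℝ) / L1 + H.card + 1 := by
    have h1 : (range V \ H).card = V - H.card := by
      rw [Finset.card_sdiff_of_subset hsub, card_range]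
    rw [h1]
    have h2 : (((V - H.card : ℕ) : ℝ)) * L1 ≤ n + (H.card + 1) * L1 := by exact_mod_cast hV
    have hL : (0 : ℝ) < L1 := by exact_mod_cast hL1
    have h3 : (n : ℝ) / L1 + H.card + 1 = (n + (H.card + 1) * L1) / L1 := by
      field_simp
      ring
    rw [h3, le_div_iff₀ hL]
    exact h2
  -- the heavy sums
  have hRn : ((R n - R 0 : ℕ) : ℝ) = (R n : ℝ) - R 0 :=
    Nat.cast_sub (rmono D.hr (Nat.zero_le n) le_rfl)
  have hJs : ∑ v ∈ H, (J v : ℝ) ≤ (R n : ℝ) - R 0 := by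
    rw [← hRn]
    exact_mod_cast W.sum_J D.hr
  have hws : ∑ v ∈ H, (w v : ℝ) ≤ 2 * ((R n : ℝ) - R 0) / θ + E.card := by
    have h1 := W.sum_w hMs a D.hr (fun i h => (D.ha i h).imp id fun h' => h'.1) E hE
    have h2 : (θ : ℝ) * ∑ v ∈ H, (w v : ℝ) ≤ 2 * ((R n : ℝ) - R 0) + θ * E.card := by
      rw [← hRn]
      exact_mod_cast h1
    have hθ' : (0 : ℝ) < θ := by exact_mod_cast hθ
    have h3 : 2 * ((R n : ℝ) - R 0) / θ + E.card = (2 * ((R n : ℝ) - R 0) + θ * E.card) / θ := by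
      field_simp
    rw [h3, le_div_iff₀ hθ', mul_comm]
    exact h2
  refine ⟨H.card, F2, W.card_H D.hr, hF2, ?_⟩
  have hsum : 3 * m * ((a n : ℝ) - a 0) + m * ((R n : ℝ) - R 0) ≤ (psi n - psi 0) +
      ∑ j ∈ range n, q j +
      (∑ v ∈ range V \ H, (m * (Nv v).card + ∑ j ∈ Ico (σ v) (σ (v + 1)), err j +
        c1 * ((σ (v + 1) : ℝ) - σ v) + (cj + c1) + if ok v then 0 else 3 * m * (Cv v).card) +
      ∑ v ∈ H, ((m * δ + η) * (J v : ℝ) + (m * (cw + 3) + η) * (w v : ℝ) + (ch + c1) +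
        if v ∈ B then m * (J v : ℝ) else 0)) := by
    rw [← hfl, ← htel, ← hq, ← Finset.sum_sdiff hsub, ← Finset.sum_sdiff hsub,
      ← Finset.sum_sdiff hsub (f := fun v => ∑ j ∈ Ico (σ v) (σ (v + 1)), q j)]
    have h1 := Finset.sum_le_sum hlight
    have h2 := Finset.sum_le_sum hheavy
    simp only [Finset.sum_add_distrib] at h1 h2 ⊢
    linarith
  have hBsum : ∑ v ∈ H, (if v ∈ B then m * (J v : ℝ) else 0) ≤
      m * ((20 * θ + 1) / η * ∑ z ∈ T, u z) := by
    have h1 : ∑ v ∈ H, (if v ∈ B then m * (J v : ℝ) else 0) = m * ∑ v ∈ B, (J v : ℝ) := by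
      rw [Finset.mul_sum, ← Finset.sum_filter]
      refine Finset.sum_congr ?_ fun _ _ => rfl
      ext v
      rw [Finset.mem_filter]
      exact ⟨fun h => h.2, fun h => ⟨(Finset.mem_filter.1 h).1, h⟩⟩
    rw [h1]
    exact mul_le_mul_of_nonneg_left hbad hm
  simp only [Finset.sum_add_distrib, Finset.sum_const, nsmul_eq_mul, ← Finset.mul_sum] at hsum
  have k1 := mul_le_mul_of_nonneg_left hnc hm
  have k2 := mul_le_mul_of_nonneg_left hlen hc1
  have k3 := mul_le_mul_of_nonneg_left hcardl (by linarith : 0 ≤ cj + c1)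
  have k4 := mul_le_mul_of_nonneg_left hJs (by positivity : 0 ≤ m * δ + η)
  have k5 := mul_le_mul_of_nonneg_left hws (by positivity : 0 ≤ m * (cw + 3) + η)
  linarith

end Vale.Agent.P106.U.H118
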