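import Vale.Agent.P106.U.H118.RiseC
import Vale.Agent.P106.U.H118.Sum
import Vale.Agent.P106.U.H300.N2
import Vale.Agent.P106.U.H833.Comp

/-!
# P106 / U / H118 : the heavy intervals, hypothesis `(H)` of the summation, in the cells of the path (helper118)

* `vz_back` : the nominal position of the step `k` takes at most 45 values given the cell and the nominal position of a later
  step; `cvz_near`, `cell_near` : nesting of `(cell, VZ)` (over helper300's `n2`).
* `lst` : last step of a level of a path of unit steps.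
* `heavy_hc` : **RISE** along a whole heavy interval `[i, i1]`, path in blocks of `m` digits, cap `b`.
* `heavy_psi` : the same for the potential `psi` of helper833 (`Z i` = whole letter of the ray side).
* `heavy_cap` : literally the field `heavy` of `H833.Cap`, start depth `m'` allowed to grow with the length (`cK`).
-/

set_option autoImplicit false

namespace Vale.Agent.P106.U.H118

open Finset Vale.Agent.P127 Vale.Agent.P127.Stk
open Vale.Agent.P127.U.CellD (q2 rd Nb q2_pos q2_add q2_le rd_err rd_sub)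
open Vale.Agent.P106.U.Cell

section

variable {Ω τ : Type} {C : Pth Ω τ}

/-- the nominal position of the step `k` takes at most 45 values given the cell and the nominal position of a later step -/
theorem vz_back {K : ℝ} (hK : 1 ≤ K) {k k2 b : ℕ} (hk : k ≤ k2) (hl : C.Lev k2 b) (hμ : 10 * K ^ 2 * q2 C.μ ≤ 1)
    {r : Ω} (hr : C.Ok K r) :
    ∃ F : Finset (ℤ × ℤ), F.card ≤ 45 ∧ ∀ ω, C.cell k2 b ω = C.cell k2 b r → C.VZ k2 b ω = C.VZ k2 b r →
      C.VZ k b ω ∈ F := by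
  classical
  set x0 := (C.VZ k b r).1 with hx0
  set z0 := (C.VZ k b r).2 with hz0
  refine ⟨(Icc (x0 - (2 : ℕ)) (x0 + (2 : ℕ))) ×ˢ (Icc (z0 - (4 : ℕ)) (z0 + (4 : ℕ))), ?_, ?_⟩
  · rw [Finset.card_product, Int.card_Icc, Int.card_Icc]
    have e1 : (x0 + (2 : ℕ) + 1 - (x0 - (2 : ℕ))).toNat = 5 := by
      have : x0 + (2 : ℕ) + 1 - (x0 - (2 : ℕ)) = ((5 : ℕ) : ℤ) := by
        push_cast; ring
      rw [this]; rfl
    have e2 : (z0 + (4 : ℕ) + 1 - (z0 - (4 : ℕ))).toNat = 9 := by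
      have : z0 + (4 : ℕ) + 1 - (z0 - (4 : ℕ)) = ((9 : ℕ) : ℤ) := by
        push_cast; ring
      rw [this]; rfl
    rw [e1, e2]
  · intro ω hc hvz
    obtain ⟨hb, hR⟩ := id hl
    have hT2 := cell_T hc
    have hT : C.T k ω = C.T k r := Pth.T_mono hk hT2
    have hs2 : C.s k2 ω = C.s k2 r := s_congr hT2
    have hss : C.s k ω = C.s k r := s_congr hT
    set s := C.s k r with hs
    set s2 := C.s k2 r with hs2'
    set l := C.l ω with hl'
    set lr := C.l r with hlr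
    have hδ : |s - s2| ≤ q2 (C.a k) := by
      rw [abs_sub_comm]
      exact rd_sub (C.ha hk) _
    have hv : |l.v - lr.v| ≤ q2 b := fl1_close (cell_v hc)
    have hN := Pth.Nr_of_cell' hK hr hl hc.symm
    have hw0 : |l.w - lr.w| ≤ 10 * K ^ 2 * q2 (b + 2 * C.μ) := hN.w
    have hrv : rd b l.v = rd b lr.v := by
      unfold rd
      rw [cell_v hc]
    have hrw : C.ro 1 (b - C.μ) l.w = C.ro 1 (b - C.μ) lr.w := row_congr hc
    have hX : |l.X s2 - lr.X s2| ≤ q2 (C.a k2 + b) := by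
      have := congrArg Prod.fst hvz
      simp only [Pth.VZ] at this
      rw [hs2] at this
      exact fl1_close this
    have hZ : |C.Zs b s2 ω - C.Zs b s2 r| ≤ q2 (C.a k2 + 2 * b) := by
      have := congrArg Prod.snd hvz
      simp only [Pth.VZ] at this
      rw [hs2] at this
      exact fl1_close this
    have hA : |lr.v - rd b lr.v| ≤ q2 b := by
      rw [abs_sub_comm]; exact rd_err _ _
    have hB : |lr.w - C.ro 1 (b - C.μ) lr.w| ≤ q2 (b - C.μ) := by
      rw [abs_sub_comm]; exact ro_err _ _ _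
    have eX : l.X s - lr.X s = (l.X s2 - lr.X s2) + (s - s2) * (l.v - lr.v) := by
      unfold Ray.X; ring
    have eZ : C.Zs b s ω - C.Zs b s r = (C.Zs b s2 ω - C.Zs b s2 r) +
        (s - s2) * (((l.v - lr.v) ^ 2 + (l.w - lr.w) ^ 2) / 2 + (lr.v - rd b lr.v) * (l.v - lr.v) +
          (lr.w - C.ro 1 (b - C.μ) lr.w) * (l.w - lr.w)) := by
      unfold Pth.Zs
      rw [hrv, hrw]
      unfold Ray.Z Ray.X Ray.N
      ring
    have hb0 : 0 < q2 b := q2_pos _
    have hμ0 : 0 < q2 C.μ := q2_pos _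
    have hak : C.a k ≤ C.a k2 := C.ha hk
    have hw : |l.w - lr.w| ≤ q2 b := by
      refine hw0.trans ?_
      have h1 : 10 * K ^ 2 * q2 (b + 2 * C.μ) = (10 * K ^ 2 * q2 C.μ) * q2 (b + C.μ) := by
        rw [show b + 2 * C.μ = (b + C.μ) + C.μ by ring, q2_add (b + C.μ) C.μ]
        ring
      rw [h1]
      have h2 : q2 (b + C.μ) ≤ q2 b := q2_le (by omega)
      calc (10 * K ^ 2 * q2 C.μ) * q2 (b + C.μ) ≤ 1 * q2 b :=
            mul_le_mul hμ h2 (q2_pos _).le zero_le_one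
        _ = q2 b := one_mul _
    have kX : |l.X s - lr.X s| ≤ ((2 : ℕ) : ℝ) * q2 (C.a k + b) := by
      rw [eX]
      refine (abs_add_le _ _).trans ?_
      have h1 := mul_bd hδ hv
      rw [← q2_add] at h1
      have h2 : q2 (C.a k2 + b) ≤ q2 (C.a k + b) := q2_le (by omega)
      push_cast
      linarith
    have kZ : |C.Zs b s ω - C.Zs b s r| ≤ ((4 : ℕ) : ℝ) * q2 (C.a k + 2 * b) := by
      rw [eZ]
      refine (abs_add_le _ _).trans ?_
      have q1 : |((l.v - lr.v) ^ 2 + (l.w - lr.w) ^ 2) / 2| ≤ q2 b ^ 2 := by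
        have g1 := sq_bd hv
        have g2 := sq_bd hw
        rw [abs_of_nonneg (by positivity)]
        linarith
      have q3 : |(lr.v - rd b lr.v) * (l.v - lr.v)| ≤ q2 b ^ 2 := by
        rw [pow_two]
        exact mul_bd hA hv
      have q4 : |(lr.w - C.ro 1 (b - C.μ) lr.w) * (l.w - lr.w)| ≤ q2 b ^ 2 := by
        refine (mul_bd hB hw0).trans ?_
        have h1 : q2 (b - C.μ) * (10 * K ^ 2 * q2 (b + 2 * C.μ)) =
            (10 * K ^ 2 * q2 C.μ) * q2 b ^ 2 := by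
          have e1 : q2 (b - C.μ) * q2 (b + 2 * C.μ) = q2 C.μ * q2 b ^ 2 := by
            rw [pow_two, ← q2_add, ← q2_add, ← q2_add]
            congr 1
            omega
          calc q2 (b - C.μ) * (10 * K ^ 2 * q2 (b + 2 * C.μ)) =
              10 * K ^ 2 * (q2 (b - C.μ) * q2 (b + 2 * C.μ)) := by ring
            _ = _ := by rw [e1]; ring
        rw [h1]
        have h2 : 0 ≤ q2 b ^ 2 := by positivity
        calc (10 * K ^ 2 * q2 C.μ) * q2 b ^ 2 ≤ 1 * q2 b ^ 2 := mul_le_mul_of_nonneg_right hμ h2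
          _ = _ := one_mul _
      have q5 := abs4 q1 q3 q4 (abs_zero.le)
      rw [add_zero] at q5
      have q6 := mul_bd hδ q5
      have e2 : q2 (C.a k) * (q2 b ^ 2 + q2 b ^ 2 + q2 b ^ 2 + 0) = 3 * q2 (C.a k + 2 * b) := by
        have : q2 (C.a k + 2 * b) = q2 (C.a k) * q2 b ^ 2 := by
          rw [pow_two, ← q2_add, ← q2_add]
          congr 1
          omega
        rw [this]
        ring
      rw [e2] at q6
      have e3 : q2 (C.a k2 + 2 * b) ≤ q2 (C.a k + 2 * b) := q2_le (by omega)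
      push_cast
      linarith
    have b1 := fl1_bd kX
    have b2 := fl1_bd kZ
    rw [abs_le] at b1 b2
    have f1 : (C.VZ k b ω).1 = fl1 (C.a k + b) (l.X s) := by
      unfold Pth.VZ; rw [hss]
    have f2 : (C.VZ k b ω).2 = fl1 (C.a k + 2 * b) (C.Zs b s ω) := by
      unfold Pth.VZ; rw [hss]
    have f3 : x0 = fl1 (C.a k + b) (lr.X s) := rfl
    have f4 : z0 = fl1 (C.a k + 2 * b) (C.Zs b s r) := rfl
    rw [Finset.mem_product, Finset.mem_Icc, Finset.mem_Icc, f1, f2, f3, f4]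
    refine ⟨⟨?_, ?_⟩, ?_, ?_⟩
    · linarith [b1.1]
    · linarith [b1.2]
    · linarith [b2.1]
    · linarith [b2.2]

end

section

variable {Ω τ : Type} [Fintype Ω] (P : Law Ω) (C : Pth Ω τ)

/-- the constant of the nesting -/
noncomputable def nuK (K : ℝ) : ℝ := 9 * Real.log (2 * (H300.MK K : ℝ) + 3)

theorem nuK_nonneg (K : ℝ) : 0 ≤ nuK K := by
  unfold nuK
  have h : (1 : ℝ) ≤ 2 * (H300.MK K : ℝ) + 3 := by
    have : (0 : ℝ) ≤ (H300.MK K : ℝ) := Nat.cast_nonneg _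
    linarith
  have := Real.log_nonneg h
  linarith

/-- nesting of `(cell, VZ)` -/
theorem cvz_near {K : ℝ} (hK : 1 ≤ K) (hok : ∀ ω, 0 < P.w ω → C.Ok K ω) {k k2 b : ℕ} (hk : k ≤ k2)
    (hl : C.Lev k b) (hμ : 10 * K ^ 2 * q2 C.μ ≤ 1) :
    hc P (fun ω => (C.cell k b ω, C.VZ k b ω)) (fun ω => (C.cell k2 b ω, C.VZ k2 b ω)) ≤
      nuK K + Real.log 45 := by
  have hl2 := H300.Lev_mono C hk hl
  have e1 := hc_pair P (C.cell k b) (C.VZ k b) (fun ω => (C.cell k2 b ω, C.VZ k2 b ω))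
  have e2 : hc P (C.cell k b) (fun ω => (C.cell k2 b ω, C.VZ k2 b ω)) ≤ nuK K :=
    (hc_mono_right P _ fun _ _ _ _ e => congrArg Prod.fst e).trans (H300.n2 P C hK hok hk hl)
  have e3 : hc P (C.VZ k b) (fun ω => (C.cell k b ω, (C.cell k2 b ω, C.VZ k2 b ω))) ≤
      Real.log (45 : ℕ) := by
    refine hc_le_log P _ _ 45 fun r hr => ?_
    obtain ⟨F, hF, hF'⟩ := vz_back hK hk hl2 hμ (hok r hr)
    refine ⟨F, hF, fun ω _ e => ?_⟩
    simp only [Prod.mk.injEq] at e
    exact hF' ω e.2.1 e.2.2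
  push_cast at e3
  linarith

/-- the form with the whole letter implies the form with the time digits -/
theorem hV_of_T {k b : ℕ} {x : ℝ}
    (h : x ≤ hc P (C.VZ (k + 1) b) (fun ω => (C.T (k + 1) ω, (C.cell k b ω, C.VZ k b ω)))) :
    x ≤ hc P (C.VZ (k + 1) b) (fun ω => (td C (k + 1) ω, (C.cell k b ω, C.VZ k b ω))) :=
  h.trans (hc_mono_right P _ fun ω ω' _ _ e => by
    simp only [Prod.mk.injEq] at e ⊢
    exact ⟨td_of_T e.1, e.2⟩)

theorem cell_near {K : ℝ} (hK : 1 ≤ K) (hok : ∀ ω, 0 < P.w ω → C.Ok K ω) {i k b : ℕ} (hk : i ≤ k)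
    (hl : C.Lev i b) :
    hc P (C.cell i b) (fun ω => (C.cell k b ω, C.VZ k b ω)) ≤ nuK K :=
  (hc_mono_right P _ fun _ _ _ _ e => congrArg Prod.fst e).trans (H300.n2 P C hK hok hk hl)

end

/-! ### the last step of a level -/

section

variable {a : ℕ → ℕ} {n z : ℕ}

/-- last step of the level `z` -/
def lst (a : ℕ → ℕ) (n z : ℕ) : ℕ := Nat.findGreatest (fun k => a k ≤ z) n

theorem lst_le : lst a n z ≤ n := Nat.findGreatest_le n

theorem lst_max {k : ℕ} (hk : k ≤ n) (h : a k ≤ z) : k ≤ lst a n z := Nat.le_findGreatest hk h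

theorem lst_a (h : a 0 ≤ z) : a (lst a n z) ≤ z :=
  Nat.findGreatest_spec (P := fun k => a k ≤ z) (Nat.zero_le n) h

theorem lst_next (h : lst a n z < n) : z < a (lst a n z + 1) := by
  have := Nat.findGreatest_is_greatest (P := fun k => a k ≤ z) (n := n) (k := lst a n z + 1)
    (Nat.lt_succ_self _) (by omega)
  omega

theorem lst_eq (ha : ∀ k < n, a (k + 1) = a k ∨ a (k + 1) = a k + 1) (h0 : a 0 ≤ z) (hz : z ≤ a n) :
    a (lst a n z) = z := by
  have h1 := lst_a (n := n) h0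
  rcases Nat.lt_or_ge (lst a n z) n with h2 | h2
  · have h3 := lst_next h2
    rcases ha _ h2 with h4 | h4 <;> omega
  · have h3 : lst a n z = n := le_antisymm lst_le h2
    rw [h3] at h1 ⊢
    omega

theorem lst_step (ha : ∀ k < n, a (k + 1) = a k ∨ a (k + 1) = a k + 1) (h0 : a 0 ≤ z) (hz : z < a n) :
    lst a n z < n ∧ a (lst a n z + 1) = z + 1 := by
  have h1 := lst_eq ha h0 hz.le
  have h2 : lst a n z < n := by
    rcases Nat.lt_or_ge (lst a n z) n with h2 | h2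
    · exact h2
    · have h3 : lst a n z = n := le_antisymm lst_le h2
      rw [h3] at h1
      omega
  have h3 := lst_next h2
  refine ⟨h2, ?_⟩
  rcases ha _ h2 with h4 | h4 <;> omega

theorem lst_top (hz : a n ≤ z) : lst a n z = n :=
  le_antisymm lst_le (lst_max le_rfl hz)

end

section

variable {Ω τ Λ ζ : Type} [Fintype Ω] (P : Law Ω) (C : Pth Ω τ)

/-- error of one step of RISE -/
noncomputable def eR (K η : ℝ) (m μ : ℕ) : ℝ :=
  Real.log 9540 + 2 * Real.sqrt η + η * (Real.log 45 + (2 * m + 2 * μ) * Real.log 2) +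
    (nuK K + Real.log 45)

/-- **heavy interval** `[i, i1]`, entropy of the cell -/
theorem heavy_hc {K : ℝ} (hK : 1 ≤ K) (hok : ∀ ω, 0 < P.w ω → C.Ok K ω) {n m b A0 R0 : ℕ} {a R : ℕ → ℕ}
    (hA : ∀ k ≤ n, C.a k = A0 + m * a k) (hR : ∀ k ≤ n, C.R k b = R0 + m * R k)
    (ha : ∀ k < n, a (k + 1) = a k ∨ a (k + 1) = a k + 1)
    (hb8 : 8 * C.μ ≤ b) (h9 : 9 * C.μ ≤ C.R 0 b) (hμ : 40 * K ^ 2 * q2 C.μ ≤ (1 / 4 : ℝ) ^ m)
    {χ : Type} (X : Ω → χ) {u : ℕ → ℝ} {η δ co : ℝ}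
    (hV : ∀ k < n, a (k + 1) = a k + 1 → 2 * (m * Real.log 2) - u (a k) ≤ hc P (C.VZ (k + 1) b)
      (fun ω => (td C (k + 1) ω, (C.cell k b ω, C.VZ k b ω))))
    (hu : ∀ z, 0 ≤ u z) (hδ : eR K η m C.μ ≤ δ * (m * Real.log 2)) (hδ1 : δ ≤ 1) (hco : 0 ≤ co)
    {i i1 Kμ Kc m' : ℕ} (hi : i < i1) (hi1 : i1 ≤ n)
    (hX : ∀ ω ω', 0 < P.w ω → 0 < P.w ω' → X ω = X ω' → C.l ω = C.l ω' ∧ C.T i ω = C.T i ω')
    (hXC : Fn P (C.cell i b) X)
    (hKc : m' + 2 * m + 8 * C.μ ≤ m * Kc)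
    (hb : ∀ k, i1 ≤ k → k < n → a (k + 1) = a k + 1 → a i1 + Kμ ≤ a k → a k + Kc + R i < a i + R i1 →
      prE (two P X) (sbad C K i i1 k b m') ≤ η)
    (hov : a n + Kc + R i < a i + R i1 → ((a i : ℝ) + R i1 - R i - a n) * (m * Real.log 2) * (1 - δ) - co ≤
      hc (two P X) (fun p => C.cell i1 b p.snd)
        (fun p => (C.cell n b p.fst, C.VZ n b p.fst))) :
    ((R i1 : ℝ) - R i - ((a i1 : ℝ) - a i) - Kμ - Kc) * (m * Real.log 2) * (1 - δ) -
      ∑ z ∈ Icc (a i) (a i + (R i1 - R i)), u z - nuK K - co ≤ hc P (C.cell i1 b) (C.cell i b) := by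
  have hl2 : 0 ≤ Real.log 2 := Real.log_nonneg (by norm_num)
  set M : ℝ := m * Real.log 2 with hM
  have hM0 : 0 ≤ M := by positivity
  set κ : ℕ → ℕ := fun w => lst a n (a i1 + Kμ + w) with hκ
  -- monotone
  have ham : ∀ k k', k ≤ k' → k' ≤ n → a k ≤ a k' := by
    intro k k' h
    induction k', h using Nat.le_induction with
    | base => intro _; exact le_rfl
    | succ k' _ ih =>
      intro h2
      have h3 := ih (by omega)
      rcases ha k' (by omega) with h4 | h4 <;> omega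
  have hLev : ∀ k, C.Lev k b := fun k => H300.Lev_mono C (Nat.zero_le k) ⟨hb8, by omega⟩
  have hpow : (1 / 4 : ℝ) ^ m ≤ 1 := pow_le_one₀ (by norm_num) (by norm_num)
  have hμ10 : 10 * K ^ 2 * q2 C.μ ≤ 1 := by
    have h1 : 0 ≤ K ^ 2 * q2 C.μ := mul_nonneg (by positivity) (q2_pos _).le
    nlinarith
  have h00 : a 0 ≤ a i1 := ham 0 i1 (Nat.zero_le _) hi1
  -- the common step
  have main : ∀ N : ℕ, (∀ w < N, a i1 + Kμ + w < a n) →
      (∀ w < N, a i1 + Kμ + w + Kc + R i < a i + R i1) →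
      (N : ℝ) * M * (1 - δ) - ∑ z ∈ Icc (a i) (a i + (R i1 - R i)), u z - nuK K +
        hc (two P X) (fun p => C.cell i1 b p.snd)
          (fun p => (C.cell (κ N) b p.fst, C.VZ (κ N) b p.fst)) ≤
        hc P (C.cell i1 b) (C.cell i b) := by
    intro N hN1 hN2
    have k1 : ∀ w < N, κ w < n ∧ a (κ w + 1) = a i1 + Kμ + w + 1 ∧ a (κ w) = a i1 + Kμ + w := by
      intro w hw
      have h1 := lst_step ha (by omega : a 0 ≤ a i1 + Kμ + w) (hN1 w hw)
      exact ⟨h1.1, h1.2, lst_eq ha (by omega) (hN1 w hw).le⟩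
    have k2 : ∀ w, i1 ≤ κ w := fun w => lst_max hi1 (by omega)
    have kn : ∀ w, κ w ≤ n := fun w => lst_le
    have key := rise_cell P C hK (i := i) (i' := i1) (b := b) (m := m) (m' := m') (N := N) κ
      (fun w hw => by
        obtain ⟨c1, c2, c3⟩ := k1 w hw
        have c4 := hN2 w hw
        have d1 := hA (κ w) c1.le
        have d2 := hA (κ w + 1) c1
        have d3 := hR (κ w) c1.le
        have d4 := H300.R_mono C (k2 w) b
        have d5 := hR i (by omega)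
        have d6 := hR i1 hi1
        have d7 := hA i (by omega)
        have d8 := H300.R_mono C (Nat.zero_le (κ w)) b
        have hai : a i ≤ a i1 := ham i i1 hi.le hi1
        refine ⟨hi.le, k2 w, ?_, hb8, h9.trans d8, ?_, ?_⟩
        · rw [d1, d2, c2, c3]
          ring
        · have e1 : R i + Kc ≤ R i1 := by omega
          have e2 : m * (R i + Kc) ≤ m * R i1 := Nat.mul_le_mul_left m e1
          rw [Nat.mul_add] at e2
          omega
        · have e1 : a i1 + Kμ + w + Kc + R i ≤ a i + R i1 := by omega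
          have e2 : m * (a i1 + Kμ + w + Kc + R i) ≤ m * (a i + R i1) := Nat.mul_le_mul_left m e1
          rw [d1, c3, d5, d7, d6]
          rw [Nat.mul_add m (a i1 + Kμ + w + Kc) (R i), Nat.mul_add m (a i1 + Kμ + w) Kc,
            Nat.mul_add m (a i) (R i1)] at e2
          omega)
      (fun w hw => by
        obtain ⟨c1, c2, c3⟩ := k1 w hw
        have c4 : κ w + 1 ≤ κ (w + 1) := lst_max (by omega) (by rw [c2]; omega)
        refine ⟨c4, ?_⟩
        have c5 : a (κ (w + 1)) = a i1 + Kμ + (w + 1) :=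
          lst_eq ha (by omega) (by have := ham (κ w + 1) n c1 le_rfl; omega)
        rw [hA _ (kn _), hA _ c1, c5, c2]
        ring)
      hμ X hX hXC (c0 := nuK K) (ν := nuK K + Real.log 45) (η := η) (u := fun w => u (a i1 + Kμ + w))
      (cell_near P C hK hok (hi.le.trans (k2 0)) (hLev i))
      (fun w hw => cvz_near P C hK hok
        (lst_max (kn w) (by have := (k1 w hw).2.2; omega)) (hLev _) hμ10)
      (fun w hw => by
        obtain ⟨c1, c2, c3⟩ := k1 w hw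
        have := hV (κ w) c1 (by omega)
        rwa [c3] at this)
      (fun w hw => by
        obtain ⟨c1, c2, c3⟩ := k1 w hw
        have c4 := hN2 w hw
        exact hb (κ w) (k2 w) c1 (by omega) (by omega) (by omega))
    have s1 : ∑ w ∈ range N, u (a i1 + Kμ + w) ≤ ∑ z ∈ Icc (a i) (a i + (R i1 - R i)), u z := by
      have hai : a i ≤ a i1 := ham i i1 hi.le hi1
      rw [← Finset.sum_image (f := u) (g := fun w => a i1 + Kμ + w) (fun x _ y _ e => by
        have : a i1 + Kμ + x = a i1 + Kμ + y := e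
        omega)]
      refine Finset.sum_le_sum_of_subset_of_nonneg ?_ fun z _ _ => hu z
      intro z hz
      obtain ⟨w, hw, rfl⟩ := Finset.mem_image.1 hz
      have c4 := hN2 w (Finset.mem_range.1 hw)
      rw [Finset.mem_Icc]
      omega
    have s2 : (N : ℝ) * eR K η m C.μ ≤ N * (δ * M) := mul_le_mul_of_nonneg_left hδ (Nat.cast_nonneg _)
    unfold eR at s2
    linarith
  have hMδ : 0 ≤ M * (1 - δ) := mul_nonneg hM0 (by linarith)
  rcases Nat.lt_or_ge (a n + Kc + R i) (a i + R i1) with hc | hc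
  · set N := a n - (a i1 + Kμ) with hN
    have h1 := main N (fun w hw => by omega) (fun w hw => by omega)
    have h2 : κ N = n := lst_top (by omega)
    rw [h2] at h1
    have h3 := hov hc
    have h4 : (a n : ℝ) ≤ N + (a i1 + Kμ) := by
      have : a n ≤ N + (a i1 + Kμ) := by omega
      exact_mod_cast this
    have h5 : ((R i1 : ℝ) - R i - ((a i1 : ℝ) - a i) - Kμ - Kc) * (M * (1 - δ)) ≤
        (N + ((a i : ℝ) + R i1 - R i - a n)) * (M * (1 - δ)) := by
      refine mul_le_mul_of_nonneg_right ?_ hMδ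
      have : (0 : ℝ) ≤ Kc := Nat.cast_nonneg _
      linarith
    linarith
  · set N := a i + R i1 - (R i + Kc) - (a i1 + Kμ) with hN
    have h1 := main N (fun w hw => by omega) (fun w hw => by omega)
    have h3 := hc_nonneg (two P X) (fun p => C.cell i1 b p.snd)
      (fun p => (C.cell (κ N) b p.fst, C.VZ (κ N) b p.fst))
    have h4 : (a i : ℝ) + R i1 ≤ N + (a i1 + Kμ) + (R i + Kc) := by
      have : a i + R i1 ≤ N + (a i1 + Kμ) + (R i + Kc) := by omega
      exact_mod_cast this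
    have h5 : ((R i1 : ℝ) - R i - ((a i1 : ℝ) - a i) - Kμ - Kc) * (M * (1 - δ)) ≤
        N * (M * (1 - δ)) := by
      refine mul_le_mul_of_nonneg_right ?_ hMδ
      linarith
    linarith

/-- **heavy interval** for the potential of helper833 -/
theorem heavy_psi {K : ℝ} (hK : 1 ≤ K) (hok : ∀ ω, 0 < P.w ω → C.Ok K ω) {n m b A0 R0 : ℕ} {a R : ℕ → ℕ}
    (hA : ∀ k ≤ n, C.a k = A0 + m * a k) (hR : ∀ k ≤ n, C.R k b = R0 + m * R k)
    (ha : ∀ k < n, a (k + 1) = a k ∨ a (k + 1) = a k + 1)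
    (hb8 : 8 * C.μ ≤ b) (h9 : 9 * C.μ ≤ C.R 0 b) (hμ : 40 * K ^ 2 * q2 C.μ ≤ (1 / 4 : ℝ) ^ m)
    (l : Ω → Λ) {Z : ℕ → Ω → ζ} (hZ : ∀ i < n, Fn P (Z i) (Z (i + 1)))
    (hZT : ∀ i ≤ n, Fn P (C.T i) (Z i))
    {χ : Type} (X : Ω → χ) {u : ℕ → ℝ} {η δ co : ℝ}
    (hV : ∀ k < n, a (k + 1) = a k + 1 → 2 * (m * Real.log 2) - u (a k) ≤ hc P (C.VZ (k + 1) b)
      (fun ω => (td C (k + 1) ω, (C.cell k b ω, C.VZ k b ω))))
    (hu : ∀ z, 0 ≤ u z) (hδ : eR K η m C.μ ≤ δ * (m * Real.log 2)) (hδ1 : δ ≤ 1) (hco : 0 ≤ co)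
    {i i1 Kμ Kc m' : ℕ} (hi : i < i1) (hi1 : i1 ≤ n)
    (hX : ∀ ω ω', 0 < P.w ω → 0 < P.w ω' → X ω = X ω' → C.l ω = C.l ω' ∧ C.T i ω = C.T i ω')
    (hXC : Fn P (C.cell i b) X)
    (hKc : m' + 2 * m + 8 * C.μ ≤ m * Kc)
    (hb : ∀ k, i1 ≤ k → k < n → a (k + 1) = a k + 1 → a i1 + Kμ ≤ a k → a k + Kc + R i < a i + R i1 →
      prE (two P X) (sbad C K i i1 k b m') ≤ η)
    (hov : a n + Kc + R i < a i + R i1 → ((a i : ℝ) + R i1 - R i - a n) * (m * Real.log 2) * (1 - δ) - co ≤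
      hc (two P X) (fun p => C.cell i1 b p.snd)
        (fun p => (C.cell n b p.fst, C.VZ n b p.fst))) :
    ((R i1 : ℝ) - R i - ((a i1 : ℝ) - a i) - Kμ - Kc) * (m * Real.log 2) * (1 - δ) -
      ∑ z ∈ Icc (a i) (a i + (R i1 - R i)), u z - 2 * nuK K - co -
      (m * Real.log 2) * ((a i1 : ℝ) - a i) -
      ∑ j ∈ Ico i i1, H833.qc P l Z (fun j ω => fl1 (C.a j) (C.t ω)) j ≤
      H833.psi P l Z (fun k => C.cell k b) i1 - H833.psi P l Z (fun k => C.cell k b) i := by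
  have h1 := heavy_hc P C hK hok hA hR ha hb8 h9 hμ X hV hu hδ hδ1 hco hi hi1 hX hXC hKc hb hov
  have h2 := H833.psi_sub P l Z (fun k => C.cell k b) (i := i) (k := i1) (H833.fn_chain P hZ hi.le hi1)
  have h3 : hc P (C.cell i b) (C.cell i1 b) ≤ nuK K :=
    H300.n2 P C hK hok hi.le (H300.Lev_mono C (Nat.zero_le i) ⟨hb8, by omega⟩)
  have htT : ∀ j ≤ n, ∀ ω ω', 0 < P.w ω → 0 < P.w ω' → Z j ω = Z j ω' →
      fl1 (C.a j) (C.t ω) = fl1 (C.a j) (C.t ω') := by
    intro j hj ω ω' p p' e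
    have e1 := hZT j hj ω ω' p p' e
    rw [← C.htm, ← C.htm, e1]
  have h4 := H833.cost_heavy P l (Z := Z) (tm := fun j ω => fl1 (C.a j) (C.t ω)) (n := n)
    (T := m * Real.log 2) (fun j hj => by
      rcases ha j hj with h5 | h5
      · have e1 : C.a (j + 1) = C.a j := by rw [hA j (by omega), hA (j + 1) (by omega), h5]
        refine le_trans (le_of_eq (hc_zero P ?_)) (mul_nonneg (Nat.cast_nonneg _)
          (Real.log_nonneg (by norm_num)))
        intro ω ω' p p' e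
        simp only [Prod.mk.injEq] at e
        simp only [e1]
        exact htT j (by omega) ω ω' p p' e.2
      · have e1 : C.a (j + 1) = C.a j + m := by
          rw [hA j (by omega), hA (j + 1) (by omega), h5]; ring
        have e2 : hc P (fun ω => fl1 (C.a (j + 1)) (C.t ω)) (fun ω => (l ω, Z j ω)) ≤
            hc P (fun ω => fl1 (C.a (j + 1)) (C.t ω)) (fun ω => (fl1 (C.a j) (C.t ω), ())) :=
          hc_mono_right P _ fun ω ω' p p' e => by
            simp only [Prod.mk.injEq] at e ⊢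
            exact ⟨htT j (by omega) ω ω' p p' e.2, trivial⟩
        have e3 := hc_fl1_digits_le P (C.ha (Nat.le_succ j)) C.t (fun _ => ())
        refine e2.trans (e3.trans (le_of_eq ?_))
        rw [show C.a (j + 1) - C.a j = m by omega])
    (a := a) (fun j hj => by
      rcases ha j hj with h5 | h5
      · refine Or.inr ⟨h5, fun ω ω' p p' e => ?_⟩
        have e1 : C.a (j + 1) = C.a j := by rw [hA j (by omega), hA (j + 1) (by omega), h5]
        simp only [e1]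
        exact htT j (by omega) ω ω' p p' e
      · exact Or.inl h5) hi.le hi1
  rw [h2]
  linarith

/-- **hypothesis (H)** of the summation, the field `heavy` of `H833.Cap`; `m' ≥` depth of the start (it may grow with the
length of the interval: `cK`), `c3` constant; `x j` = part of the loss `XO` of the overhang which is put into the price of the
step `j` (helper679), `cx` = part of the loss proportional to the length (helper543) -/
theorem heavy_cap {K : ℝ} (hK : 1 ≤ K) (hok : ∀ ω, 0 < P.w ω → C.Ok K ω) {n m b A0 R0 : ℕ} {a R : ℕ → ℕ}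
    (hA : ∀ k ≤ n, C.a k = A0 + m * a k) (hR : ∀ k ≤ n, C.R k b = R0 + m * R k)
    (ha : ∀ k < n, a (k + 1) = a k ∨ a (k + 1) = a k + 1)
    (hb8 : 8 * C.μ ≤ b) (h9 : 9 * C.μ ≤ C.R 0 b) (hμ : 40 * K ^ 2 * q2 C.μ ≤ (1 / 4 : ℝ) ^ m)
    (l : Ω → Λ) {Z : ℕ → Ω → ζ} (hZ : ∀ i < n, Fn P (Z i) (Z (i + 1)))
    (hZT : ∀ i ≤ n, Fn P (C.T i) (Z i)) (hZC : ∀ i ≤ n, Fn P (C.cell i b) (fun ω => (l ω, Z i ω)))
    {χ : Type} (X : ℕ → Ω → χ)
    (hX : ∀ i ≤ n, ∀ ω ω', 0 < P.w ω → 0 < P.w ω' → X i ω = X i ω' → C.l ω = C.l ω' ∧ C.T i ω = C.T i ω')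
    (hXC : ∀ i ≤ n, Fn P (C.cell i b) (X i)) {u : ℕ → ℝ} {η δ co : ℝ}
    (hV : ∀ k < n, a (k + 1) = a k + 1 → 2 * (m * Real.log 2) - u (a k) ≤ hc P (C.VZ (k + 1) b)
      (fun ω => (td C (k + 1) ω, (C.cell k b ω, C.VZ k b ω))))
    (hu : ∀ z, 0 ≤ u z) (hδ0 : 0 ≤ δ) (hδ : eR K η m C.μ ≤ δ * (m * Real.log 2)) (hδ1 : δ ≤ 1) (hco : 0 ≤ co)
    (g : ℕ → Prop) (M1 c3 cK : ℕ) {x : ℕ → ℝ} (hx : ∀ j, 0 ≤ x j) {cx : ℝ} (hcx : 0 ≤ cx)
    (hpair : ∀ i i1, g i → i < i1 → i1 ≤ n → R i + M1 < R i1 → R i + cK * (a i1 - a i) + c3 < R i1 →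
      m * Real.log 2 * ((R i1 : ℝ) - R i) ≤
          ∑ j ∈ Ico i i1, x j + co + m * Real.log 2 * cx * ((a i1 : ℝ) - a i) ∨
      ∃ m' Kμ Kc : ℕ, m' + 2 * m + 8 * C.μ ≤ m * Kc ∧ Kμ + Kc ≤ cK * (a i1 - a i) + c3 ∧
        (∀ k, i1 ≤ k → k < n → a (k + 1) = a k + 1 → a i1 + Kμ ≤ a k → a k + Kc + R i < a i + R i1 →
          prE (two P (X i)) (sbad C K i i1 k b m') ≤ η) ∧
        (a n + Kc + R i < a i + R i1 → ((a i : ℝ) + R i1 - R i - a n) * (m * Real.log 2) * (1 - δ) -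
          (co + ∑ j ∈ Ico i i1, x j + m * Real.log 2 * cx * ((a i1 : ℝ) - a i)) ≤ hc (two P (X i)) (fun p => C.cell i1 b p.snd)
            (fun p => (C.cell n b p.fst, C.VZ n b p.fst)))) :
    ∀ i i1, g i → i < i1 → i1 ≤ n → R i + M1 < R i1 →
      m * Real.log 2 * (1 - δ) * ((R i1 : ℝ) - R i) - m * Real.log 2 * (cK + 2 + cx) * ((a i1 : ℝ) - a i) -
        ∑ z ∈ Icc (a i) (a i + (R i1 - R i)), u z -
        (c3 * (m * Real.log 2) + 2 * nuK K + co) -
        ∑ j ∈ Ico i i1, (H833.qc P l Z (fun j ω => fl1 (C.a j) (C.t ω)) j + x j) ≤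
      H833.psi P l Z (fun k => C.cell k b) i1 - H833.psi P l Z (fun k => C.cell k b) i := by
  intro i i1 hg hi hi1 hRM
  have hl2 : 0 ≤ Real.log 2 := Real.log_nonneg (by norm_num)
  have hM0 : 0 ≤ m * Real.log 2 := by positivity
  set M : ℝ := m * Real.log 2 with hM
  have ham : a i ≤ a i1 := by
    have key : ∀ k', i ≤ k' → k' ≤ n → a i ≤ a k' := by
      intro k' h
      induction k', h using Nat.le_induction with
      | base => intro _; exact le_rfl
      | succ k' _ ih =>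
        intro h2
        have h3 := ih (by omega)
        rcases ha k' (by omega) with h4 | h4 <;> omega
    exact key i1 hi.le hi1
  have hw : (0 : ℝ) ≤ (a i1 : ℝ) - a i := by
    have : (a i : ℝ) ≤ a i1 := by exact_mod_cast ham
    linarith
  have hwc : ((a i1 - a i : ℕ) : ℝ) = (a i1 : ℝ) - a i := by
    rw [Nat.cast_sub ham]
  have hus : 0 ≤ ∑ z ∈ Icc (a i) (a i + (R i1 - R i)), u z := Finset.sum_nonneg fun z _ => hu z
  have hnu := nuK_nonneg K
  have hxs : 0 ≤ ∑ j ∈ Ico i i1, x j := Finset.sum_nonneg fun j _ => hx j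
  rw [Finset.sum_add_distrib]
  have htriv := H833.triv_cap P l (n := n) (Z := Z) (tm := fun j ω => fl1 (C.a j) (C.t ω)) (τ := fun j => C.T j)
    (C := fun k => C.cell k b) (cN := nuK K) hZ hZC (fun i _ ω ω' _ _ e => cell_T e)
    (fun i _ ω ω' _ _ e => C.hT i ω ω' e)
    (fun i _ ω ω' _ _ e => by
      change fl1 (C.a i) (C.t ω) = fl1 (C.a i) (C.t ω')
      rw [← C.htm, ← C.htm, e])
    (fun i k hik _ => H300.n2 P C hK hok hik (H300.Lev_mono C (Nat.zero_le i) ⟨hb8, by omega⟩))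
    hi.le hi1
  have hR0 : (0 : ℝ) ≤ (R i1 : ℝ) - R i := by
    have : (R i : ℝ) ≤ R i1 := by exact_mod_cast (by omega : R i ≤ R i1)
    linarith
  have hMJ : M * (1 - δ) * ((R i1 : ℝ) - R i) ≤ M * ((R i1 : ℝ) - R i) := by
    refine mul_le_mul_of_nonneg_right ?_ hR0
    nlinarith
  have hMw : 0 ≤ M * ((a i1 : ℝ) - a i) := mul_nonneg hM0 hw
  have hMc : 0 ≤ M * (cK * ((a i1 : ℝ) - a i)) := mul_nonneg hM0 (by positivity)
  have hM3 : 0 ≤ M * c3 := by positivity
  have hMx : 0 ≤ M * cx * ((a i1 : ℝ) - a i) := mul_nonneg (mul_nonneg hM0 hcx) hw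
  have hE : M * (cK + 2 + cx) * ((a i1 : ℝ) - a i) =
      M * (cK * ((a i1 : ℝ) - a i)) + 2 * (M * ((a i1 : ℝ) - a i)) + M * cx * ((a i1 : ℝ) - a i) := by
    ring
  have hE3 : (c3 : ℝ) * M = M * c3 := mul_comm _ _
  rw [hE, hE3]
  by_cases hJ : R i + cK * (a i1 - a i) + c3 < R i1
  · rcases hpair i i1 hg hi hi1 hRM hJ with h9 | ⟨m', Kμ, Kc, e1, e2, e3, e4⟩
    · refine le_trans ?_ htriv
      linarith
    have h1 := heavy_psi P C hK hok hA hR ha hb8 h9 hμ l hZ hZT (X i) hV hu hδ hδ1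
      (co := co + ∑ j ∈ Ico i i1, x j + M * cx * ((a i1 : ℝ) - a i)) (by linarith) hi hi1
      (hX i (by omega)) (hXC i (by omega)) e1 e3 e4
    refine le_trans ?_ h1
    have e5 : (Kμ : ℝ) + Kc ≤ cK * ((a i1 : ℝ) - a i) + c3 := by
      rw [← hwc]
      exact_mod_cast e2
    have e6 : (((a i1 : ℝ) - a i) + Kμ + Kc) * (M * (1 - δ)) ≤ (((a i1 : ℝ) - a i) + Kμ + Kc) * M := by
      refine mul_le_mul_of_nonneg_left ?_ (by positivity)
      nlinarith
    have e7 : (((a i1 : ℝ) - a i) + Kμ + Kc) * M ≤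
        (((a i1 : ℝ) - a i) + (cK * ((a i1 : ℝ) - a i) + c3)) * M :=
      mul_le_mul_of_nonneg_right (by linarith) hM0
    have e8 : (((a i1 : ℝ) - a i) + (cK * ((a i1 : ℝ) - a i) + c3)) * M =
        M * ((a i1 : ℝ) - a i) + M * (cK * ((a i1 : ℝ) - a i)) + M * c3 := by ring
    have e9 : ((R i1 : ℝ) - R i - ((a i1 : ℝ) - a i) - Kμ - Kc) * M * (1 - δ) =
        M * (1 - δ) * ((R i1 : ℝ) - R i) - (((a i1 : ℝ) - a i) + Kμ + Kc) * (M * (1 - δ)) := by ring
    rw [e9]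
    linarith
  · have h3 : (R i1 : ℝ) - R i ≤ cK * ((a i1 : ℝ) - a i) + c3 := by
      have : R i1 ≤ R i + cK * (a i1 - a i) + c3 := by omega
      have h4 : (R i1 : ℝ) ≤ R i + cK * ((a i1 - a i : ℕ) : ℝ) + c3 := by exact_mod_cast this
      rw [hwc] at h4
      linarith
    have h4 := mul_le_mul_of_nonneg_left h3 hM0
    rw [mul_add] at h4
    refine le_trans ?_ htriv
    linarith

end

end Vale.Agent.P106.U.H118
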