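import Vale.Agent.P106.U.H118.NearP
import Vale.Agent.P106.U.H118.HeavyX
import Vale.Agent.P106.U.H624.JunR
import Vale.Agent.P106.U.H513.YMtr

/-!
# P106 / U / H118 : the letters of the heavy intervals over the record (helper118)

`R` run, `F2` the field `f2`, `mt = S3.mt R F μ o o'`, `mt0 = S3.mt0 R F μ o o'`, `C = lc R.C μ o`, cap `b = m b1`.

* `Vy Vs Xs` : the young levels of the chain; `Ml .. b i` : letter of the young index `i` : `mt.mtr` in the kappa regime, `mt0.mtr`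
  in the deep phi regime.
* `prr_mt` : `Prr mt mt0`; `vz_mt`, `vz_mt0`.
* `Rec` : the hypotheses for the compressed path `f`, levels `a`.
* **`ml_td`, `ml_near`, `ml_J1`, `ml_J2`, `ml_ymod`** : the inputs `hMt`, `hMM`, `J1`, `J2` of `heavy_reX` and the hypothesis of
  helper513's `y6_re`.
-/

set_option autoImplicit false

namespace Vale.Agent.P106.U.H118

open Finset Vale.Agent.P127 Vale.Agent.P127.Stk
open Vale.Agent.P127.U.CellD (q2 q2_pos q2_le)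
open Vale.Agent.P106.U.Cell Vale.Agent.P106.U.S3
open Vale.Agent.P106.U.H785.Mtr (Mtd Lt YI hy_mt hy_mt0)
open Vale.Agent.P106.U.H101 (lc low)

section

variable {Ω : Type} [Fintype Ω] {τ υ π : Type} {R : Run Ω τ υ} {p : Run.Num} {K c' g' gU : ℝ} {B bS bV μ : ℕ}
  {F : Pf R π} {Vs Xs : Finset ℕ} {o : Fin 7 → ℝ} {o' : ℕ → ℝ}

/-- the young levels of the chain -/
def Vy (Vs Xs : Finset ℕ) : Set ℕ := {z | 1 ≤ z ∧ z ∈ Vs ∧ z ∉ Xs}

open Classical in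
/-- letter of the young index `i` -/
noncomputable def Ml (R : Run Ω τ υ) (F : Pf R π) (μ : ℕ) (o : Fin 7 → ℝ) (o' : ℕ → ℝ) (b i : ℕ) (ω : Ω) :
    (Lt π × Pth.Dg) ⊕ (Lt (π × ℤ × ℤ) × Pth.Dg) :=
  if b + R.C.rk i < R.C.rf i then Sum.inl ((mt R F μ o o').mtr i b ω) else Sum.inr ((mt0 R F μ o o').mtr i b ω)

theorem ml_kap {b i : ℕ} (h : b + R.C.rk i < R.C.rf i) (ω ω' : Ω) :
    Ml R F μ o o' b i ω = Ml R F μ o o' b i ω' ↔ (mt R F μ o o').mtr i b ω = (mt R F μ o o').mtr i b ω' := by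
  unfold Ml
  rw [if_pos h, if_pos h, Sum.inl.injEq]

theorem ml_phi {b i : ℕ} (h : ¬ b + R.C.rk i < R.C.rf i) (ω ω' : Ω) :
    Ml R F μ o o' b i ω = Ml R F μ o o' b i ω' ↔ (mt0 R F μ o o').mtr i b ω = (mt0 R F μ o o').mtr i b ω' := by
  unfold Ml
  rw [if_neg h, if_neg h, Sum.inr.injEq]

theorem prr_mt : Prr (mt R F μ o o') (mt0 R F μ o o') := by
  refine ⟨rfl, F.l0, rfl, rfl, rfl, rfl, rfl, rfl, rfl, rfl, rfl, rfl, fun i ω ω' => ?_⟩
  show (F.pf i ω, (mt R F μ o o').kN i ω, (mt R F μ o o').uN i ω) =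
    (F.pf i ω', (mt R F μ o o').kN i ω', (mt R F μ o o').uN i ω') ↔ _
  simp only [Prod.mk.injEq]
  exact Iff.rfl

theorem vz_mt (i b : ℕ) : ((mt R F μ o o').p1 i).VZ 0 b = (lc R.C μ o).VZ i b := VZ_congr rfl rfl rfl rfl rfl

theorem vz_mt0 (i b : ℕ) : ((mt0 R F μ o o').p1 i).VZ 0 b = (lc R.C μ o).VZ i b := VZ_congr rfl rfl rfl rfl rfl

/-- `641 (4 K)²`, rounded -/
noncomputable def MM (K : ℝ) : ℕ := ⌈641 * (4 * K) ^ 2⌉₊

/-- **the record at the compressed path** -/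
structure Rec (R : Run Ω τ υ) (p : Run.Num) (K c' g' gU : ℝ) (B bS bV μ : ℕ) (F : Pf R π) (Vs Xs : Finset ℕ)
    (f a : ℕ → ℕ) (N b : ℕ) : Prop where
  ok : R.Ok p K c' g' gU
  f2 : F2 R p K B bS bV F Vs Xs
  K1 : 1 ≤ K
  hB : (100 * K) ^ 20 ≤ (B : ℝ)
  hr : 100 * (R.m * B) ≤ R.r0
  μB : μ ≤ B
  μC : μ ≤ R.C.μ
  fm : Monotone f
  fn : ∀ k ≤ N, f k ≤ R.n
  hA : ∀ k ≤ N, R.C.a (f k) = R.m * a k
  hb : b = R.m * R.b1
  b8 : 8 * μ ≤ b
  μq : 640 * (4 * K) ^ 2 * q2 μ ≤ 1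

variable {f a : ℕ → ℕ} {N b k k2 : ℕ}

namespace Rec

theorem lv (H : Rec R p K c' g' gU B bS bV μ F Vs Xs f a N b) (hk : k ≤ N) : S3.lv R (f k) = a k := by
  unfold S3.lv
  rw [H.hA k hk, Nat.mul_div_cancel_left _ H.ok.pth.m1]

theorem yi (H : Rec R p K c' g' gU B bS bV μ F Vs Xs f a N b) (hk : k ≤ N) (hv : a k ∈ Vy Vs Xs) : f k ∈ YI R p Vs := by
  refine ⟨(H.fn k hk).trans (Nat.le_add_right _ _), ?_⟩
  rw [H.lv hk]
  exact hv.2.1

theorem one (H : Rec R p K c' g' gU B bS bV μ F Vs Xs f a N b) (hk : k ≤ N) (hv : a k ∈ Vy Vs Xs) : 1 ≤ f k := by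
  by_contra h
  have h0 : f k = 0 := by omega
  have h1 := H.hA k hk
  rw [h0, H.ok.pth.a0] at h1
  have h2 : R.m * 1 ≤ R.m * a k := Nat.mul_le_mul_left _ hv.1
  have := H.ok.pth.m1
  omega

theorem phi (H : Rec R p K c' g' gU B bS bV μ F Vs Xs f a N b) (hk : k ≤ N) (hv : a k ∈ Vy Vs Xs)
    (hn : ¬ b + R.C.rk (f k) < R.C.rf (f k)) : R.C.rf (f k) + 2 * (R.m * B) ≤ b + F.rk0 (f k) := by
  have h := H.f2.reg (f k) (H.one hk hv) (H.fn k hk) (by rw [H.lv hk]; exact hv.2.1) (by rw [H.lv hk]; exact hv.2.2)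
  rw [← H.hb] at h
  rcases h with h | h
  · have h1 := H.f2.loS
    have h2 := H.f2.loV
    have hB1 : 1 ≤ B := by
      have h3 : (1 : ℝ) ≤ (100 * K) ^ 20 := one_le_pow₀ (by have := H.K1; linarith)
      exact_mod_cast h3.trans H.hB
    have h4 : R.m * (R.b1 + B) = b + R.m * B := by rw [H.hb]; ring
    have h5 : B ≤ R.m * B := Nat.le_mul_of_pos_left B H.ok.pth.m1
    exact absurd (by omega) hn
  · exact h

theorem K4 (H : Rec R p K c' g' gU B bS bV μ F Vs Xs f a N b) : 1 ≤ 4 * K := by have := H.K1; linarith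

theorem pfT (H : Rec R p K c' g' gU B bS bV μ F Vs Xs f a N b) (i : ℕ) (hi : i ≤ R.n) : Fn R.Q (F.pf i) (R.C.T i) :=
  H.f2.pfT i (hi.trans (Nat.le_add_right _ _))

theorem mB (H : Rec R p K c' g' gU B bS bV μ F Vs Xs f a N b) : B ≤ R.m * B := Nat.le_mul_of_pos_left B H.ok.pth.m1

theorem rk_ge (H : Rec R p K c' g' gU B bS bV μ F Vs Xs f a N b) (i : ℕ) : R.r0 ≤ R.C.rk i := by
  have h := R.C.hk (Nat.zero_le i)
  rw [H.ok.pth.k0] at h
  exact h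

/-- `hMt` -/
theorem ml_td (_H : Rec R p K c' g' gU B bS bV μ F Vs Xs f a N b) (i : ℕ) :
    Fn R.Q (td (low R μ o).C i) (Ml R F μ o o' b i) := by
  intro ω ω' _ _ e
  show fl1 (R.C.a i) (R.C.t ω) = fl1 (R.C.a i) (R.C.t ω')
  by_cases h : b + R.C.rk i < R.C.rf i
  · have e1 := (ml_kap h ω ω').1 e
    exact congrArg (fun x : Lt π × Pth.Dg => x.1.1) e1
  · have e1 := (ml_phi h ω ω').1 e
    exact congrArg (fun x : Lt (π × ℤ × ℤ) × Pth.Dg => x.1.1) e1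

/-- prefix letters -/
theorem pfm (H : Rec R p K c' g' gU B bS bV μ F Vs Xs f a N b) {i j : ℕ} (hij : i ≤ j) (hj : j ≤ R.n) :
    Fn R.Q (F.pf i) (F.pf j) := by
  induction j, hij using Nat.le_induction with
  | base => exact fun _ _ _ _ e => e
  | succ j _ ih =>
    intro ω ω' p1 p2 e
    exact ih (by omega) ω ω' p1 p2 (H.f2.pfH j (by omega) ω ω' p1 p2 e)

/-- **`hMM`** : two young indices of the same kind -/
theorem ml_near (H : Rec R p K c' g' gU B bS bV μ F Vs Xs f a N b) (hk : k ≤ k2) (hk2 : k2 ≤ N)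
    (h1 : a k ∈ Vy Vs Xs) (h2 : a k2 ∈ Vy Vs Xs)
    (hr : b + R.C.rk (f k) < R.C.rf (f k) ↔ b + R.C.rk (f k2) < R.C.rf (f k2)) :
    hc R.Q (fun ω => (Ml R F μ o o' b (f k) ω, (low R μ o).C.VZ (f k) b ω))
      (fun ω => (Ml R F μ o o' b (f k2) ω, (low R μ o).C.VZ (f k2) b ω)) ≤ nuM (4 * K) (MM K) := by
  have y1 := H.yi (hk.trans hk2) h1
  have y2 := H.yi hk2 h2
  have hM : 641 * (4 * K) ^ 2 ≤ ((MM K : ℕ) : ℝ) := Nat.le_ceil _
  have hmB := H.mB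
  have hrr := H.hr
  have hμB := H.μB
  have hb8 := H.b8
  by_cases hq : b + R.C.rk (f k) < R.C.rf (f k)
  · have hq2 := hr.1 hq
    have hD : Dc (mt R F μ o o') (4 * K) (YI R p Vs) (f k) (f k2) b := by
      refine ⟨H.K4, y1, y2, H.fm hk, hb8, ?_⟩
      show 8 * μ ≤ min (R.C.rk (f k) - μ / 2 + b) (R.C.rf (f k))
      have := H.rk_ge (f k)
      have := R.C.hkf (f k)
      omega
    have key := mtr_vz_near (M := MM K) R.Q hD (fun ω hω => hy_mt H.ok H.f2 H.K1 H.hB H.hr H.μB H.μC hω)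
      (H.pfm (H.fm hk) (H.fn k2 hk2)) hM H.μq
    rw [vz_mt, vz_mt] at key
    refine le_trans (le_trans (hc_mono_left R.Q fun ω ω' _ _ e => ?_) (hc_mono_right R.Q _ fun ω ω' _ _ e => ?_)) key
    · simp only [Prod.mk.injEq] at e ⊢
      exact ⟨(ml_kap hq ω ω').2 e.1.1, e.1.2⟩
    · simp only [Prod.mk.injEq] at e ⊢
      exact ⟨(ml_kap hq2 ω ω').1 e.1, e.2⟩
  · have hq2 : ¬ b + R.C.rk (f k2) < R.C.rf (f k2) := fun h => hq (hr.2 h)
    have hph := H.phi (hk.trans hk2) h1 hq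
    have hD : Dc (mt0 R F μ o o') (4 * K) (YI R p Vs) (f k) (f k2) b := by
      refine ⟨H.K4, y1, y2, H.fm hk, hb8, ?_⟩
      show 8 * μ ≤ min (F.rk0 (f k) - μ / 2 + b) (R.C.rf (f k))
      have := H.f2.lo0 (f k)
      have := H.rk_ge (f k)
      have := R.C.hkf (f k)
      omega
    have key := mtr_vz_near0 (M := MM K) R.Q (prr_mt (R := R) (F := F) (μ := μ) (o := o) (o' := o')) hD
      (fun ω hω => hy_mt H.ok H.f2 H.K1 H.hB H.hr H.μB H.μC hω)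
      (fun ω hω => hy_mt0 H.ok H.f2 H.K1 H.hB H.hr H.μB H.μC hω H.f2.lo0)
      (H.pfm (H.fm hk) (H.fn k2 hk2)) hM H.μq
    rw [vz_mt0, vz_mt0] at key
    refine le_trans (le_trans (hc_mono_left R.Q fun ω ω' _ _ e => ?_) (hc_mono_right R.Q _ fun ω ω' _ _ e => ?_)) key
    · simp only [Prod.mk.injEq] at e ⊢
      exact ⟨(ml_phi hq ω ω').2 e.1.1, e.1.2⟩
    · simp only [Prod.mk.injEq] at e ⊢
      exact ⟨(ml_phi hq2 ω ω').1 e.1, e.2⟩

/-- **`J1`** -/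
theorem ml_J1 (H : Rec R p K c' g' gU B bS bV μ F Vs Xs f a N b) (hk : k ≤ N) (h1 : a k ∈ Vy Vs Xs) :
    hc R.Q ((low R μ o).C.cell (f k) b) (Ml R F μ o o' b (f k)) ≤
      27 * μ * Real.log 2 + H624.cJ K + hc R.Q (R.C.T (f k)) ((mt R F μ o o').lt (f k)) := by
  have y1 := H.yi hk h1
  by_cases hq : b + R.C.rk (f k) < R.C.rf (f k)
  · refine le_trans (hc_mono_right R.Q _ fun ω ω' _ _ e => ?_)
      (H624.cell_mtr (o := o) (o' := o') H.ok H.f2 H.K1 H.hB H.hr H.μB H.μC y1 (H.fn k hk) H.b8)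
    exact (ml_kap hq ω ω').1 e
  · refine le_trans (hc_mono_right R.Q _ fun ω ω' _ _ e => ?_)
      (H624.cell_mtr0 (o := o) (o' := o') H.ok H.f2 H.K1 H.hB H.hr H.μB H.μC y1 (H.fn k hk) H.b8 (H.phi hk h1 hq))
    exact (ml_phi hq ω ω').1 e

/-- **`J2`** -/
theorem ml_J2 (H : Rec R p K c' g' gU B bS bV μ F Vs Xs f a N b) (hk : k ≤ N) (h1 : a k ∈ Vy Vs Xs) :
    hc R.Q (Ml R F μ o o' b (f k)) ((low R μ o).C.cell (f k) b) ≤
      18 * μ * Real.log 2 + H624.cJ K + H624.cT (4 * K) := by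
  have y1 := H.yi hk h1
  by_cases hq : b + R.C.rk (f k) < R.C.rf (f k)
  · refine le_trans (hc_mono_left R.Q fun ω ω' _ _ e => ?_)
      (H624.mtr_cell (o := o) (o' := o') H.ok H.f2 H.K1 H.hB H.hr H.μB H.μC y1 (H.fn k hk) (H.pfT _ (H.fn k hk)) H.b8)
    simp only [Prod.mk.injEq] at e
    exact (ml_kap hq ω ω').2 e.1
  · refine le_trans (hc_mono_left R.Q fun ω ω' _ _ e => ?_)
      (H624.mtr0_cell (o := o) (o' := o') H.ok H.f2 H.K1 H.hB H.hr H.μB H.μC y1 (H.fn k hk) (H.pfT _ (H.fn k hk)) H.b8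
        (H.phi hk h1 hq))
    simp only [Prod.mk.injEq] at e
    exact (ml_phi hq ω ω').2 e.1

/-- **hypothesis of `y6_re`** -/
theorem ml_ymod (H : Rec R p K c' g' gU B bS bV μ F Vs Xs f a N b) {z : ℕ} (hz : z + μ / 2 ≤ 2 * (R.m * B))
    (hk : k ≤ N) (h1 : a k ∈ Vy Vs Xs) :
    H513.YMod (low R μ o) (32 * K) b z (f k) (Ml R F μ o o' b (f k)) c' := by
  have y1 := H.yi hk h1
  have hmB := H.mB
  have hrr := H.hr
  have hμB := H.μB
  by_cases hq : b + R.C.rk (f k) < R.C.rf (f k)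
  · obtain ⟨τ', D, j, E0, c1, c2, c3, c4, c5, c6, c7⟩ := H513.ymod_mt H.ok H.K1 H.f2 (k := f k) (μ := μ) o o' (H.fn k hk)
      H.μC (H785.Mtr.small H.K1 H.hB (by have := H.rk_ge (f k); omega)) (b := b) (z := z)
    exact ⟨τ', D, j, E0, c1, c2, c3, c4, c5, c6, fun ω ω' p1 p2 e => c7 ω ω' p1 p2 ((ml_kap hq ω ω').1 e)⟩
  · have hph := H.phi hk h1 hq
    obtain ⟨τ', D, j, E0, c1, c2, c3, c4, c5, c6, c7⟩ := H513.ymod_mt0 H.ok H.K1 H.f2 (k := f k) (μ := μ) o o' (H.fn k hk)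
      H.μC (H785.Mtr.small H.K1 H.hB (by have := H.f2.lo0 (f k); omega)) (b := b) (z := z) (by omega)
    exact ⟨τ', D, j, E0, c1, c2, c3, c4, c5, c6, fun ω ω' p1 p2 e => c7 ω ω' p1 p2 ((ml_phi hq ω ω').1 e)⟩

end Rec

end

end Vale.Agent.P106.U.H118
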