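import Vale.Agent.P106.U.H118.RiseH
import Vale.Agent.P106.U.H513.HPair
import Vale.Agent.P106.U.H833.PathX
import Vale.Agent.P106.U.H931.Re

/-!
# P106 / U / H118 : the heavy intervals over a run (helper118)

* `heavy_re` : hypothesis (H) of the summation along the indices `f` of the path of a `S3.Run` (compressed path, path from a
  given step on), cap `b` in digits: `heavy_cap` with helper513's `hpair_re`; inputs: the `(V, Z)`-step `hV` at the time steps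
  and the overhang `hov`.
* `heavy_run` : the same for the path itself, cap `x` in blocks.
-/

set_option autoImplicit false

namespace Vale.Agent.P106.U.H118

open Finset Vale.Agent.P127 Vale.Agent.P127.Stk
open Vale.Agent.P127.U.CellD (q2)
open Vale.Agent.P106.U.Cell Vale.Agent.P106.U.S3
open Vale.Agent.P106.U.H833 (aN RN)

variable {Ω : Type} [Fintype Ω] {τ υ : Type} {R : Run Ω τ υ}

/-- whole letter of the ray side -/
noncomputable def Zw (R : Run Ω τ υ) (i : ℕ) (ω : Ω) : (Vale.Agent.P106.K.Ry × υ) × τ := (R.Z i ω, R.C.T i ω)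

/-- **heavy intervals over a run**, along the indices `f` -/
theorem heavy_re {p : Run.Num} {K c' g' gU : ℝ} (h : R.Ok p K c' g' gU) (hK : 1 ≤ K)
    {f : ℕ → ℕ} (hf : Monotone f) {N : ℕ} (hfs : ∀ i k, i < k → k ≤ N → f i < f k) (hfn : ∀ k ≤ N, f k ≤ R.n)
    {A0 R0 b : ℕ} {a r : ℕ → ℕ} (hA : ∀ k ≤ N, R.C.a (f k) = A0 + R.m * a k)
    (hR : ∀ k ≤ N, R.C.R (f k) b = R0 + R.m * r k) (hst : ∀ k < N, a (k + 1) = a k ∨ a (k + 1) = a k + 1)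
    (hf1 : ∀ k < N, a (k + 1) = a k + 1 → R.C.a (f (k + 1)) = R.C.a (f k + 1))
    {ε δ co : ℝ} {c y c3 Kμ : ℕ} (hxB : b < p.B₁) (hbx : R.m + y ≤ b)
    (hc : 2 * K * q2 c ≤ 1) (hy : 40 * K ^ 6 * q2 y ≤ 1) (hq : K * q2 R.q ≤ 1)
    (hKμ : 2 * R.m + 2 * c + 1 + y ≤ R.m * Kμ)
    (h3a : (p.s + 1) * R.m + R.m + c + y + 3 * R.C.μ ≤ R.m * c3)
    (h3b : (p.s + 1) * R.m + 3 * R.m + 2 * c + 8 * R.C.μ ≤ R.m * c3)
    (hb8 : 8 * R.C.μ ≤ b) (h9 : 9 * R.C.μ ≤ R.C.R (f 0) b)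
    (hμ : 40 * K ^ 2 * q2 R.C.μ ≤ (1 / 4 : ℝ) ^ R.m) {u : ℕ → ℝ}
    (hV : ∀ k < N, a (k + 1) = a k + 1 → 2 * (R.m * Real.log 2) - u (a k) ≤ Stk.hc R.Q (R.C.VZ (f (k + 1)) b)
      (fun ω => (td R.C (f (k + 1)) ω, (R.C.cell (f k) b ω, R.C.VZ (f k) b ω))))
    (hu : ∀ z, 0 ≤ u z) (hδ0 : 0 ≤ δ)
    (hδ : eR K (3 * ε + 2 * c') R.m R.C.μ ≤ δ * (R.m * Real.log 2)) (hδ1 : δ ≤ 1) (hco : 0 ≤ co)
    {xo : ℕ → ℝ} (hxo : ∀ j, 0 ≤ xo j) {cx : ℝ} (hcx : 0 ≤ cx)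
    (hov : ∀ i i1, R.Good p ε b (f i) → i < i1 → i1 ≤ N → a N + r i < a i + r i1 →
      R.m * Real.log 2 * ((r i1 : ℝ) - r i) ≤
        ∑ j ∈ Ico i i1, xo j + co + R.m * Real.log 2 * cx * ((a i1 : ℝ) - a i) ∨
      ((a i : ℝ) + r i1 - r i - a N) * (R.m * Real.log 2) * (1 - δ) -
          (co + ∑ j ∈ Ico i i1, xo j + R.m * Real.log 2 * cx * ((a i1 : ℝ) - a i)) ≤
        Stk.hc (two R.Q (R.XZ (f i) b)) (fun p => R.C.cell (f i1) b p.snd)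
          (fun p => (R.C.cell (f N) b p.fst, R.C.VZ (f N) b p.fst))) (M1 : ℕ) :
    ∀ i i1, R.Good p ε b (f i) → i < i1 → i1 ≤ N → r i + M1 < r i1 →
      R.m * Real.log 2 * (1 - δ) * ((r i1 : ℝ) - r i) - R.m * Real.log 2 * (3 + 2 + cx) * ((a i1 : ℝ) - a i) -
        ∑ z ∈ Icc (a i) (a i + (r i1 - r i)), u z -
        (((c3 + Kμ : ℕ) : ℝ) * (R.m * Real.log 2) + 2 * nuK K + co) -
        ∑ j ∈ Ico i i1, (H833.qc R.Q R.ry (fun i => Zw R (f i)) (fun j ω => fl1 (R.C.a (f j)) (R.C.t ω)) j +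
          xo j) ≤
      H833.psi R.Q R.ry (fun i => Zw R (f i)) (fun k => R.C.cell (f k) b) i1 -
        H833.psi R.Q R.ry (fun i => Zw R (f i)) (fun k => R.C.cell (f k) b) i := by
  have hpr := Run.hpair_re (ε := ε) h hK (R.C.re f hf) (f := f) (n := N) rfl rfl rfl (fun _ _ => rfl)
    (fun _ _ => rfl) (fun _ _ _ _ => rfl) (fun ω hω => Pth.re_ok f hf hω) hfs hfn hf1 (A0 := A0) (R0 := R0)
    (a := a) (r := r) hA hR hxB hbx hc hy hq hKμ h3a h3b (fun i => R.XZ (f i) b)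
    (fun i _ _ _ _ _ e => e) (fun i _ _ _ _ _ e => e)
  have key := heavy_cap R.Q (R.C.re f hf) hK (fun ω hω => Pth.re_ok f hf (h.ok ω hω)) (n := N) (m := R.m) (b := b)
    (A0 := A0) (R0 := R0) (a := a) (R := r) hA hR hst hb8 h9 hμ R.ry (Z := fun i => Zw R (f i))
    (fun i _ ω ω' p1 p2 e => by
      simp only [Zw, Prod.mk.injEq] at e ⊢
      exact ⟨h.Um (f i) (f (i + 1)) (hf (Nat.le_succ i)) ω ω' p1 p2 e.1,
        R.C.T_anti' (hf (Nat.le_succ i)) e.2⟩)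
    (fun i _ ω ω' _ _ e => by
      simp only [Zw, Prod.mk.injEq] at e
      exact e.2)
    (fun i hi ω ω' p1 p2 e => by
      have := (Run.XZ_equiv h b (f i) (hfn i hi)).2 ω ω' p1 p2 e
      simp only [Run.XZ, Prod.mk.injEq] at this
      exact this.2)
    (fun i => R.XZ (f i) b) (fun i _ ω ω' _ _ e => Run.XZ_l h e)
    (fun i _ ω ω' _ _ e => by
      simp only [Run.XZ, Prod.mk.injEq] at e
      exact e.2) (u := u) (η := 3 * ε + 2 * c') (δ := δ) (co := co)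
    hV hu hδ0 hδ hδ1 hco (fun i => R.Good p ε b (f i)) M1 (c3 + Kμ) 3 hxo hcx
    (fun i i1 hg hi hi1 _ hJ => by
      by_cases hcs : R.m * Real.log 2 * ((r i1 : ℝ) - r i) ≤
          ∑ j ∈ Ico i i1, xo j + co + R.m * Real.log 2 * cx * ((a i1 : ℝ) - a i)
      · exact Or.inl hcs
      · obtain ⟨m', Kc, e1, e2, e3⟩ := hpr i i1 hg hi hi1 hJ
        refine Or.inr ⟨m', Kμ, Kc, e1, e2, fun k k1 k2 k3 k4 _ => e3 k k1 k2 k3 k4, fun ho => ?_⟩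
        exact (hov i i1 hg hi hi1 (by omega)).resolve_left hcs)
  intro i i1 hg hi hi1 hM
  have := key i i1 hg hi hi1 hM
  push_cast at this ⊢
  exact this

/-- **heavy intervals over a run**, cap `x` in blocks -/
theorem heavy_run {p : Run.Num} {K c' g' gU : ℝ} (h : R.Ok p K c' g' gU) (hK : 1 ≤ K)
    {ε δ co : ℝ} {x c y c3 Kμ : ℕ} (hxB : R.m * x < p.B₁) (hbx : R.m + y ≤ R.m * x)
    (hc : 2 * K * q2 c ≤ 1) (hy : 40 * K ^ 6 * q2 y ≤ 1) (hq : K * q2 R.q ≤ 1)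
    (hKμ : 2 * R.m + 2 * c + 1 + y ≤ R.m * Kμ)
    (h3a : (p.s + 1) * R.m + R.m + c + y + 3 * R.C.μ ≤ R.m * c3)
    (h3b : (p.s + 1) * R.m + 3 * R.m + 2 * c + 8 * R.C.μ ≤ R.m * c3)
    (hb8 : 8 * R.C.μ ≤ R.m * x) (h9 : 9 * R.C.μ ≤ R.C.R 0 (R.m * x))
    (hμ : 40 * K ^ 2 * q2 R.C.μ ≤ (1 / 4 : ℝ) ^ R.m) {u : ℕ → ℝ}
    (hV : ∀ k < R.n, R.IsA k → 2 * (R.m * Real.log 2) - u (aN R k) ≤ Stk.hc R.Q (R.C.VZ (k + 1) (R.m * x))
      (fun ω => (td R.C (k + 1) ω, (R.C.cell k (R.m * x) ω, R.C.VZ k (R.m * x) ω))))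
    (hu : ∀ z, 0 ≤ u z) (hδ0 : 0 ≤ δ)
    (hδ : eR K (3 * ε + 2 * c') R.m R.C.μ ≤ δ * (R.m * Real.log 2)) (hδ1 : δ ≤ 1) (hco : 0 ≤ co)
    {xo : ℕ → ℝ} (hxo : ∀ j, 0 ≤ xo j) {cx : ℝ} (hcx : 0 ≤ cx)
    (hov : ∀ i i1, R.Good p ε (R.m * x) i → i < i1 → i1 ≤ R.n →
      aN R R.n + RN R x i < aN R i + RN R x i1 →
      R.m * Real.log 2 * ((RN R x i1 : ℝ) - RN R x i) ≤
        ∑ j ∈ Ico i i1, xo j + co + R.m * Real.log 2 * cx * ((aN R i1 : ℝ) - aN R i) ∨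
      ((aN R i : ℝ) + RN R x i1 - RN R x i - aN R R.n) * (R.m * Real.log 2) * (1 - δ) -
          (co + ∑ j ∈ Ico i i1, xo j + R.m * Real.log 2 * cx * ((aN R i1 : ℝ) - aN R i)) ≤
        Stk.hc (two R.Q (R.XZ i (R.m * x))) (fun p => R.C.cell i1 (R.m * x) p.snd)
          (fun p => (R.C.cell R.n (R.m * x) p.fst, R.C.VZ R.n (R.m * x) p.fst))) (M1 : ℕ) :
    ∀ i i1, R.Good p ε (R.m * x) i → i < i1 → i1 ≤ R.n → RN R x i + M1 < RN R x i1 →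
      R.m * Real.log 2 * (1 - δ) * ((RN R x i1 : ℝ) - RN R x i) -
        R.m * Real.log 2 * (3 + 2 + cx) * ((aN R i1 : ℝ) - aN R i) -
        ∑ z ∈ Icc (aN R i) (aN R i + (RN R x i1 - RN R x i)), u z -
        (((c3 + Kμ : ℕ) : ℝ) * (R.m * Real.log 2) + 2 * nuK K + co) -
        ∑ j ∈ Ico i i1, (H833.qc R.Q R.ry (Zw R) (fun j ω => fl1 (R.C.a j) (R.C.t ω)) j + xo j) ≤
      H833.psi R.Q R.ry (Zw R) (fun k => R.C.cell k (R.m * x)) i1 -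
        H833.psi R.Q R.ry (Zw R) (fun k => R.C.cell k (R.m * x)) i := by
  have hP := h.pth
  have hst : ∀ k < R.n, aN R (k + 1) = aN R k ∨ aN R (k + 1) = aN R k + 1 := by
    intro k hk
    rcases H833.stepN hP (i := k) (by omega) with h1 | h1 | h1
    · exact Or.inr h1.1
    · exact Or.inl h1.1
    · exact Or.inl h1.1
  exact heavy_re h hK (f := fun i => i) (fun _ _ e => e) (N := R.n) (fun _ _ e _ => e) (fun _ e => e) (A0 := 0)
    (R0 := R.r0) (b := R.m * x) (a := aN R) (r := RN R x)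
    (fun k hk => by rw [Nat.zero_add]; exact H833.lev_a hP (by omega))
    (fun k hk => H833.lev_R hP x (by omega)) hst (fun _ _ _ => rfl) hxB hbx hc hy hq hKμ h3a h3b hb8 h9 hμ
    (fun k hk hak => hV k hk (by
      rcases H833.stepN hP (i := k) (by omega) with h1 | h1 | h1
      · exact h1.2.2.2
      · omega
      · omega))
    hu hδ0 hδ hδ1 hco hxo hcx hov M1

end Vale.Agent.P106.U.H118
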