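import Vale.Agent.P106.U.H118.NearC
import Vale.Agent.P106.U.H543.HNum
import Vale.Agent.P106.U.H357.HVR
import Vale.Agent.P106.U.H459.XE
import Vale.Agent.P106.U.H404.Kd3
import Vale.Agent.P106.U.H812.RecS

/-!
# P106 / U / H118 : the heavy intervals over the record (helper118)

`f = ix R i0`, `a = az R i0`, `N = nz R i0`, `b = bc R`, `C = lc R.C μ o`.

* `Vz`, `Sz`, `Mz`, `Yz` : young levels (below the last level), levels of a switch, letter of the young step, mixed letter.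
* `XZ` : the steps without reading index and the steps at the levels of `Sz`.
* `xz`, `uz` : excess of the junctions and error of the `V`-steps (helper357), as functions of the levels.
* `jmz` : price of a junction.
* **`heavy_rec`** : `ScaleOk.heavy` over the record, price per level `uz + usw Sz jmz xz + xz`.
-/

set_option autoImplicit false

namespace Vale.Agent.P106.U.H118

open Finset Vale.Agent.P127 Vale.Agent.P127.Stk Vale.Agent.P127.U Vale.Agent.P106.W Vale.Agent.P106.K Vale.Agent.P106.U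
open Vale.Agent.P127.U.CellD (q2 q2_pos q2_le)
open Vale.Agent.P106.U.Cell Vale.Agent.P106.U.S3
open Vale.Agent.P106.U.S5
open Vale.Agent.P106.U.H785.Mtr (Mtd Lt YI)
open Vale.Agent.P106.U.H101 (lc low)
open Vale.Agent.P106.U.H833 (aN RN)
open Vale.Agent.P106.U.H823
open Vale.Agent.P106.U.MIC (bc ix nz az rz)
open Vale.Agent.P106.U.H336 (SwL KR kd Rg)
open Vale.Agent.P106.U.Top543 (HNum hch xoR)

section defs

variable {Ω : Type} [Fintype Ω] {τ υ π : Type} (R : Run Ω τ υ) (i0 : ℕ)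

/-- young levels of the chain, below the last level -/
def Vz (Vs Xs : Finset ℕ) : Set ℕ := {z | z ∈ Vy Vs Xs ∧ z < az R i0 (nz R i0)}

/-- the levels where the kind of the letter may change -/
noncomputable def Sz (B : ℕ) (Vs Xs : Finset ℕ) (Lk : ℕ) : Finset ℕ := insert (az R i0 (nz R i0) - 1) (SwL R B Vs Xs Lk)

/-- letter of the young step `k` of the compressed path -/
noncomputable def Mz (F : Pf R π) (μ : ℕ) (o : Fin 7 → ℝ) (o' : ℕ → ℝ) (k : ℕ) :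
    Ω → (Lt π × Pth.Dg) ⊕ (Lt (π × ℤ × ℤ) × Pth.Dg) := Ml R F μ o o' (bc R) (ix R i0 k)

/-- the mixed letter -/
noncomputable def Yz (F : Pf R π) (Vs Xs : Finset ℕ) (μ : ℕ) (o : Fin 7 → ℝ) (o' : ℕ → ℝ) (k : ℕ) :
    Ω → (τ × Pth.Dg) ⊕ ((Lt π × Pth.Dg) ⊕ (Lt (π × ℤ × ℤ) × Pth.Dg)) :=
  mixY (az R i0) (Vz R i0 Vs Xs) (fun k => (lc R.C μ o).cell (ix R i0 k) (bc R)) (Mz R i0 F μ o o') k

/-- excess of the junctions, as a function of the level -/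
noncomputable def xz (xj : ℕ → ℝ) (z : ℕ) : ℝ := H357.uV (nz R i0) (az R i0) (fun k => xj (ix R i0 k)) z

/-- the exceptional steps: no reading index, or a switch of the kind -/
noncomputable def XZ (p : Run.Num) (B : ℕ) (Vs Xs : Finset ℕ) (d Lk : ℕ) : Finset ℕ :=
  H459.XA R p B i0 d ∪ (range (nz R i0)).filter fun j => az R i0 j ∈ Sz R i0 B Vs Xs Lk

/-- error of the `V`-step from the level `z` to the level `z + 1` -/
noncomputable def uz (p : Run.Num) (F : Pf R π) (B bS bV : ℕ) (Vs Xs : Finset ℕ) (μ : ℕ) (o : Fin 7 → ℝ) (o' : ℕ → ℝ)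
    (gg pv d Lk z : ℕ) : ℝ :=
  H357.uV (nz R i0) (az R i0) (H357.eH R F B bS bV Vs Xs μ o o' gg pv (ix R i0) (H459.rxI R i0 d)
    (XZ R i0 p B Vs Xs d Lk) (Yz R i0 F Vs Xs μ o o')) z

/-- price of a junction -/
noncomputable def jmz (K K' : ℝ) (m μ : ℕ) : ℝ :=
  27 * μ * Real.log 2 + H624.cJ K + K' * ((μ : ℝ) + m) + H624.cT (4 * K)

end defs

theorem cJ_nonneg (K : ℝ) : 0 ≤ H624.cJ K := by
  unfold H624.cJ
  have : (1 : ℝ) ≤ 1632 * (⌈32 * K⌉₊ : ℕ) ^ 7 + 3 := by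
    have : (0 : ℝ) ≤ 1632 * (⌈32 * K⌉₊ : ℕ) ^ 7 := by positivity
    linarith
  have := Real.log_nonneg this
  positivity

theorem cT_nonneg (K : ℝ) : 0 ≤ H624.cT K := by
  unfold H624.cT
  have h1 : (1 : ℝ) ≤ 2 * (⌈2 * K⌉₊ : ℕ) + 3 := by
    have : (0 : ℝ) ≤ 2 * (⌈2 * K⌉₊ : ℕ) := by positivity
    linarith
  have h2 : (1 : ℝ) ≤ 2 * (⌈10 * K⌉₊ : ℕ) + 3 := by
    have : (0 : ℝ) ≤ 2 * (⌈10 * K⌉₊ : ℕ) := by positivity
    linarith
  have := Real.log_nonneg h1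
  have := Real.log_nonneg h2
  positivity

theorem jmz_nonneg {K K' : ℝ} (hK' : 0 ≤ K') (m μ : ℕ) : 0 ≤ jmz K K' m μ := by
  unfold jmz
  have h1 := cJ_nonneg K
  have h2 := cT_nonneg (4 * K)
  have h3 : 0 ≤ Real.log 2 := Real.log_nonneg (by norm_num)
  positivity

section kinds

variable {Ω : Type} [Fintype Ω] {τ υ π : Type} {R : Run Ω τ υ} {p : Run.Num} {K : ℝ} {B bS bV : ℕ}
  {F : Pf R π} {Vs Xs : Finset ℕ} {i0 Lk z k k2 : ℕ}

/-- the regimes of `F2` in helper336's form -/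
theorem rg_of (f2 : F2 R p K B bS bV F Vs Xs) (hP : R.Path p) (hB : 1 ≤ B) : Rg R B bS bV F.rk0 Vs Xs := by
  have h1 := f2.loS
  have h2 := f2.loV
  have h3 : 0 < R.m * B := Nat.mul_pos hP.m1 hB
  rw [Nat.mul_add] at h1
  exact ⟨hB, F.l0, by omega, by omega, fun k k1 kn hV hX => f2.regS k k1 kn hV hX,
    fun k k1 kn hV hX => f2.reg k k1 kn hV hX⟩

theorem kd_mem (R : Run Ω τ υ) (Vs : Finset ℕ) (z : ℕ) : (kd R Vs z = 1 ∨ kd R Vs z = 2) ↔ z ∈ Vs := by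
  unfold kd
  by_cases h1 : z ∈ Vs <;> by_cases h2 : H336.kap R z
  · rw [if_pos h1, if_pos h2]
    exact ⟨fun _ => h1, fun _ => Or.inl rfl⟩
  · rw [if_pos h1, if_neg h2]
    exact ⟨fun _ => h1, fun _ => Or.inr rfl⟩
  · rw [if_neg h1, if_pos h2]
    exact ⟨fun h => absurd h (by decide), fun h => absurd h h1⟩
  · rw [if_neg h1, if_neg h2]
    exact ⟨fun h => absurd h (by decide), fun h => absurd h h1⟩

/-- `hVS` -/
theorem vz_switch (Hg : Rg R B bS bV F.rk0 Vs Xs) (hP : R.Path p) (hi0 : i0 ≤ Cmp.Nc R R.b1) (hL : 1 ≤ Lk)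
    (hz : z ∉ (Sz R i0 B Vs Xs Lk : Set ℕ)) : z ∈ Vz R i0 Vs Xs ↔ z + 1 ∈ Vz R i0 Vs Xs := by
  have hA := H404.az_top (R := R) hi0
  have hz' : z ∉ Sz R i0 B Vs Xs Lk := fun h => hz (Finset.mem_coe.2 h)
  unfold Sz at hz'
  rw [Finset.mem_insert, not_or] at hz'
  obtain ⟨z1, z2⟩ := hz'
  unfold Vz
  simp only [Set.mem_ofPred_eq]
  rcases Nat.lt_or_ge (z + 1) (az R i0 (nz R i0)) with h1 | h1
  · have key := Hg.pure hP (L := Lk) (z0 := z) (z1 := z) le_rfl (by omega) (fun y y1 y2 => by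
      have : y = z := by omega
      rw [this]
      exact z2)
    obtain ⟨a1, a2, _⟩ := key z le_rfl (by omega) (by omega)
    obtain ⟨b1, b2, b3⟩ := key (z + 1) (by omega) (by omega) (by omega)
    have c1 : z ∈ Vs ↔ z + 1 ∈ Vs := by rw [← kd_mem R Vs z, ← kd_mem R Vs (z + 1), b3]
    unfold Vy
    simp only [Set.mem_ofPred_eq]
    constructor
    · rintro ⟨⟨_, h2, _⟩, _⟩
      exact ⟨⟨by omega, c1.1 h2, b2⟩, h1⟩
    · rintro ⟨⟨_, h2, _⟩, _⟩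
      exact ⟨⟨by omega, c1.2 h2, a2⟩, by omega⟩
  · constructor
    · rintro ⟨_, h2⟩
      exfalso
      omega
    · rintro ⟨_, h2⟩
      exfalso
      omega

/-- one regime on two consecutive levels outside `SwL` -/
theorem rg_same (Hg : Rg R B bS bV F.rk0 Vs Xs) (hP : R.Path p) (hL : 1 ≤ Lk) (hz : z ∉ SwL R B Vs Xs Lk)
    (hzn : z ≤ aN R R.n) (h1 : aN R k = z) (h2 : aN R k2 = z + 1) (kn : k ≤ R.n) (k2n : k2 ≤ R.n) : KR R k ↔ KR R k2 := by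
  have h : ∀ y, z ≤ y → y ≤ z → y ∉ SwL R B Vs Xs Lk := fun y y1 y2 => by
    have : y = z := by omega
    rw [this]
    exact hz
  obtain ⟨_, _, _, a0, a1, a2, a3⟩ := Hg.pure_idx hP (L := Lk) le_rfl hzn h (k := k) (by omega) (by omega) kn
  obtain ⟨_, _, _, b0, b1, b2, b3⟩ := Hg.pure_idx hP (L := Lk) le_rfl hzn h (k := k2) (by omega) (by omega) k2n
  have hc : kd R Vs z = 0 ∨ kd R Vs z = 1 ∨ kd R Vs z = 2 ∨ kd R Vs z = 3 := by
    generalize kd R Vs z = x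
    fin_cases x <;> simp
  rcases hc with hc | hc | hc | hc
  · exact ⟨fun _ => (b0 hc).2.1, fun _ => (a0 hc).2.1⟩
  · exact ⟨fun _ => (b1 hc).2.1, fun _ => (a1 hc).2.1⟩
  · exact ⟨fun h => absurd h (a2 hc).2.1, fun h => absurd h (b2 hc).2.1⟩
  · exact ⟨fun h => absurd h (a3 hc).2.1, fun h => absurd h (b3 hc).2.1⟩

end kinds

section rec

variable {σ : Cst} {ε : ℝ} {ρ : Thr} {m B : ℕ} {Ω : Type} [Fintype Ω] {Q : Law Ω} {l : Ω → Ry} {t : Ω → ℝ} {L h q r0 Rn : ℕ}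
  {W : Ω → Cbx} {τ υ π : Type} {R : Run Ω τ υ} {pn : Run.Num} {g' gU e κ₀ : ℝ} {a1 r1 : ℕ} {bS bV μ : ℕ}
  {F : Pf R π} {Vs Xs : Finset ℕ}

/-- the record gives `Rec` with the threshold `0` -/
theorem rec_of (H : RunOk σ ε ρ m B Q l t L h q r0 Rn W R pn g' gU e κ₀ a1 r1) (hρ : ρ.Ok)
    (f2 : F2 R pn ρ.K B bS bV F Vs Xs) (hB : (100 * ρ.K) ^ 20 ≤ (B : ℝ)) (hμB : μ ≤ B)
    (hq : 640 * (4 * ρ.K) ^ 2 * q2 μ ≤ 1) (i0 : ℕ) :
    Rec R pn ρ.K 0 g' gU B bS bV μ F Vs Xs (ix R i0) (az R i0) (nz R i0) (bc R) := by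
  have hP := H.ok.pth
  have h1 : B ≤ R.m * B := Nat.le_mul_of_pos_left B hP.m1
  have hμC : μ ≤ R.C.μ := by
    rw [H.hμ, ← H.hm]
    omega
  exact ⟨S3.Run.ok_zero H.ok hρ.c'0.le H.kn0, f2, hρ.K1, hB, by rw [H.hm, H.hr0]; exact H.rm, hμB, hμC, MIC.ix_mono R i0,
    fun k _ => H812.ix_le_n R i0 k, fun k _ => H812.a_ix hP i0 k, rfl, H812.b_mu H hμC, hq⟩

/-- the steps of `(V, Z)` with the mixed letter -/
theorem v_step {K g' gU : ℝ} {p : Run.Num} {o : Fin 7 → ℝ} {o' : ℕ → ℝ} {i0 gg pv d Lk : ℕ}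
    (hR : Rec R p K 0 g' gU B bS bV μ F Vs Xs (ix R i0) (az R i0) (nz R i0) (bc R))
    (Nm : H357.HvN (32 * K) R.m gg μ pv (R.m * R.b1) bS) (hd : 4 * μ ≤ d * R.m) (h100 : 100 * μ ≤ R.r0) :
    ∀ k < nz R i0, az R i0 (k + 1) = az R i0 k + 1 →
      2 * (R.m * Real.log 2) - uz R i0 p F B bS bV Vs Xs μ o o' gg pv d Lk (az R i0 k) ≤
        Stk.hc R.Q ((lc R.C μ o).VZ (ix R i0 (k + 1)) (bc R))
          (fun ω => (td (lc R.C μ o) (ix R i0 (k + 1)) ω,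
            (Yz R i0 F Vs Xs μ o o' k ω, (lc R.C μ o).VZ (ix R i0 k) (bc R) ω))) := by
  have hP := hR.ok.pth
  have hK1 := hR.K1
  have hμC := hR.μC
  exact H357.hV_u (R := R) (F := F) (B := B) (bS := bS) (bV := bV) (Vs := Vs) (Xs := Xs) (μ := μ) (o := o) (o' := o')
    (K := 4 * K) (g := gg) (pv := pv) (by linarith)
    (by rw [show 8 * (4 * K) = 32 * K by ring]; exact Nm) hR.f2.loV
    (fun ω hω => H357.ok_up (by linarith) (by linarith) (H101.lc_Ok o hμC (hR.ok.ok ω hω)))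
    (fun J hJ ω hω => by
      rw [show 8 * (4 * K) = 32 * K by ring]
      have h1 := hJ
      unfold IdK at h1
      rw [Finset.mem_filter, Finset.mem_Icc] at h1
      exact H785.Mtr.fz_mt hR.ok hR.f2 hK1 hR.hB hR.hr hR.μB hμC hω ⟨h1.1.2.trans (Nat.le_add_right _ _), h1.2.1⟩ rfl)
    (fun J hJ ω hω => by
      rw [show 8 * (4 * K) = 32 * K by ring]
      have h1 := hJ
      unfold IdP at h1
      rw [Finset.mem_filter, Finset.mem_Icc] at h1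
      exact H785.Mtr.fz_mt0 hR.ok hR.f2 hK1 hR.hB hR.hr hR.μB hμC hω hR.f2.lo0
        ⟨h1.1.2.trans (Nat.le_add_right _ _), h1.2.1⟩ rfl)
    (f := ix R i0) (a := az R i0) (N := nz R i0) (A0 := 0) (fun k _ => H812.a_ix0 hP i0 k)
    (fun j _ _ => by
      have h1 := hR.rk_ge (ix R i0 (j + 1))
      have h2 := hR.f2.lo0 (ix R i0 (j + 1))
      constructor <;> omega)
    (XZ R i0 p B Vs Xs d Lk) (H459.rxI R i0 d)
    (fun j hj haj hX => by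
      obtain ⟨_, h1, _, h2, _⟩ := H459.XA_spec hj haj fun h => hX (Finset.mem_union_left _ h)
      refine ⟨h1.le, ?_⟩
      rw [h2]
      omega)
    (Yz R i0 F Vs Xs μ o o')

end rec

/-- **THE HEAVY INTERVALS OVER THE RECORD** -/
theorem heavy_rec {σ : Cst} (hσ : σ.Ok) {ε : ℝ} (hε : 0 < ε) (h8 : 8 * ε ≤ σ.lam) {ρ : Thr} (hρ : ρ.Ok) {g : Gv}
    (hg : g.Ok σ ε) {δ0 : ℝ} (hδ0 : 0 < δ0) :
    ∃ (D : ℝ) (z : ℕ), 0 ≤ D ∧ ∀ {m B : ℕ} {Ω : Type} [Fintype Ω] {Q : Law Ω} {l : Ω → Ry} {t : Ω → ℝ}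
      {L h q r0 Rn : ℕ} {W : Ω → Cbx} {τ υ : Type} {R : Run Ω τ υ} {pn : Run.Num} {g' gU e κ₀ : ℝ} {a1 r1 : ℕ},
      NEx 100 σ.lam σ.N g.k g.β ε Q l t (fun _ => ()) L h q W →
      RunOk σ ε ρ m B Q l t L h q r0 Rn W R pn g' gU e κ₀ a1 r1 →
      ∀ {eg ν δ : ℝ} {c y cμ x : ℕ}, HNum (32 * ρ.K) eg 0 ν δ D c y z cμ x m B → ∀ {μ : ℕ}, μ = cμ * x * m → 0 ≤ eg →
      12 * eg + δ0 ≤ δ → δ ≤ 1 → ∀ {i0 : ℕ}, i0 ≤ Cmp.Nc R R.b1 → ∀ {ν₀ : ℕ}, 0 < ν₀ →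
      -- the record of the caps
      ∀ {π : Type} {bS bV : ℕ} {F : Pf R π} {Vs Xs : Finset ℕ}, F2 R pn ρ.K B bS bV F Vs Xs →
      (100 * ρ.K) ^ 20 ≤ (B : ℝ) → 2 ≤ B → μ ≤ B → 640 * (4 * ρ.K) ^ 2 * q2 μ ≤ 1 → nuM (4 * ρ.K) (MM ρ.K) ≤ ν →
      ∀ {gg pv d Lk : ℕ}, H357.HvN (32 * ρ.K) R.m gg μ pv (R.m * R.b1) bS → 4 * μ ≤ d * m → 1 ≤ Lk →
      ∀ (o : Fin 7 → ℝ) (o' : ℕ → ℝ) {K' : ℝ} {xj : ℕ → ℝ}, 0 ≤ K' → (∀ k, 0 ≤ xj k) →
      (∀ k ∈ Icc 1 R.n, lv R k ∈ Vs → lv R k ∉ Xs → R.IsA k →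
        hc R.Q (R.C.T k) ((mt R F μ o o').lt k) ≤ K' * ((μ : ℝ) + R.m) + xj k) →
      ∀ (M1 i i1 : ℕ), R.Good pn eg (bc R) (ix R i0 i) → i < i1 → i1 ≤ nz R i0 → rz R i0 i + M1 < rz R i0 i1 →
        m * Real.log 2 * (1 - δ) * ((rz R i0 i1 : ℝ) - rz R i0 i) - m * Real.log 2 * 18 * ((az R i0 i1 : ℝ) - az R i0 i) -
          ∑ z ∈ Icc (az R i0 i) (az R i0 i + (rz R i0 i1 - rz R i0 i)),
            (uz R i0 pn F B bS bV Vs Xs μ o o' gg pv d Lk z +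
              usw (Sz R i0 B Vs Xs Lk : Set ℕ) (jmz ρ.K K' m μ) (xz R i0 xj) z + xz R i0 xj z) -
          hch (32 * ρ.K) (jmz ρ.K K' m μ) D cμ x pn.s m -
          ∑ j ∈ Ico i i1, (H833.qc R.Q R.ry (fun i => Zw R (ix R i0 i)) (fun j ω => fl1 (R.C.a (ix R i0 j)) (R.C.t ω)) j +
            xoR (m * Real.log 2) ((σ.θ + σ.δ1 + 4 * ε) * h) ν₀ (az R i0) (rz R i0) (nz R i0) j) ≤
        H833.psi R.Q R.ry (fun i => Zw R (ix R i0 i)) (fun k => (lc R.C μ o).cell (ix R i0 k) (bc R)) i1 -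
          H833.psi R.Q R.ry (fun i => Zw R (ix R i0 i)) (fun k => (lc R.C μ o).cell (ix R i0 k) (bc R)) i := by
  obtain ⟨D, z, hD, key⟩ := Top543.heavy_mu hσ hε h8 hρ hg hδ0
  refine ⟨D, z, hD, ?_⟩
  intro m B Ω _ Q l t L h q r0 Rn W τ υ R pn g' gU e κ₀ a1 r1 hne H eg ν δ c y cμ x Hn μ hμ heg heδ hδ1 i0 hi0 ν₀ hν₀ π bS bV F
    Vs Xs f2 hB hB2 hμB hq hν gg pv d Lk Nm hd hL o o' K' xj hK' hxj hjun M1 i i1 hgi hii hi1 hM
  have hmm : R.m = m := H.hm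
  subst hmm
  have hP := H.ok.pth
  have hR := rec_of H hρ f2 hB hμB hq i0
  have Hg := rg_of f2 hP (by omega)
  have hAt := H404.az_top (R := R) hi0
  have hr100 := H812.r_mu H hR.μC
  -- the steps of `V`
  have hV := v_step (o := o) (o' := o') (Lk := Lk) hR Nm hd hr100
  have huz : ∀ z, 0 ≤ uz R i0 pn F B bS bV Vs Xs μ o o' gg pv d Lk z := fun z =>
    H357.uV_nonneg (fun k => H357.eH_nonneg _ _ _ _ _ _ _) z
  have hxz : ∀ z, 0 ≤ xz R i0 xj z := fun z => H357.uV_nonneg (fun k => hxj _) z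
  have hjm : 0 ≤ jmz ρ.K K' R.m μ := jmz_nonneg hK' R.m μ
  -- below the last level every last step is an a-step
  have hlast : ∀ k ≤ nz R i0, az R i0 k ∈ Vz R i0 Vs Xs → (k = nz R i0 ∨ az R i0 (k + 1) = az R i0 k + 1) →
      k < nz R i0 ∧ az R i0 (k + 1) = az R i0 k + 1 := by
    intro k hk hv h1
    have h2 : az R i0 k < az R i0 (nz R i0) := hv.2
    have h3 : k ≠ nz R i0 := fun h => by rw [h] at h2; omega
    rcases h1 with h1 | h1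
    · exact absurd h1 h3
    · exact ⟨by omega, h1⟩
  refine key hne H Hn hμ heg le_rfl heδ hδ1 o hi0 hν₀ (Vz R i0 Vs Xs) (Sz R i0 B Vs Xs Lk : Set ℕ) (Mz R i0 F μ o o')
    (fun k _ _ => hR.ml_td (ix R i0 k)) (u := uz R i0 pn F B bS bV Vs Xs μ o o' gg pv d Lk) (xx := xz R i0 xj)
    (jm := jmz ρ.K K' R.m μ) ?_ ?_ huz hxz (fun z hz => vz_switch Hg hP hi0 hL hz) ?_ hjm ?_ ?_ ?_ M1 i i1 hgi hii hi1 hM
  · -- old steps
    intro k hk hak hv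
    refine (hV k hk hak).trans (hc_mono_right R.Q _ fun ω ω' _ _ e => ?_)
    simp only [Prod.mk.injEq] at e ⊢
    exact ⟨e.1, (mixY_old (C := fun k => (lc R.C μ o).cell (ix R i0 k) (bc R)) (M := Mz R i0 F μ o o') hv ω ω').1 e.2.1, e.2.2⟩
  · -- young steps
    intro k hk hak hv
    refine (hV k hk hak).trans (hc_mono_right R.Q _ fun ω ω' _ _ e => ?_)
    simp only [Prod.mk.injEq] at e ⊢
    exact ⟨e.1, (mixY_young (C := fun k => (lc R.C μ o).cell (ix R i0 k) (bc R)) (M := Mz R i0 F μ o o') hv ω ω').1 e.2.1,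
      e.2.2⟩
  · -- nesting
    intro k k2 hk hak hkk hk2 ha2 _ hv hv2 hS
    have hS' : az R i0 k ∉ SwL R B Vs Xs Lk := fun h => hS (Finset.mem_coe.2 (Finset.mem_insert_of_mem h))
    have h1 : az R i0 k < az R i0 (nz R i0) := hv.2
    have hsame := rg_same Hg hP hL hS' (k := ix R i0 k) (k2 := ix R i0 k2) (by omega) rfl ha2 (H812.ix_le_n R i0 k)
      (H812.ix_le_n R i0 k2)
    exact (hR.ml_near hkk.le hk2 hv.1 hv2.1 hsame).trans hν
  · -- J1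
    intro k hk hv h1
    obtain ⟨h2, h3⟩ := hlast k hk hv h1
    have h4 := hR.ml_J1 (o := o) (o' := o') hk hv.1
    have h5 := hjun (ix R i0 k) (Finset.mem_Icc.2 ⟨hR.one hk hv.1, H812.ix_le_n R i0 k⟩)
      (by rw [hR.lv hk]; exact hv.1.2.1) (by rw [hR.lv hk]; exact hv.1.2.2) (H812.ix_isA hP h2 h3)
    have h6 := H357.uV_le (N := nz R i0) (a := az R i0) (e := fun k => xj (ix R i0 k)) (fun k => hxj _) h2 h3
    have h7 := cT_nonneg (4 * ρ.K)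
    have h8 : xj (ix R i0 k) ≤ xz R i0 xj (az R i0 k) := h6
    unfold jmz
    refine h4.trans ?_
    linarith
  · -- J2
    intro k hk hv h1
    have h4 := hR.ml_J2 (o := o) (o' := o') hk hv.1
    refine h4.trans ?_
    unfold jmz
    have h5 : 0 ≤ K' * ((μ : ℝ) + R.m) := by positivity
    have h6 : 0 ≤ (μ : ℝ) * Real.log 2 := by positivity
    linarith
  · -- YMod
    intro k hk _ hv
    refine hR.ml_ymod (z := 2 * R.m) ?_ hk.le hv.1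
    have h1 : 2 * (R.m * 2) ≤ 2 * (R.m * B) := Nat.mul_le_mul_left 2 (Nat.mul_le_mul_left R.m hB2)
    have h2 : B ≤ R.m * B := hR.mB
    omega

end Vale.Agent.P106.U.H118
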