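import Vale.Agent.P106.U.H118.RiseH

/-!
# P106 / U / H118 : constants of the heavy intervals (helper118)

* `par_num` : the numbers `c, y, Kμ` of `heavy_re` from the class `K`, and `c3` from the margin `μ ≤ c0 (x + 1) m` of the scale
  `M s = x`; `Kμ`, `c3` in blocks.
* `par_eR` : the error of one step of RISE is `≤ δ m log 2` for `η ≤ η0`, `m ≥ m0`, uniformly in the scales `x ≤ X`.
* `ch_le` : the cost of a heavy interval is `≤ m CH x`.
-/

set_option autoImplicit false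

namespace Vale.Agent.P106.U.H118

open Vale.Agent.P127.U.CellD (q2 q2_pos)

theorem exists_q2 {A : ℝ} : ∃ c : ℕ, A * q2 c ≤ 1 := by
  obtain ⟨n, hn⟩ := exists_nat_ge A
  refine ⟨n, ?_⟩
  have h1 : (2 : ℝ) ^ n * q2 n = 1 := Vale.Agent.P127.U.CellD.q2_mul_pow n
  have h2 : (n : ℝ) ≤ 2 ^ n := by exact_mod_cast (Nat.lt_two_pow_self (n := n)).le
  have h3 := q2_pos n
  calc A * q2 n ≤ 2 ^ n * q2 n := mul_le_mul_of_nonneg_right (hn.trans h2) h3.le
    _ = 1 := h1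

/-- numbers of `heavy_re` -/
theorem par_num (K : ℝ) : ∃ c y Kμ : ℕ, 2 * K * q2 c ≤ 1 ∧ 40 * K ^ 6 * q2 y ≤ 1 ∧
    (∀ m : ℕ, 1 ≤ m → 2 * m + 2 * c + 1 + y ≤ m * Kμ) ∧
    ∀ s c0 x m μ : ℕ, 1 ≤ m → μ ≤ c0 * (x + 1) * m →
      (s + 1) * m + m + c + y + 3 * μ ≤ m * (s + 4 + 2 * c + y + 8 * (c0 * (x + 1))) ∧
      (s + 1) * m + 3 * m + 2 * c + 8 * μ ≤ m * (s + 4 + 2 * c + y + 8 * (c0 * (x + 1))) := by
  obtain ⟨c, hc⟩ := exists_q2 (A := 2 * K)
  obtain ⟨y, hy⟩ := exists_q2 (A := 40 * K ^ 6)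
  refine ⟨c, y, 2 + 2 * c + 1 + y, hc, hy, ?_, ?_⟩
  · intro m hm
    have h1 : 2 * c + 1 + y ≤ m * (2 * c + 1 + y) := Nat.le_mul_of_pos_left _ hm
    calc 2 * m + 2 * c + 1 + y = m * 2 + (2 * c + 1 + y) := by ring
      _ ≤ m * 2 + m * (2 * c + 1 + y) := by omega
      _ = m * (2 + 2 * c + 1 + y) := by ring
  · intro s c0 x m μ hm hμ
    have h1 : 2 * c + y ≤ m * (2 * c + y) := Nat.le_mul_of_pos_left _ hm
    have h2 : m * (s + 4 + 2 * c + y + 8 * (c0 * (x + 1))) =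
        (s + 1) * m + 3 * m + m * (2 * c + y) + 8 * (c0 * (x + 1) * m) := by ring
    constructor
    · rw [h2]
      omega
    · rw [h2]
      omega

/-- the error of one step of RISE -/
theorem par_eR (K : ℝ) {δ : ℝ} (hδ : 0 < δ) (c0 X : ℕ) : ∃ η0 : ℝ, 0 < η0 ∧ ∃ m0 : ℕ, 1 ≤ m0 ∧
    ∀ m : ℕ, m0 ≤ m → ∀ η : ℝ, 0 ≤ η → η ≤ η0 → ∀ x ≤ X, ∀ μ : ℕ, μ ≤ c0 * (x + 1) * m →
      eR K η m μ ≤ δ * (m * Real.log 2) := by
  have hl : 0 < Real.log 2 := Real.log_pos (by norm_num)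
  have hl45 : 0 ≤ Real.log 45 := Real.log_nonneg (by norm_num)
  have hl95 : 0 ≤ Real.log 9540 := Real.log_nonneg (by norm_num)
  have hnu := nuK_nonneg K
  set D : ℝ := 2 + 2 * (c0 * (X + 1)) with hD
  have hD0 : 0 < D := by positivity
  set η0 : ℝ := min 1 (δ / (2 * D)) with hη0
  have hη00 : 0 < η0 := by positivity
  set B : ℝ := Real.log 9540 + 2 + Real.log 45 + (nuK K + Real.log 45) with hB
  obtain ⟨m1, hm1⟩ := exists_nat_ge (2 * B / (δ * Real.log 2))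
  refine ⟨η0, hη00, max m1 1, le_max_right _ _, ?_⟩
  intro m hm η hη hηη x hx μ hμ
  have hmm : (m1 : ℝ) ≤ m := by exact_mod_cast (le_max_left _ _).trans hm
  have e1 : 2 * B ≤ δ * Real.log 2 * m := by
    have h1 := hm1.trans hmm
    rw [div_le_iff₀ (by positivity)] at h1
    linarith
  have hη1 : η ≤ 1 := hηη.trans (min_le_left _ _)
  have e2 : Real.sqrt η ≤ 1 := by
    rw [show (1 : ℝ) = Real.sqrt 1 by simp]
    exact Real.sqrt_le_sqrt hη1
  have e3 : η * Real.log 45 ≤ Real.log 45 := by nlinarith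
  have e4 : (μ : ℝ) ≤ c0 * (X + 1) * m := by
    have h1 : μ ≤ c0 * (X + 1) * m :=
      hμ.trans (Nat.mul_le_mul_right m (Nat.mul_le_mul_left c0 (by omega)))
    exact_mod_cast h1
  have e5 : 2 * (m : ℝ) + 2 * μ ≤ D * m := by
    rw [hD]
    linarith
  have e6 : η * ((2 * m + 2 * μ) * Real.log 2) ≤ δ / 2 * (m * Real.log 2) := by
    have h1 : η ≤ δ / (2 * D) := hηη.trans (min_le_right _ _)
    have h2 : 0 ≤ (2 * (m : ℝ) + 2 * μ) * Real.log 2 := by positivity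
    calc η * ((2 * m + 2 * μ) * Real.log 2) ≤ δ / (2 * D) * ((2 * m + 2 * μ) * Real.log 2) :=
          mul_le_mul_of_nonneg_right h1 h2
      _ ≤ δ / (2 * D) * (D * m * Real.log 2) := by
          refine mul_le_mul_of_nonneg_left ?_ (by positivity)
          exact mul_le_mul_of_nonneg_right e5 hl.le
      _ = δ / 2 * (m * Real.log 2) := by
          field_simp
  unfold eR
  have e7 : η * (Real.log 45 + (2 * m + 2 * μ) * Real.log 2) =
      η * Real.log 45 + η * ((2 * m + 2 * μ) * Real.log 2) := by ring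
  rw [e7]
  have e8 : δ * (m * Real.log 2) = δ / 2 * (m * Real.log 2) + δ / 2 * (m * Real.log 2) := by ring
  have e9 : B ≤ δ / 2 * (m * Real.log 2) := by
    linarith
  rw [e8]
  linarith

/-- cost of a heavy interval -/
noncomputable def CH (K co : ℝ) (s c y Kμ c0 x : ℕ) : ℝ :=
  (((s + 4 + 2 * c + y + 8 * (c0 * (x + 1)) + Kμ : ℕ) : ℝ)) * Real.log 2 + 2 * nuK K + co

theorem CH_nonneg {K co : ℝ} (hco : 0 ≤ co) (s c y Kμ c0 x : ℕ) : 0 ≤ CH K co s c y Kμ c0 x := by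
  have hl : 0 < Real.log 2 := Real.log_pos (by norm_num)
  have hnu := nuK_nonneg K
  unfold CH
  positivity

theorem ch_le {K co : ℝ} (hco : 0 ≤ co) (s c y Kμ c0 x : ℕ) {m : ℕ} (hm : 1 ≤ m) :
    (((s + 4 + 2 * c + y + 8 * (c0 * (x + 1)) + Kμ : ℕ) : ℝ)) * (m * Real.log 2) + 2 * nuK K + co ≤
      m * CH K co s c y Kμ c0 x := by
  have hnu := nuK_nonneg K
  have hm' : (1 : ℝ) ≤ m := by exact_mod_cast hm
  unfold CH
  nlinarith

end Vale.Agent.P106.U.H118
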