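import Vale.Agent.P106.U.H118.HRec
import Vale.Agent.P106.U.H543.RowH
import Vale.Agent.P106.U.H357.USg

/-!
# P106 / U / H118 : the letters of the heavy intervals at the situation `St` (helper118)

* `v_stepX` : the `(V, Z)`-steps with the mixed letter `Yz`, any exceptional steps `X`, any reading indices `rx`.
* **`yz_O`, `yz_K`, `yz_P`** : the mixed letter given the cell of the next step (helper357's `eJ`), outside `SwL`.
* `uX` : error of the steps as a function of the level.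
* `rec_st` : `Rec` for `St`; **`hLet_of`** : helper543's `HLet`.
-/

set_option autoImplicit false

namespace Vale.Agent.P106.U.H118

open Finset Vale.Agent.P127 Vale.Agent.P127.Stk Vale.Agent.P127.U Vale.Agent.P106.W Vale.Agent.P106.K Vale.Agent.P106.U
open Vale.Agent.P127.U.CellD (q2 q2_pos q2_le)
open Vale.Agent.P106.U.Cell Vale.Agent.P106.U.S3
open Vale.Agent.P106.U.S5
open Vale.Agent.P106.U.H785.Mtr (Mtd Lt YI)
open Vale.Agent.P106.U.H101 (lc low)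
open Vale.Agent.P106.U.H833 (aN RN)
open Vale.Agent.P106.U.H823
open Vale.Agent.P106.U.MIC (bc ix nz az rz St μS xS KS)
open Vale.Agent.P106.U.H336 (SwL KR kd Rg)

section run

variable {Ω : Type} [Fintype Ω] {τ υ π : Type} {R : Run Ω τ υ} {p : Run.Num} {K c' g' gU : ℝ} {B bS bV μ : ℕ}
  {F : Pf R π} {Vs Xs : Finset ℕ} {o : Fin 7 → ℝ} {o' : ℕ → ℝ} {i0 gg pv Lk j : ℕ}

/-- the `(V, Z)`-steps with the mixed letter -/
theorem v_stepX (hR : Rec R p K c' g' gU B bS bV μ F Vs Xs (ix R i0) (az R i0) (nz R i0) (bc R))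
    (Nm : H357.HvN (32 * K) R.m gg μ pv (R.m * R.b1) bS) (h100 : 100 * μ ≤ R.r0) (X : Finset ℕ) (rx : ℕ → ℕ)
    (hx : ∀ j < nz R i0, az R i0 (j + 1) = az R i0 j + 1 → j ∉ X →
      ix R i0 (j + 1) ≤ rx j ∧ R.C.a (ix R i0 (j + 1)) + 4 * μ ≤ R.C.a (rx j)) :
    ∀ k < nz R i0, az R i0 (k + 1) = az R i0 k + 1 →
      2 * (R.m * Real.log 2) - H357.eH R F B bS bV Vs Xs μ o o' gg pv (ix R i0) rx X (Yz R i0 F Vs Xs μ o o') k ≤
        Stk.hc R.Q ((lc R.C μ o).VZ (ix R i0 (k + 1)) (bc R))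
          (fun ω => (td (lc R.C μ o) (ix R i0 (k + 1)) ω,
            (Yz R i0 F Vs Xs μ o o' k ω, (lc R.C μ o).VZ (ix R i0 k) (bc R) ω))) := by
  have hP := hR.ok.pth
  have hK1 := hR.K1
  have hμC := hR.μC
  exact H357.hV_run (R := R) (F := F) (B := B) (bS := bS) (bV := bV) (Vs := Vs) (Xs := Xs) (μ := μ) (o := o) (o' := o')
    (K := 4 * K) (g := gg) (pv := pv) (by linarith)
    (by rw [show 8 * (4 * K) = 32 * K by ring]; exact Nm) hR.f2.loV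
    (fun ω hω => H357.ok_up (by linarith) (by linarith) (H101.lc_Ok o hμC (hR.ok.ok ω hω)))
    (fun J hJ ω hω => by
      rw [show 8 * (4 * K) = 32 * K by ring]
      have h1 := hJ
      unfold IdK at h1
      rw [Finset.mem_filter, Finset.mem_Icc] at h1
      exact H785.Mtr.fz_mt hR.ok hR.f2 hK1 hR.hB hR.hr hR.μB hμC hω ⟨h1.1.2.trans (Nat.le_add_right _ _), h1.2.1⟩ rfl)
    (fun J hJ ω hω => by
      rw [show 8 * (4 * K) = 32 * K by ring]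
      have h1 := hJ
      unfold IdP at h1
      rw [Finset.mem_filter, Finset.mem_Icc] at h1
      exact H785.Mtr.fz_mt0 hR.ok hR.f2 hK1 hR.hB hR.hr hR.μB hμC hω hR.f2.lo0
        ⟨h1.1.2.trans (Nat.le_add_right _ _), h1.2.1⟩ rfl)
    (f := ix R i0) (a := az R i0) (N := nz R i0) (A0 := 0) (fun k _ => H812.a_ix0 hP i0 k)
    (fun j _ _ => by
      have h1 := hR.rk_ge (ix R i0 (j + 1))
      have h2 := hR.f2.lo0 (ix R i0 (j + 1))
      constructor <;> omega)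
    X rx hx (Yz R i0 F Vs Xs μ o o')

/-- the two levels of a step outside `SwL` -/
theorem step_kd (hR : Rec R p K c' g' gU B bS bV μ F Vs Xs (ix R i0) (az R i0) (nz R i0) (bc R)) (hB : 1 ≤ B)
    (hi0 : i0 ≤ Cmp.Nc R R.b1) (hL : 1 ≤ Lk) (ha : az R i0 (j + 1) = az R i0 j + 1)
    (hN : az R i0 j + 1 < az R i0 (nz R i0)) (hz : az R i0 j ∉ SwL R B Vs Xs Lk) :
    ((kd R Vs (az R i0 j) = 0 ∨ kd R Vs (az R i0 j) = 3) → az R i0 j ∉ Vz R i0 Vs Xs) ∧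
    (kd R Vs (az R i0 j) = 1 → az R i0 j ∈ Vz R i0 Vs Xs ∧ az R i0 (j + 1) ∈ Vz R i0 Vs Xs ∧
      KR R (ix R i0 j) ∧ KR R (ix R i0 (j + 1))) ∧
    (kd R Vs (az R i0 j) = 2 → az R i0 j ∈ Vz R i0 Vs Xs ∧ az R i0 (j + 1) ∈ Vz R i0 Vs Xs ∧
      ¬ KR R (ix R i0 j) ∧ ¬ KR R (ix R i0 (j + 1))) := by
  have hP := hR.ok.pth
  have Hg := rg_of hR.f2 hP hB
  have hA := H404.az_top (R := R) hi0
  have h : ∀ y, az R i0 j ≤ y → y ≤ az R i0 j → y ∉ SwL R B Vs Xs Lk := fun y y1 y2 => by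
    have : y = az R i0 j := by omega
    rw [this]
    exact hz
  obtain ⟨x1, x2, x3, a0, a1, a2, a3⟩ := Hg.pure_idx hP (L := Lk) le_rfl (by omega) h (k := ix R i0 j) le_rfl
    (Nat.le_add_right _ _) (H812.ix_le_n R i0 j)
  obtain ⟨y1, y2, y3, b0, b1, b2, b3⟩ := Hg.pure_idx hP (L := Lk) le_rfl (by omega) h (k := ix R i0 (j + 1))
    (by show az R i0 j ≤ az R i0 (j + 1); omega) (by show az R i0 (j + 1) ≤ az R i0 j + Lk; omega)
    (H812.ix_le_n R i0 (j + 1))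
  obtain ⟨z1, _, _⟩ := Hg.pure hP (L := Lk) le_rfl (by omega) h (az R i0 j) le_rfl (Nat.le_add_right _ _) (by omega)
  have hx2 : az R i0 j ∉ Xs := x2
  have hy2 : az R i0 (j + 1) ∉ Xs := y2
  refine ⟨fun hk hv => ?_, fun hk => ?_, fun hk => ?_⟩
  · have h1 : az R i0 j ∈ Vs := hv.1.2.1
    rcases hk with hk | hk
    · exact (a0 hk).1 h1
    · exact (a3 hk).1 h1
  · exact ⟨⟨⟨by omega, (a1 hk).1, hx2⟩, by omega⟩, ⟨⟨by omega, (b1 hk).1, hy2⟩, by omega⟩, (a1 hk).2.1, (b1 hk).2.1⟩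
  · exact ⟨⟨⟨by omega, (a2 hk).1, hx2⟩, by omega⟩, ⟨⟨by omega, (b2 hk).1, hy2⟩, by omega⟩, (a2 hk).2.1, (b2 hk).2.1⟩

/-- **the mixed letter given the next cell**, old level -/
theorem yz_O (hR : Rec R p K c' g' gU B bS bV μ F Vs Xs (ix R i0) (az R i0) (nz R i0) (bc R)) (hB : 1 ≤ B)
    (h100 : 100 * μ ≤ R.r0)
    (hi0 : i0 ≤ Cmp.Nc R R.b1) (hL : 1 ≤ Lk) (ha : az R i0 (j + 1) = az R i0 j + 1)
    (hN : az R i0 j + 1 < az R i0 (nz R i0)) (hz : az R i0 j ∉ SwL R B Vs Xs Lk)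
    (hk : kd R Vs (az R i0 j) = 0 ∨ kd R Vs (az R i0 j) = 3) :
    hc R.Q (Yz R i0 F Vs Xs μ o o' j) ((lc R.C μ o).cell (ix R i0 (j + 1)) (R.m * R.b1)) ≤ nuK K := by
  have hv := (step_kd hR hB hi0 hL ha hN hz).1 hk
  have h1 := H300.n2 R.Q (lc R.C μ o) hR.K1 (fun ω hω => H101.lc_Ok o hR.μC (hR.ok.ok ω hω)) (i := ix R i0 j)
    (j := ix R i0 (j + 1)) (b := R.m * R.b1) (H812.ix_mono' R i0 (Nat.le_succ j))
    (H812.lev_ix hR.ok.pth o hR.b8 (by omega) j)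
  refine (hc_mono_left R.Q fun ω ω' _ _ e => ?_).trans h1
  simp only [Prod.mk.injEq] at e ⊢
  exact (mixY_old (C := fun k => (lc R.C μ o).cell (ix R i0 k) (bc R)) (M := Mz R i0 F μ o o') hv ω ω').2 e.1

/-- **the mixed letter given the next cell**, young level, kappa regime -/
theorem yz_K (hR : Rec R p K c' g' gU B bS bV μ F Vs Xs (ix R i0) (az R i0) (nz R i0) (bc R)) (hB : 1 ≤ B)
    (hi0 : i0 ≤ Cmp.Nc R R.b1) (hL : 1 ≤ Lk) (hj : j < nz R i0) (ha : az R i0 (j + 1) = az R i0 j + 1)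
    (hN : az R i0 j + 1 < az R i0 (nz R i0)) (hz : az R i0 j ∉ SwL R B Vs Xs Lk) (hk : kd R Vs (az R i0 j) = 1) :
    hc R.Q (Yz R i0 F Vs Xs μ o o' j)
      (((mt R F μ o o').fz (ix R i0 (j + 1)) (ix R i0 (j + 1))).cell (ix R i0 (j + 1)) (R.m * R.b1)) ≤ cM K := by
  obtain ⟨hv, hv2, r1, r2⟩ := (step_kd hR hB hi0 hL ha hN hz).2.1 hk
  have h1 := hR.ml_fzK (o := o) (o' := o') (Nat.le_succ j) hj hv.1 hv2.1 r1 r2
  refine (hc_mono_left R.Q fun ω ω' _ _ e => ?_).trans h1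
  simp only [Prod.mk.injEq] at e ⊢
  exact (mixY_young (C := fun k => (lc R.C μ o).cell (ix R i0 k) (bc R)) (M := Mz R i0 F μ o o') hv ω ω').2 e.1

/-- **the mixed letter given the next cell**, young level, phi regime -/
theorem yz_P (hR : Rec R p K c' g' gU B bS bV μ F Vs Xs (ix R i0) (az R i0) (nz R i0) (bc R)) (hB : 1 ≤ B)
    (hi0 : i0 ≤ Cmp.Nc R R.b1) (hL : 1 ≤ Lk) (hj : j < nz R i0) (ha : az R i0 (j + 1) = az R i0 j + 1)
    (hN : az R i0 j + 1 < az R i0 (nz R i0)) (hz : az R i0 j ∉ SwL R B Vs Xs Lk) (hk : kd R Vs (az R i0 j) = 2) :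
    hc R.Q (Yz R i0 F Vs Xs μ o o' j)
      (((mt0 R F μ o o').fz (ix R i0 (j + 1)) (ix R i0 (j + 1))).cell (ix R i0 (j + 1)) (R.m * R.b1)) ≤ cM K := by
  obtain ⟨hv, hv2, r1, r2⟩ := (step_kd hR hB hi0 hL ha hN hz).2.2 hk
  have h1 := hR.ml_fzP (o := o) (o' := o') (Nat.le_succ j) hj hv.1 hv2.1 r1 r2
  refine (hc_mono_left R.Q fun ω ω' _ _ e => ?_).trans h1
  simp only [Prod.mk.injEq] at e ⊢
  exact (mixY_young (C := fun k => (lc R.C μ o).cell (ix R i0 k) (bc R)) (M := Mz R i0 F μ o o') hv ω ω').2 e.1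

end run

section st

variable {η : ℝ} {x : ℕ} {σ : Cst} {ε : ℝ} {ρ : Thr} {g : Gv} {m B h : ℕ}

/-- `Rec` for `St` -/
theorem rec_st (hρ : ρ.Ok) (s : St η x σ ε ρ g m B h) (hB : KS ρ ≤ (B : ℝ)) (hμB : μS x m ≤ B)
    (hq : 640 * (4 * ρ.K) ^ 2 * q2 (μS x m) ≤ 1) :
    Rec s.R s.pn ρ.K ρ.c' s.g' s.gU B s.bS s.bV (μS x m) s.F s.Vs s.Xs (ix s.R s.i0) (az s.R s.i0) (nz s.R s.i0) (bc s.R) := by
  have hP := s.run.ok.pth
  have h1 : B ≤ s.R.m * B := Nat.le_mul_of_pos_left B hP.m1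
  have hμC : μS x m ≤ s.R.C.μ := by
    have h2 : s.R.C.μ = s.R.m * B := by rw [s.run.hμ, s.run.hm]
    omega
  exact ⟨s.run.ok, s.f2, hρ.K1, hB, by rw [s.run.hm, s.run.hr0]; exact s.run.rm, hμB, hμC, MIC.ix_mono s.R s.i0,
    fun k _ => H812.ix_le_n s.R s.i0 k, fun k _ => H812.a_ix hP s.i0 k, rfl, H812.b_mu s.run hμC, hq⟩

/-- **the letters of the heavy intervals** : helper543's `HLet`; any exceptional steps `X` and reading indices `rx` with the two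
inequalities, any `S` above the switches, any `xx` above the excesses -/
theorem hLet_of (hρ : ρ.Ok) (s : St η x σ ε ρ g m B h) (hB : KS ρ ≤ (B : ℝ)) (hμB : μS x m ≤ B) (hB2 : 2 ≤ B)
    (hq : 640 * (4 * ρ.K) ^ 2 * q2 (μS x m) ≤ 1) {ν : ℝ} (hν : nuM (4 * ρ.K) (MM ρ.K) ≤ ν) {gg pv Lk : ℕ}
    (Nm : H357.HvN (32 * ρ.K) s.R.m gg (μS x m) pv (s.R.m * s.R.b1) s.bS) (X : Finset ℕ) (rx : ℕ → ℕ)
    (hx : ∀ j < s.N, s.a (j + 1) = s.a j + 1 → j ∉ X →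
      s.f (j + 1) ≤ rx j ∧ s.R.C.a (s.f (j + 1)) + 4 * μS x m ≤ s.R.C.a (rx j))
    (hL : 1 ≤ Lk) {S : Finset ℕ} (hS : Sz s.R s.i0 B s.Vs s.Xs Lk ⊆ S) {xj xx : ℕ → ℝ}
    (hjun : ∀ k ∈ Icc 1 s.R.n, lv s.R k ∈ s.Vs → lv s.R k ∉ s.Xs → s.R.IsA k →
      hc s.R.Q (s.R.C.T k) ((mt s.R s.F (μS x m) s.o s.o').lt k) ≤ KS ρ * (((μS x m : ℕ) : ℝ) + s.R.m) + xj k)
    (hxx : ∀ z, 0 ≤ xx z) (hxj : ∀ k < s.N, s.a (k + 1) = s.a k + 1 → xj (s.f k) ≤ xx (s.a k))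
    {jm : ℝ} (hjm : jmz ρ.K (KS ρ) m (μS x m) ≤ jm) :
    Top543.HLet s ν (Vz s.R s.i0 s.Vs s.Xs) (S : Set ℕ) (Mz s.R s.i0 s.F (μS x m) s.o s.o')
      (H357.uV s.N s.a (H357.eH s.R s.F B s.bS s.bV s.Vs s.Xs (μS x m) s.o s.o' gg pv s.f rx X
        (Yz s.R s.i0 s.F s.Vs s.Xs (μS x m) s.o s.o'))) xx jm ρ.c' := by
  have hP := s.run.ok.pth
  have hR := rec_st hρ s hB hμB hq
  have Hg := rg_of s.f2 hP (by omega)
  have hmm : s.R.m = m := s.run.hm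
  have hAt := H404.az_top (R := s.R) s.hi0
  have hr100 := H812.r_mu s.run hR.μC
  have hK1 := hρ.K1
  have hKS : 0 ≤ KS ρ := by
    unfold KS
    positivity
  have hj0 : 0 ≤ jmz ρ.K (KS ρ) m (μS x m) := jmz_nonneg hKS m (μS x m)
  have hV := v_stepX (o := s.o) (o' := s.o') hR Nm hr100 X rx hx
  have hle : ∀ k < nz s.R s.i0, az s.R s.i0 (k + 1) = az s.R s.i0 k + 1 →
      H357.eH s.R s.F B s.bS s.bV s.Vs s.Xs (μS x m) s.o s.o' gg pv (ix s.R s.i0) rx X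
        (Yz s.R s.i0 s.F s.Vs s.Xs (μS x m) s.o s.o') k ≤
      H357.uV s.N s.a (H357.eH s.R s.F B s.bS s.bV s.Vs s.Xs (μS x m) s.o s.o' gg pv s.f rx X
        (Yz s.R s.i0 s.F s.Vs s.Xs (μS x m) s.o s.o')) (az s.R s.i0 k) := fun k hk hak =>
    H357.uV_le (N := s.N) (a := s.a) (e := H357.eH s.R s.F B s.bS s.bV s.Vs s.Xs (μS x m) s.o s.o' gg pv s.f rx X
        (Yz s.R s.i0 s.F s.Vs s.Xs (μS x m) s.o s.o')) (fun k => H357.eH_nonneg _ _ _ _ _ _ _) hk hak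
  have hlast : ∀ k ≤ nz s.R s.i0, az s.R s.i0 k ∈ Vz s.R s.i0 s.Vs s.Xs →
      (k = nz s.R s.i0 ∨ az s.R s.i0 (k + 1) = az s.R s.i0 k + 1) →
      k < nz s.R s.i0 ∧ az s.R s.i0 (k + 1) = az s.R s.i0 k + 1 := by
    intro k hk hv h1
    have h2 : az s.R s.i0 k < az s.R s.i0 (nz s.R s.i0) := hv.2
    have h3 : k ≠ nz s.R s.i0 := fun h => by rw [h] at h2; omega
    rcases h1 with h1 | h1
    · exact absurd h1 h3
    · exact ⟨by omega, h1⟩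
  have hmR : ((s.R.m : ℕ) : ℝ) = m := by rw [hmm]
  refine ⟨fun k _ _ => hR.ml_td (ix s.R s.i0 k), ?_, ?_,
    fun z => H357.uV_nonneg (fun k => H357.eH_nonneg _ _ _ _ _ _ _) z, hxx,
    fun z hz => vz_switch Hg hP s.hi0 hL fun h => hz (hS (Finset.mem_coe.1 h)), ?_, hj0.trans hjm, ?_, ?_, ?_⟩
  · -- old steps
    intro k hk hak hv
    have h1 := hV k hk hak
    rw [hmR] at h1
    have h2 := hle k hk hak
    refine (show _ ≤ _ from le_trans (by linarith) h1).trans (hc_mono_right s.R.Q _ fun ω ω' _ _ e => ?_)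
    simp only [Prod.mk.injEq] at e ⊢
    exact ⟨e.1, (mixY_old (C := fun k => (lc s.R.C (μS x m) s.o).cell (ix s.R s.i0 k) (bc s.R))
      (M := Mz s.R s.i0 s.F (μS x m) s.o s.o') hv ω ω').1 e.2.1, e.2.2⟩
  · -- young steps
    intro k hk hak hv
    have h1 := hV k hk hak
    rw [hmR] at h1
    have h2 := hle k hk hak
    refine (show _ ≤ _ from le_trans (by linarith) h1).trans (hc_mono_right s.R.Q _ fun ω ω' _ _ e => ?_)
    simp only [Prod.mk.injEq] at e ⊢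
    exact ⟨e.1, (mixY_young (C := fun k => (lc s.R.C (μS x m) s.o).cell (ix s.R s.i0 k) (bc s.R))
      (M := Mz s.R s.i0 s.F (μS x m) s.o s.o') hv ω ω').1 e.2.1, e.2.2⟩
  · -- nesting
    intro k k2 hk hak hkk hk2 ha2 _ hv hv2 hkS
    have hS' : az s.R s.i0 k ∉ SwL s.R B s.Vs s.Xs Lk := fun h =>
      hkS (Finset.mem_coe.2 (hS (Finset.mem_insert_of_mem h)))
    have h1 : az s.R s.i0 k < az s.R s.i0 (nz s.R s.i0) := hv.2
    have hsame := rg_same Hg hP hL hS' (k := ix s.R s.i0 k) (k2 := ix s.R s.i0 k2) (by omega) rfl ha2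
      (H812.ix_le_n s.R s.i0 k) (H812.ix_le_n s.R s.i0 k2)
    exact (hR.ml_near hkk.le hk2 hv.1 hv2.1 hsame).trans hν
  · -- J1
    intro k hk hv h1
    obtain ⟨h2, h3⟩ := hlast k hk hv h1
    have h4 := hR.ml_J1 (o := s.o) (o' := s.o') hk hv.1
    have h5 := hjun (ix s.R s.i0 k) (Finset.mem_Icc.2 ⟨hR.one hk hv.1, H812.ix_le_n s.R s.i0 k⟩)
      (by rw [hR.lv hk]; exact hv.1.2.1) (by rw [hR.lv hk]; exact hv.1.2.2) (H812.ix_isA hP h2 h3)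
    have h6 : xj (ix s.R s.i0 k) ≤ xx (az s.R s.i0 k) := hxj k h2 h3
    have h7 := cT_nonneg (4 * ρ.K)
    rw [hmR] at h5
    unfold jmz at hjm
    refine h4.trans ?_
    linarith
  · -- J2
    intro k hk hv h1
    have h4 := hR.ml_J2 (o := s.o) (o' := s.o') hk hv.1
    refine h4.trans (le_trans ?_ hjm)
    unfold jmz
    have h5 : 0 ≤ KS ρ * (((μS x m : ℕ) : ℝ) + m) := by positivity
    have h6 : 0 ≤ ((μS x m : ℕ) : ℝ) * Real.log 2 := by positivity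
    linarith
  · -- YMod
    intro k hk _ hv
    refine hR.ml_ymod (z := 2 * m) ?_ hk.le hv.1
    have h1 : 2 * (s.R.m * 2) ≤ 2 * (s.R.m * B) := Nat.mul_le_mul_left 2 (Nat.mul_le_mul_left s.R.m hB2)
    have h2 : B ≤ s.R.m * B := hR.mB
    omega

end st

end Vale.Agent.P106.U.H118
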