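import Vale.Agent.P106.U.H118.RiseM
import Vale.Agent.P106.U.H118.HeavyRun

/-!
# P106 / U / H118 : the heavy intervals over a run, mixed letters (helper118)

* `strip_eS` : the strip count of the cells with the error `eSK`.
* `heavy_reM` : as `heavy_re`, RISE runs over the letters `Y k` : the cell at the old steps (`O k`), another letter (`Mtr` of
  helper785) at the young steps; at the young steps the `(V, Z)`-step `hVY`, the near-nestedness `hNY`, the junctions `h0`,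
  `hE` and the strip count `hSY` are inputs.
-/

set_option autoImplicit false

namespace Vale.Agent.P106.U.H118

open Finset Vale.Agent.P127 Vale.Agent.P127.Stk
open Vale.Agent.P127.U.CellD (q2)
open Vale.Agent.P106.U.Cell Vale.Agent.P106.U.S3
open Vale.Agent.P106.U.H833 (aN RN)

/-- error of the strip count -/
noncomputable def eSK (η : ℝ) (m μ : ℕ) : ℝ :=
  Real.log 9540 + 2 * Real.sqrt η + η * (Real.log 45 + (2 * m + 2 * μ) * Real.log 2)

/-- the strip count of the cells -/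
theorem strip_eS {Ω τ : Type} [Fintype Ω] (P : Law Ω) (C : Pth Ω τ) {K : ℝ} (hK : 1 ≤ K) {i i' k b m m' : ℕ}
    (hL : SLv C i i' k b m m') (hμ : 40 * K ^ 2 * q2 C.μ ≤ (1 / 4 : ℝ) ^ m) {χ : Type} (X : Ω → χ)
    (hX : ∀ ω ω', 0 < P.w ω → 0 < P.w ω' → X ω = X ω' → C.l ω = C.l ω' ∧ C.T i ω = C.T i ω') {η : ℝ}
    (hb : prE (two P X) (sbad C K i i' k b m') ≤ η) :
    hc (two P X) (fun p => C.VZ (k + 1) b p.fst)
      (fun p => (C.cell i' b p.snd, (td C (k + 1) p.fst, (C.cell k b p.fst, C.VZ k b p.fst)))) ≤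
      m * Real.log 2 + eSK η m C.μ := by
  refine (strip_hc P C hK hL hμ X hX).trans ?_
  have hp0 : 0 ≤ prE (two P X) (sbad C K i i' k b m') := prE_nonneg _ _
  have g1 := Real.sqrt_le_sqrt hb
  have g2 : 0 ≤ Real.log (45 * 2 ^ (2 * m + 2 * C.μ) : ℕ) := Real.log_nonneg (by
    have : 1 ≤ 45 * 2 ^ (2 * m + 2 * C.μ) := by
      have : 1 ≤ 2 ^ (2 * m + 2 * C.μ) := Nat.one_le_two_pow
      omega
    exact_mod_cast this)
  have g3 := mul_le_mul_of_nonneg_right hb g2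
  have e1 : Real.log (9540 * 2 ^ m : ℕ) = Real.log 9540 + m * Real.log 2 := by
    push_cast
    rw [Real.log_mul (by norm_num) (by positivity), Real.log_pow]
  have e2 : Real.log (45 * 2 ^ (2 * m + 2 * C.μ) : ℕ) =
      Real.log 45 + (2 * m + 2 * C.μ) * Real.log 2 := by
    push_cast
    rw [Real.log_mul (by norm_num) (by positivity), Real.log_pow]
    push_cast
    ring
  rw [e1, e2]
  rw [e2] at g3
  unfold eSK
  linarith

/-- conditional entropy given an equivalent letter -/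
theorem hc_cond_le {Ω : Type} [Fintype Ω] (P : Law Ω) {S T T' : Type*} (X : Ω → S) (Y : Ω → T) (Y' : Ω → T')
    (h : Fn P Y Y') : hc P X Y' ≤ hc P X Y := hc_mono_right P X h

variable {Ω : Type} [Fintype Ω] {τ υ : Type} {R : Run Ω τ υ}

/-- **heavy intervals over a run**, along the indices `f`, mixed letters -/
theorem heavy_reM {p : Run.Num} {K c' g' gU : ℝ} (h : R.Ok p K c' g' gU) (hK : 1 ≤ K)
    {f : ℕ → ℕ} (hf : Monotone f) {N : ℕ} (hfs : ∀ i k, i < k → k ≤ N → f i < f k) (hfn : ∀ k ≤ N, f k ≤ R.n)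
    {A0 R0 b : ℕ} {a r : ℕ → ℕ} (hA : ∀ k ≤ N, R.C.a (f k) = A0 + R.m * a k)
    (hR : ∀ k ≤ N, R.C.R (f k) b = R0 + R.m * r k) (hst : ∀ k < N, a (k + 1) = a k ∨ a (k + 1) = a k + 1)
    (hf1 : ∀ k < N, a (k + 1) = a k + 1 → R.C.a (f (k + 1)) = R.C.a (f k + 1))
    {ε δ co : ℝ} {c y c3 cY Kμ : ℕ} (hxB : b < p.B₁) (hbx : R.m + y ≤ b)
    (hc : 2 * K * q2 c ≤ 1) (hy : 40 * K ^ 6 * q2 y ≤ 1) (hq : K * q2 R.q ≤ 1)
    (hKμ : 2 * R.m + 2 * c + 1 + y ≤ R.m * Kμ)
    (h3a : (p.s + 1) * R.m + R.m + c + y + 3 * R.C.μ ≤ R.m * c3)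
    (h3b : (p.s + 1) * R.m + 3 * R.m + 2 * c + 8 * R.C.μ ≤ R.m * c3)
    (hb8 : 8 * R.C.μ ≤ b) (h9 : 9 * R.C.μ ≤ R.C.R (f 0) b)
    (hμ : 40 * K ^ 2 * q2 R.C.μ ≤ (1 / 4 : ℝ) ^ R.m)
    -- the letters
    {σ : Type} (Y : ℕ → Ω → σ) (O : ℕ → Prop)
    (hYO1 : ∀ k ≤ N, O k → Fn R.Q (Y k) (R.C.cell (f k) b))
    (hYO2 : ∀ k ≤ N, O k → Fn R.Q (R.C.cell (f k) b) (Y k))
    (hYt : ∀ k ≤ N, ¬ O k → Fn R.Q (td R.C (f k)) (Y k))
    {u1 u2 : ℕ → ℝ} {ν eS c0 cE : ℝ}
    (hVO : ∀ k < N, a (k + 1) = a k + 1 → O k → 2 * (R.m * Real.log 2) - u1 (a k) ≤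
      Stk.hc R.Q (R.C.VZ (f (k + 1)) b)
        (fun ω => (td R.C (f (k + 1)) ω, (R.C.cell (f k) b ω, R.C.VZ (f k) b ω))))
    (hVY : ∀ k < N, a (k + 1) = a k + 1 → ¬ O k → 2 * (R.m * Real.log 2) - u1 (a k) ≤
      Stk.hc R.Q (R.C.VZ (f (k + 1)) b) (fun ω => (td R.C (f (k + 1)) ω, (Y k ω, R.C.VZ (f k) b ω))))
    (hu1 : ∀ z, 0 ≤ u1 z) (hu2 : ∀ z, 0 ≤ u2 z)
    (hν : nuK K + Real.log 45 ≤ ν)
    (hNY : ∀ k k2, k < N → a (k + 1) = a k + 1 → k < k2 → k2 ≤ N → a k2 = a k + 1 →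
      (k2 = N ∨ a (k2 + 1) = a k2 + 1) → ¬ (O k ∧ O k2) →
      Stk.hc R.Q (fun ω => (Y k ω, R.C.VZ (f k) b ω)) (fun ω => (Y k2 ω, R.C.VZ (f k2) b ω)) ≤ ν + u2 (a k))
    (hδ0 : 0 ≤ δ) (heS : eSK (3 * ε + 2 * c') R.m R.C.μ ≤ eS)
    (hδ : eS + ν ≤ δ * (R.m * Real.log 2)) (hδ1 : δ ≤ 1) (hco : 0 ≤ co)
    (hc0 : nuK K ≤ c0)
    (h0 : ∀ i k, i < k → k ≤ N → ¬ O k →
      Stk.hc R.Q (R.C.cell (f i) b) (fun ω => (Y k ω, R.C.VZ (f k) b ω)) ≤ c0)
    (hcE : 0 ≤ cE)
    (hE : ¬ O N → Stk.hc R.Q (Y N) (fun ω => (R.C.cell (f N) b ω, R.C.VZ (f N) b ω)) ≤ cE)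
    (hcY : c3 + Kμ ≤ cY)
    (hSY : ∀ i i1, R.Good p ε b (f i) → i < i1 → i1 ≤ N → r i + 3 * (a i1 - a i) + cY < r i1 →
      ∃ Kc : ℕ, Kμ + Kc ≤ 3 * (a i1 - a i) + cY ∧
        ∀ k, i1 ≤ k → k < N → a (k + 1) = a k + 1 → a i1 + Kμ ≤ a k → a k + Kc + r i < a i + r i1 → ¬ O k →
          Stk.hc (two R.Q (R.XZ (f i) b)) (fun p => R.C.VZ (f (k + 1)) b p.fst)
            (fun p => (R.C.cell (f i1) b p.snd, (td R.C (f (k + 1)) p.fst, (Y k p.fst, R.C.VZ (f k) b p.fst)))) ≤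
            R.m * Real.log 2 + eS)
    {xo : ℕ → ℝ} (hxo : ∀ j, 0 ≤ xo j) {cx : ℝ} (hcx : 0 ≤ cx)
    (hov : ∀ i i1, R.Good p ε b (f i) → i < i1 → i1 ≤ N → a N + r i < a i + r i1 →
      R.m * Real.log 2 * ((r i1 : ℝ) - r i) ≤
        ∑ j ∈ Ico i i1, xo j + co + R.m * Real.log 2 * cx * ((a i1 : ℝ) - a i) ∨
      ((a i : ℝ) + r i1 - r i - a N) * (R.m * Real.log 2) * (1 - δ) -
          (co + ∑ j ∈ Ico i i1, xo j + R.m * Real.log 2 * cx * ((a i1 : ℝ) - a i)) ≤
        Stk.hc (two R.Q (R.XZ (f i) b)) (fun p => R.C.cell (f i1) b p.snd)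
          (fun p => (R.C.cell (f N) b p.fst, R.C.VZ (f N) b p.fst))) (M1 : ℕ) :
    ∀ i i1, R.Good p ε b (f i) → i < i1 → i1 ≤ N → r i + M1 < r i1 →
      R.m * Real.log 2 * (1 - δ) * ((r i1 : ℝ) - r i) - R.m * Real.log 2 * (3 + 2 + cx) * ((a i1 : ℝ) - a i) -
        ∑ z ∈ Icc (a i) (a i + (r i1 - r i)), (u1 z + u2 z) -
        ((cY : ℝ) * (R.m * Real.log 2) + (c0 + cE + nuK K) + co) -
        ∑ j ∈ Ico i i1, (H833.qc R.Q R.ry (fun i => Zw R (f i)) (fun j ω => fl1 (R.C.a (f j)) (R.C.t ω)) j +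
          xo j) ≤
      H833.psi R.Q R.ry (fun i => Zw R (f i)) (fun k => R.C.cell (f k) b) i1 -
        H833.psi R.Q R.ry (fun i => Zw R (f i)) (fun k => R.C.cell (f k) b) i := by
  have hpow : (1 / 4 : ℝ) ^ R.m ≤ 1 := pow_le_one₀ (by norm_num) (by norm_num)
  have hμ10 : 10 * K ^ 2 * q2 R.C.μ ≤ 1 := by
    have h1 : 0 ≤ K ^ 2 * q2 R.C.μ := mul_nonneg (by positivity) (Vale.Agent.P127.U.CellD.q2_pos _).le
    nlinarith
  have hLev : ∀ k, (R.C.re f hf).Lev k b := fun k =>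
    H300.Lev_mono (R.C.re f hf) (Nat.zero_le k) ⟨hb8, (by omega : 8 * R.C.μ ≤ 9 * R.C.μ).trans h9⟩
  have hok : ∀ ω, 0 < R.Q.w ω → (R.C.re f hf).Ok K ω := fun ω hω => Pth.re_ok f hf (h.ok ω hω)
  have hnu := nuK_nonneg K
  -- steps
  have hpr := Run.hpair_re (ε := ε) h hK (R.C.re f hf) (f := f) (n := N) rfl rfl rfl (fun _ _ => rfl)
    (fun _ _ => rfl) (fun _ _ _ _ => rfl) (fun ω hω => Pth.re_ok f hf hω) hfs hfn hf1 (A0 := A0) (R0 := R0)
    (a := a) (r := r) hA hR hxB hbx hc hy hq hKμ h3a h3b (fun i => R.XZ (f i) b)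
    (fun i _ _ _ _ _ e => e) (fun i _ _ _ _ _ e => e)
  have hm1 := h.pth.m1
  have ham : ∀ k k', k ≤ k' → k' ≤ N → a k ≤ a k' := by
    intro k k' hk
    induction k', hk using Nat.le_induction with
    | base => intro _; exact le_rfl
    | succ k' _ ih =>
      intro h2
      have h3 := ih (by omega)
      rcases hst k' (by omega) with h4 | h4 <;> omega
  have key := heavy_capM R.Q (R.C.re f hf) (n := N) (m := R.m) (b := b) (A0 := A0) (a := a) (R := r) hA hst R.ry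
    (Z := fun i => Zw R (f i))
    (fun i _ ω ω' p1 p2 e => by
      simp only [Zw, Prod.mk.injEq] at e ⊢
      exact ⟨h.Um (f i) (f (i + 1)) (hf (Nat.le_succ i)) ω ω' p1 p2 e.1,
        R.C.T_anti' (hf (Nat.le_succ i)) e.2⟩)
    (fun i _ ω ω' _ _ e => by
      simp only [Zw, Prod.mk.injEq] at e
      exact e.2)
    (fun i hi ω ω' p1 p2 e => by
      have := (Run.XZ_equiv h b (f i) (hfn i hi)).2 ω ω' p1 p2 e
      simp only [Run.XZ, Prod.mk.injEq] at this
      exact this.2)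
    Y (fun i => R.XZ (f i) b)
    (fun i _ ω ω' _ _ e => by
      simp only [Run.XZ, Prod.mk.injEq] at e
      exact e.2) (u1 := u1) (u2 := u2) (ν := ν) (eS := eS) (δ := δ) (co := co) (c0 := c0) (cE := cE) (cN := nuK K)
    (fun k hk => by
      by_cases hO : O k
      · intro ω ω' p1 p2 e
        exact td_of_T (C := R.C.re f hf) (cell_T (C := R.C.re f hf) (hYO2 k hk hO ω ω' p1 p2 e))
      · exact hYt k hk hO)
    (fun k hk hak => by
      by_cases hO : O k
      · refine (hVO k hk hak hO).trans (hc_cond_le R.Q _ _ _ ?_)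
        intro ω ω' p1 p2 e
        simp only [Prod.mk.injEq] at e ⊢
        exact ⟨e.1, hYO1 k hk.le hO ω ω' p1 p2 e.2.1, e.2.2⟩
      · exact hVY k hk hak hO)
    hu1 hu2
    (fun k k2 hk hak hk2 hk2N ha2 ha3 => by
      by_cases hO : O k ∧ O k2
      · have e1 := cvz_near R.Q (R.C.re f hf) hK hok (k := k) (k2 := k2) (b := b) hk2.le (hLev k) hμ10
        have e2 : Stk.hc R.Q (fun ω => (Y k ω, (R.C.re f hf).VZ k b ω)) (fun ω => (Y k2 ω, (R.C.re f hf).VZ k2 b ω)) ≤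
            Stk.hc R.Q (fun ω => ((R.C.re f hf).cell k b ω, (R.C.re f hf).VZ k b ω))
              (fun ω => ((R.C.re f hf).cell k2 b ω, (R.C.re f hf).VZ k2 b ω)) := by
          refine (hc_mono_left R.Q fun ω ω' p1 p2 e => ?_).trans (hc_mono_right R.Q _ fun ω ω' p1 p2 e => ?_)
          · simp only [Prod.mk.injEq] at e ⊢
            exact ⟨hYO1 k hk.le hO.1 ω ω' p1 p2 e.1.1, e.1.2⟩
          · simp only [Prod.mk.injEq] at e ⊢
            exact ⟨hYO2 k2 hk2N hO.2 ω ω' p1 p2 e.1, e.2⟩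
        have := hu2 (a k)
        linarith
      · exact hNY k k2 hk hak hk2 hk2N ha2 ha3 hO)
    hδ0 hδ hδ1 hco
    (fun i k hik hk => by
      by_cases hO : O k
      · have e1 := cell_near R.Q (R.C.re f hf) hK hok (i := i) (k := k) (b := b) hik.le (hLev i)
        have e2 : Stk.hc R.Q ((R.C.re f hf).cell i b) (fun ω => (Y k ω, (R.C.re f hf).VZ k b ω)) ≤
            Stk.hc R.Q ((R.C.re f hf).cell i b)
              (fun ω => ((R.C.re f hf).cell k b ω, (R.C.re f hf).VZ k b ω)) := by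
          refine hc_mono_right R.Q _ fun ω ω' p1 p2 e => ?_
          simp only [Prod.mk.injEq] at e ⊢
          exact ⟨hYO2 k hk hO ω ω' p1 p2 e.1, e.2⟩
        linarith
      · exact h0 i k hik hk hO)
    (by linarith)
    (by
      by_cases hO : O N
      · refine le_trans (le_of_eq (hc_zero R.Q ?_)) hcE
        intro ω ω' p1 p2 e
        simp only [Prod.mk.injEq] at e
        exact hYO1 N le_rfl hO ω ω' p1 p2 e.1
      · exact hE hO)
    (fun i k hik _ => H300.n2 R.Q (R.C.re f hf) hK hok hik (hLev i))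
    (fun i => R.Good p ε b (f i)) M1 cY 3 hxo hcx
    (fun i i1 hg hi hi1 _ hJ => by
      by_cases hcs : R.m * Real.log 2 * ((r i1 : ℝ) - r i) ≤
          ∑ j ∈ Ico i i1, xo j + co + R.m * Real.log 2 * cx * ((a i1 : ℝ) - a i)
      · exact Or.inl hcs
      · obtain ⟨m', Kc, e1, e2, e3⟩ := hpr i i1 hg hi hi1 (by omega)
        obtain ⟨Kc2, d2, d3⟩ := hSY i i1 hg hi hi1 hJ
        refine Or.inr ⟨Kμ, max Kc Kc2, by omega, fun k k1 k2 k3 k4 k5 => ?_, fun ho => ?_⟩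
        · by_cases hO : O k
          · have hai : a i ≤ a i1 := ham i i1 hi.le hi1
            have hak1 : a i1 ≤ a k := ham i1 k k1 k2.le
            have hSL : SLv (R.C.re f hf) i i1 k b R.m m' := by
              have d1 : (R.C.re f hf).a k = A0 + R.m * a k := hA k k2.le
              have d2 : (R.C.re f hf).a (k + 1) = A0 + R.m * a (k + 1) := hA (k + 1) k2
              have d3 : (R.C.re f hf).R k b = R0 + R.m * r k := hR k k2.le
              have d5 : (R.C.re f hf).R i b = R0 + R.m * r i := hR i (by omega)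
              have d6 : (R.C.re f hf).R i1 b = R0 + R.m * r i1 := hR i1 hi1
              have d7 : (R.C.re f hf).a i = A0 + R.m * a i := hA i (by omega)
              have d4 := H300.R_mono (R.C.re f hf) k1 b
              have d8 := H300.R_mono (R.C.re f hf) (Nat.zero_le k) b
              have d9 : (R.C.re f hf).μ = R.C.μ := rfl
              have d10 : (R.C.re f hf).R 0 b = R.C.R (f 0) b := rfl
              rw [d9] at e1
              refine ⟨hi.le, k1, ?_, hb8, ?_, ?_, ?_⟩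
              · rw [d1, d2, k3]
                ring
              · rw [d9]
                exact (h9.trans (le_of_eq d10.symm)).trans d8
              · have g1 : r i + Kc ≤ r i1 := by omega
                have g2 : R.m * (r i + Kc) ≤ R.m * r i1 := Nat.mul_le_mul_left _ g1
                rw [Nat.mul_add] at g2
                rw [d9]
                omega
              · have g1 : a k + Kc + r i ≤ a i + r i1 := by omega
                have g2 : R.m * (a k + Kc + r i) ≤ R.m * (a i + r i1) := Nat.mul_le_mul_left _ g1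
                rw [d1, d5, d7, d6, d9]
                rw [Nat.mul_add R.m (a k + Kc) (r i), Nat.mul_add R.m (a k) Kc,
                  Nat.mul_add R.m (a i) (r i1)] at g2
                omega
            have s1 := strip_eS R.Q (R.C.re f hf) hK hSL hμ (R.XZ (f i) b)
              (fun ω ω' _ _ e => Run.XZ_l h e) (e3 k k1 k2 k3 k4)
            have s2 : Stk.hc (two R.Q (R.XZ (f i) b)) (fun p => (R.C.re f hf).VZ (k + 1) b p.fst)
                (fun p => ((R.C.re f hf).cell i1 b p.snd, (td (R.C.re f hf) (k + 1) p.fst,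
                  (Y k p.fst, (R.C.re f hf).VZ k b p.fst)))) ≤
                Stk.hc (two R.Q (R.XZ (f i) b)) (fun p => (R.C.re f hf).VZ (k + 1) b p.fst)
                (fun p => ((R.C.re f hf).cell i1 b p.snd, (td (R.C.re f hf) (k + 1) p.fst,
                  ((R.C.re f hf).cell k b p.fst, (R.C.re f hf).VZ k b p.fst)))) := by
              refine hc_mono_right _ _ fun q q' p1 p2 e => ?_
              simp only [Prod.mk.injEq] at e ⊢
              exact ⟨e.1, e.2.1, hYO2 k k2.le hO q.fst q'.fst (two_supp p1).1 (two_supp p2).1 e.2.2.1, e.2.2.2⟩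
            have s3 : eSK (3 * ε + 2 * c') R.m (R.C.re f hf).μ = eSK (3 * ε + 2 * c') R.m R.C.μ := rfl
            rw [s3] at s1
            linarith
          · exact d3 k k1 k2 k3 k4 (by omega) hO
        · exact (hov i i1 hg hi hi1 (by omega)).resolve_left hcs)
  intro i i1 hg hi hi1 hM
  have := key i i1 hg hi hi1 hM
  push_cast at this ⊢
  exact this

end Vale.Agent.P106.U.H118
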