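import Vale.Agent.P106.U.H118.Greedy
import Vale.Agent.P106.U.H495.Vit

/-!
# P106 / U / H118 : counts for the greedy word (helper118)

* `Wrd.card_H`, `Wrd.sum_cg` : number and length of the heavy intervals.
* `exc` : the light r-steps without a near good a-step on the same a-level are few.
* `Wrd.bad` : Vitali, the heavy intervals with large error.
* `look` : the steps without lookahead.
-/

set_option autoImplicit false

namespace Vale.Agent.P106.U.H118

open Finset

section

variable {L N1 N0 n V : ℕ} {g : ℕ → Prop} {r σ : ℕ → ℕ} {H : Finset ℕ}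

theorem Wrd.le_n (W : Wrd L N1 N0 n g r V σ H) : ∀ v ≤ V, σ v ≤ n := by
  intro v hv
  induction hd : V - v generalizing v with
  | zero =>
    have : v = V := by omega
    rw [this, W.sV]
  | succ d ih =>
    have h1 := ih (v + 1) (by omega) (by omega)
    have h2 := W.lt v (by omega)
    omega

theorem Wrd.mono (W : Wrd L N1 N0 n g r V σ H) {v v' : ℕ} (h : v ≤ v') (h' : v' ≤ V) : σ v ≤ σ v' := by
  induction v', h using Nat.le_induction with
  | base => exact le_rfl
  | succ v' _ ih =>
    have h1 := ih (by omega)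
    have h2 := W.lt v' (by omega)
    omega

/-- increments over pieces -/
theorem Wrd.sum_le (W : Wrd L N1 N0 n g r V σ H) (f : ℕ → ℕ) (hf : ∀ i j, i ≤ j → j ≤ n → f i ≤ f j)
    (s : Finset ℕ) (hs : ∀ v ∈ s, v < V) : ∑ v ∈ s, (f (σ (v + 1)) - f (σ v)) ≤ f n - f 0 := by
  have h1 : ∑ v ∈ s, (f (σ (v + 1)) - f (σ v)) ≤ ∑ v ∈ range V, (f (σ (v + 1)) - f (σ v)) :=
    Finset.sum_le_sum_of_subset_of_nonneg (fun v hv => Finset.mem_range.2 (hs v hv))
      fun _ _ _ => Nat.zero_le _
  refine h1.trans ?_
  have h2 : ∀ k ≤ V, ∑ v ∈ range k, (f (σ (v + 1)) - f (σ v)) + f (σ 0) = f (σ k) := by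
    intro k
    induction k with
    | zero => intro _; simp
    | succ k ih =>
      intro hk
      have h3 := ih (by omega)
      have h4 := hf (σ k) (σ (k + 1)) (W.lt k (by omega)).le (W.le_n (k + 1) hk)
      rw [Finset.sum_range_succ]
      omega
  have h3 := h2 V le_rfl
  rw [W.s0, W.sV] at h3
  omega

/-- the rises add up -/
theorem Wrd.sum_J (W : Wrd L N1 N0 n g r V σ H)
    (hr : ∀ i < n, r (i + 1) = r i ∨ (r (i + 1) = r i + 1 ∧ ¬ g i)) :
    ∑ v ∈ H, (r (σ (v + 1)) - r (σ v)) ≤ r n - r 0 :=
  W.sum_le r (fun _ _ h h' => rmono hr h h') H W.HV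

/-- number of heavy intervals -/
theorem Wrd.card_H (W : Wrd L N1 N0 n g r V σ H)
    (hr : ∀ i < n, r (i + 1) = r i ∨ (r (i + 1) = r i + 1 ∧ ¬ g i)) :
    (N1 + 1) * H.card ≤ r n - r 0 := by
  refine le_trans ?_ (W.sum_J hr)
  rw [mul_comm, ← smul_eq_mul]
  refine Finset.card_nsmul_le_sum H _ _ fun v hv => ?_
  have := (W.hv v hv).big
  omega

/-- number of good a-steps in the heavy intervals -/
theorem Wrd.sum_cg (W : Wrd L N1 N0 n g r V σ H) (hN : N0 ≤ N1)
    (hr : ∀ i < n, r (i + 1) = r i ∨ (r (i + 1) = r i + 1 ∧ ¬ g i)) :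
    N0 * ∑ v ∈ H, cg g (σ v) (σ (v + 1)) ≤ 2 * (r n - r 0) := by
  have h1 : N0 * ∑ v ∈ H, cg g (σ v) (σ (v + 1)) ≤
      ∑ v ∈ H, ((r (σ (v + 1)) - r (σ v)) + N0) := by
    rw [Finset.mul_sum]
    refine Finset.sum_le_sum fun v hv => ?_
    have h2 := (W.hv v hv).lo
    have h3 := (W.hv v hv).big
    omega
  rw [Finset.sum_add_distrib, Finset.sum_const, smul_eq_mul] at h1
  have h2 := W.sum_J hr
  have h3 := W.card_H hr
  have h4 := Nat.mul_le_mul_right H.card hN
  rw [Nat.add_mul, Nat.one_mul] at h3
  rw [mul_comm] at h4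
  omega

/-- the light r-steps without a near good a-step on the same level are few -/
theorem exc {N : ℕ} (a : ℕ → ℕ)
    (hr : ∀ i < n, r (i + 1) = r i ∨ (r (i + 1) = r i + 1 ∧ ¬ g i))
    (ha : ∀ i < n, a (i + 1) = a i ∨ (a (i + 1) = a i + 1 ∧ r (i + 1) = r i))
    (B E : Finset ℕ) (hE : ∀ i < n, a (i + 1) = a i + 1 → ¬ g i → i ∈ E)
    (hB : ∀ k ∈ B, r (k + 1) = r k + 1 ∧ Lgt N n g r k ∧
      ¬ ∃ p, k < p ∧ p < n ∧ g p ∧ a p = a k ∧ r p ≤ r k + N) :
    B.card ≤ N * (E.card + 1) := by
  classical
  have h1 : ∀ k ∈ B, ∃ p, k < p ∧ p ≤ n ∧ (p = n ∨ g p) ∧ (∀ j, k < j → j < p → ¬ g j) ∧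
      r p ≤ r k + N ∧ (p = n ∨ ∃ x ∈ E, x < n ∧ k < x ∧ x < p) := by
    intro k hk
    obtain ⟨h4, ⟨i, p, e0, e1, e2, e5⟩, h5⟩ := hB k hk
    have e6 := rmono hr e0 (by have := e2.le; omega : k ≤ n)
    refine ⟨p, e1, e2.le, e2.gp, fun j e3 e4 => e2.no j (by omega) e4, by omega, ?_⟩
    rcases Nat.lt_or_ge p n with h6 | h6
    swap
    · exact Or.inl (le_antisymm e2.le h6)
    right
    have h7 : g p := by
      rcases e2.gp with h | h
      · omega
      · exact h
    have h8 : a p ≠ a k := fun h => h5 ⟨p, e1, h6, h7, h, by omega⟩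
    by_contra hcon
    push Not at hcon
    apply h8
    have h9 : ∀ q, k + 1 ≤ q → q ≤ p → a q = a k := by
      intro q hq
      induction q, hq using Nat.le_induction with
      | base =>
        intro _
        rcases ha k (by omega) with h | ⟨_, h⟩
        · exact h
        · omega
      | succ q hq ih =>
        intro h
        rw [← ih (by omega)]
        rcases ha q (by omega) with h' | ⟨h', _⟩
        · exact h'
        · exfalso
          have := hcon q (hE q (by omega) h' (e2.no q (by omega) (by omega))) (by omega) (by omega)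
          omega
    exact h9 p (by omega) le_rfl
  choose! p e1 e2 e3 e4 e5 e6 using h1
  have h7 : ∀ k ∈ B, ∃ x, (p k = n ∧ x = n) ∨ (x ∈ E ∧ x < n ∧ k < x ∧ x < p k) := by
    intro k hk
    rcases e6 k hk with h | ⟨x, h⟩
    · exact ⟨n, Or.inl ⟨h, rfl⟩⟩
    · exact ⟨x, Or.inr h⟩
  choose! x hx using h7
  have h8 : B.image x ⊆ insert n E := by
    intro y hy
    obtain ⟨k, hk, rfl⟩ := Finset.mem_image.1 hy
    rcases hx k hk with h | h
    · rw [h.2]; exact Finset.mem_insert_self _ _
    · exact Finset.mem_insert_of_mem h.1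
  have h9 : B.card ≤ N * (B.image x).card := by
    refine Finset.card_le_mul_card_image B N fun y hy => ?_
    obtain ⟨k0, hk0, hy0⟩ := Finset.mem_image.1 hy
    -- all members of the fibre have the same `p`
    have hp : ∀ k ∈ B, x k = y → p k = p k0 := by
      intro k hk hky
      have f1 := hx k hk
      have f2 := hx k0 hk0
      rw [hky] at f1
      rw [hy0] at f2
      rcases f1 with f1 | f1 <;> rcases f2 with f2 | f2
      · rw [f1.1, f2.1]
      · omega
      · omega
      · rcases lt_trichotomy (p k) (p k0) with h | h | h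
        · exfalso
          have h' := e2 k0 hk0
          rcases e3 k hk with h10 | h10
          · omega
          · exact e4 k0 hk0 (p k) (by omega) h h10
        · exact h
        · exfalso
          have h' := e2 k hk
          rcases e3 k0 hk0 with h10 | h10
          · omega
          · exact e4 k hk (p k0) (by omega) h h10
    have hinj : Set.InjOn r (B.filter fun k => x k = y) := by
      have aux : ∀ k k', k ∈ B → k' ∈ B → k < k' → r k < r k' := by
        intro k k' hk hk' hlt
        have f1 := hB k hk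
        have f3 := e1 k' hk'
        have f4 := e2 k' hk'
        have f5 := rmono hr (by omega : k + 1 ≤ k') (by omega)
        omega
      intro k hk k' hk' heq
      rw [Finset.mem_coe, Finset.mem_filter] at hk hk'
      rcases lt_trichotomy k k' with h | h | h
      · have := aux k k' hk.1 hk'.1 h; omega
      · exact h
      · have := aux k' k hk'.1 hk.1 h; omega
    have hmaps : ∀ k ∈ B.filter (fun k => x k = y), r k ∈ Ico (r (p k0) - N) (r (p k0)) := by
      intro k hk
      rw [Finset.mem_filter] at hk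
      have f1 := hp k hk.1 hk.2
      have f2 := e5 k hk.1
      have f3 := hB k hk.1
      have f4 := e1 k hk.1
      have f5 := rmono hr (by omega : k + 1 ≤ p k) (e2 k hk.1)
      rw [f1] at f2 f5
      rw [Finset.mem_Ico]
      omega
    have := Finset.card_le_card_of_injOn _ hmaps hinj
    rw [Nat.card_Ico] at this
    omega
  refine h9.trans (Nat.mul_le_mul_left _ ((Finset.card_le_card h8).trans (Finset.card_insert_le _ _)))

/-- **Vitali** : heavy intervals with a large error -/
theorem Wrd.bad (W : Wrd L N1 N0 n g r V σ H) (a : ℕ → ℕ) (hN0 : 1 ≤ N0)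
    (ha : ∀ i < n, a (i + 1) = a i ∨ a (i + 1) = a i + 1)
    (hga : ∀ i < n, g i → a (i + 1) = a i + 1)
    (u : ℕ → ℝ) (hu : ∀ z, 0 ≤ u z) (T : Finset ℕ) (hT : ∀ z, z ∉ T → u z = 0) {eta : ℝ}
    (heta : 0 < eta) (J w : ℕ → ℕ) (hJ : ∀ v, J v = r (σ (v + 1)) - r (σ v))
    (hw : ∀ v, w v = a (σ (v + 1)) - a (σ v)) (B : Finset ℕ) (hBH : B ⊆ H)
    (hB : ∀ v ∈ B, eta * (max (J v) (w v) : ℕ) <
      ∑ z ∈ Icc (a (σ v)) (a (σ v) + 2 * max (J v) (w v)), u z) :
    ∑ v ∈ B, (J v : ℝ) ≤ (20 * N0 + 1) / eta * ∑ z ∈ T, u z := by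
  classical
  have am : ∀ i j, i ≤ j → j ≤ n → a i ≤ a j := by
    intro i j hij
    induction j, hij using Nat.le_induction with
    | base => intro _; exact le_rfl
    | succ j _ ih =>
      intro h
      have h1 := ih (by omega)
      rcases ha j (by omega) with h2 | h2 <;> omega
  have cga : ∀ i j, i ≤ j → j ≤ n → cg g i j ≤ a j - a i := by
    intro i j hij
    induction j, hij using Nat.le_induction with
    | base =>
      intro _
      have h7 : cg g i i = 0 := cg_zero fun k h5 h6 => absurd h6 (by omega)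
      rw [h7]
      omega
    | succ j hij ih =>
      intro h
      have h1 := ih (by omega)
      have h3 := am i j hij (by omega)
      rw [cg_split hij (by omega : j ≤ j + 1)]
      by_cases h4 : g j
      · rw [cg_one h4]
        have := hga j (by omega) h4
        omega
      · have h7 : cg g j (j + 1) = 0 := cg_zero fun k h5 h6 => by
          have : k = j := by omega
          rw [this]; exact h4
        rw [h7]
        rcases ha j (by omega) with h2 | h2 <;> omega
  have hU : 0 ≤ ∑ z ∈ T, u z := Finset.sum_nonneg fun z _ => hu z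
  have hall : ∀ s : Finset ℕ, ∑ z ∈ s, u z ≤ ∑ z ∈ T, u z := by
    intro s
    rw [← Finset.sum_filter_add_sum_filter_not s (fun z => z ∈ T)]
    have h1 : ∑ z ∈ s.filter (fun z => z ∉ T), u z = 0 :=
      Finset.sum_eq_zero fun z hz => hT z (Finset.mem_filter.1 hz).2
    rw [h1, add_zero]
    exact Finset.sum_le_sum_of_subset_of_nonneg (fun z hz => (Finset.mem_filter.1 hz).2)
      fun z _ _ => hu z
  -- the last interval
  set B1 := B.filter fun v => J v ≤ N0 * w v with hB1
  set B2 := B.filter fun v => ¬ J v ≤ N0 * w v with hB2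
  have hsplit : ∑ v ∈ B, (J v : ℝ) = ∑ v ∈ B1, (J v : ℝ) + ∑ v ∈ B2, (J v : ℝ) :=
    (Finset.sum_filter_add_sum_filter_not B _ _).symm
  have h2card : B2.card ≤ 1 := by
    rw [Finset.card_le_one]
    have key : ∀ v ∈ B2, v + 1 = V := by
      intro v hv
      rw [hB2, Finset.mem_filter] at hv
      have h1 := W.hv v (hBH hv.1)
      have h2 := W.HV v (hBH hv.1)
      have h3 : σ (v + 1) = n := by
        rcases h1.hi with h | h
        · exact h
        · exfalso
          apply hv.2
          rw [hJ, hw]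
          have h4 := cga (σ v) (σ (v + 1)) h1.lt.le h1.le
          have h5 := Nat.mul_le_mul_left N0 h4
          omega
      by_contra hcon
      have h4 := W.lt (v + 1) (by omega)
      have h5 := W.le_n (v + 1 + 1) (by omega)
      omega
    intro v hv v' hv'
    have := key v hv
    have := key v' hv'
    omega
  have h2 : ∑ v ∈ B2, (J v : ℝ) ≤ 1 / eta * ∑ z ∈ T, u z := by
    have h3 : ∀ v ∈ B2, (J v : ℝ) ≤ 1 / eta * ∑ z ∈ T, u z := by
      intro v hv
      rw [hB2, Finset.mem_filter] at hv
      have h4 := hB v hv.1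
      have h5 := hall (Icc (a (σ v)) (a (σ v) + 2 * max (J v) (w v)))
      have h6 : (J v : ℝ) ≤ (max (J v) (w v) : ℕ) := by exact_mod_cast le_max_left _ _
      rw [div_mul_eq_mul_div, one_mul, le_div_iff₀ heta]
      nlinarith
    refine (Finset.sum_le_card_nsmul _ _ _ h3).trans ?_
    rw [nsmul_eq_mul]
    have h4 : ((B2.card : ℕ) : ℝ) ≤ 1 := by exact_mod_cast h2card
    have h5 : 0 ≤ 1 / eta * ∑ z ∈ T, u z := by positivity
    nlinarith
  -- the others
  have h1 : ∑ v ∈ B1, (J v : ℝ) ≤ 20 * N0 / eta * ∑ z ∈ T, u z := by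
    set u' : ℤ → ℝ := fun z => if 0 ≤ z then u z.toNat else 0 with hu'
    have key := H495.vit B1 (fun v => (a (σ v) : ℤ)) (fun v => (w v : ℤ))
      (fun v => ((max (J v) (w v) : ℕ) : ℤ)) u' (fun z => by
        simp only [hu']
        split_ifs
        · exact hu _
        · exact le_rfl) (T.map Nat.castEmbedding) (fun z hz => by
        simp only [hu']
        split_ifs with h
        · refine hT _ fun h3 => hz ?_
          rw [Finset.mem_map]
          exact ⟨z.toNat, h3, by simp [h]⟩
        · rfl) N0 (by positivity) eta heta (fun v hv => by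
        rw [hB1, Finset.mem_filter] at hv
        have h3 := W.hv v (hBH hv.1)
        have h4 := hga (σ v) (lt_of_lt_of_le h3.lt h3.le) h3.gs
        have h5 := am (σ v + 1) (σ (v + 1)) h3.lt h3.le
        have h6 : 1 ≤ w v := by rw [hw]; omega
        have h7 : w v ≤ N0 * w v := Nat.le_mul_of_pos_left _ hN0
        refine ⟨by exact_mod_cast h6, by exact_mod_cast le_max_right _ _, ?_⟩
        exact_mod_cast max_le hv.2 h7) (by
        intro v hv v' hv' hne
        rw [Function.onFun, Finset.disjoint_left]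
        intro z hz hz'
        rw [Finset.mem_Ico] at hz hz'
        simp only [Finset.mem_coe, hB1, Finset.mem_filter] at hv hv'
        have f1 := W.hv v (hBH hv.1)
        have f2 := W.hv v' (hBH hv'.1)
        have f3 := W.HV v (hBH hv.1)
        have f4 := W.HV v' (hBH hv'.1)
        have f5 := am _ _ f1.lt.le f1.le
        have f6 := am _ _ f2.lt.le f2.le
        have f7 := hw v
        have f8 := hw v'
        rcases Nat.lt_or_gt_of_ne hne with h | h
        · have g1 := am _ _ (W.mono (by omega : v + 1 ≤ v') (by omega)) (W.le_n v' (by omega))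
          omega
        · have g1 := am _ _ (W.mono (by omega : v' + 1 ≤ v) (by omega)) (W.le_n v (by omega))
          omega) (fun v hv => by
        rw [hB1, Finset.mem_filter] at hv
        have h3 := hB v hv.1
        refine lt_of_lt_of_eq (by exact_mod_cast h3) ?_
        have h4 : (Icc ((a (σ v) : ℤ)) ((a (σ v) : ℤ) + 2 * ((max (J v) (w v) : ℕ) : ℤ))) =
            (Icc (a (σ v)) (a (σ v) + 2 * max (J v) (w v))).map Nat.castEmbedding := by
          ext z
          rw [Finset.mem_map, Finset.mem_Icc]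
          constructor
          · rintro ⟨g1, g2⟩
            refine ⟨z.toNat, ?_, ?_⟩
            · rw [Finset.mem_Icc]
              omega
            · simp only [Nat.castEmbedding_apply]
              omega
          · rintro ⟨y, g1, rfl⟩
            rw [Finset.mem_Icc] at g1
            simp only [Nat.castEmbedding_apply]
            omega
        rw [h4, Finset.sum_map]
        refine Finset.sum_congr rfl fun z _ => ?_
        simp [hu'])
    refine le_trans ?_ (key.trans_eq ?_)
    · refine Finset.sum_le_sum fun v _ => ?_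
      have : (J v : ℤ) ≤ ((max (J v) (w v) : ℕ) : ℤ) := by exact_mod_cast le_max_left _ _
      exact_mod_cast this
    · rw [Finset.sum_map]
      simp [hu']
  rw [hsplit, add_div, add_mul]
  exact add_le_add h1 h2

/-- total length of the heavy intervals -/
theorem Wrd.sum_w (W : Wrd L N1 N0 n g r V σ H) (hN : N0 ≤ N1) (a : ℕ → ℕ)
    (hr : ∀ i < n, r (i + 1) = r i ∨ (r (i + 1) = r i + 1 ∧ ¬ g i))
    (ha : ∀ i < n, a (i + 1) = a i ∨ a (i + 1) = a i + 1)
    (E : Finset ℕ) (hE : ∀ i < n, a (i + 1) = a i + 1 → ¬ g i → i ∈ E) :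
    N0 * ∑ v ∈ H, (a (σ (v + 1)) - a (σ v)) ≤ 2 * (r n - r 0) + N0 * E.card := by
  classical
  have h1 : ∀ i j, i ≤ j → j ≤ n → a j ≤ a i + cg g i j + (E.filter fun x => i ≤ x ∧ x < j).card := by
    intro i j hij
    induction j, hij using Nat.le_induction with
    | base => intro _; omega
    | succ j hij ih =>
      intro h
      have h1 := ih (by omega)
      rw [cg_split (g := g) hij (by omega : j ≤ j + 1)]
      have h2 : (E.filter fun x => i ≤ x ∧ x < j).card ≤
          (E.filter fun x => i ≤ x ∧ x < j + 1).card :=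
        Finset.card_le_card fun x hx => by
          rw [Finset.mem_filter] at hx ⊢
          exact ⟨hx.1, hx.2.1, by omega⟩
      rcases ha j (by omega) with h3 | h3
      · omega
      · by_cases h4 : g j
        · rw [cg_one h4]
          omega
        · have h5 : (E.filter fun x => i ≤ x ∧ x < j).card <
              (E.filter fun x => i ≤ x ∧ x < j + 1).card := by
            refine Finset.card_lt_card ?_
            rw [Finset.ssubset_iff_of_subset (fun x hx => by
              rw [Finset.mem_filter] at hx ⊢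
              exact ⟨hx.1, hx.2.1, by omega⟩)]
            refine ⟨j, ?_, ?_⟩
            · rw [Finset.mem_filter]
              exact ⟨hE j (by omega) h3 h4, hij, by omega⟩
            · rw [Finset.mem_filter]
              omega
          omega
  have h2 : ∑ v ∈ H, (a (σ (v + 1)) - a (σ v)) ≤ ∑ v ∈ H, (cg g (σ v) (σ (v + 1)) +
      (E.filter fun x => σ v ≤ x ∧ x < σ (v + 1)).card) := by
    refine Finset.sum_le_sum fun v hv => ?_
    have h3 := W.hv v hv
    have := h1 (σ v) (σ (v + 1)) h3.lt.le h3.le
    omega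
  have h3 : ∑ v ∈ H, (E.filter fun x => σ v ≤ x ∧ x < σ (v + 1)).card ≤ E.card := by
    rw [← Finset.card_biUnion]
    · refine Finset.card_le_card fun x hx => ?_
      obtain ⟨v, _, hx⟩ := Finset.mem_biUnion.1 hx
      exact (Finset.mem_filter.1 hx).1
    · intro v hv v' hv' hne
      rw [Function.onFun, Finset.disjoint_left]
      intro x hx hx'
      rw [Finset.mem_filter] at hx hx'
      have f3 := W.HV v hv
      have f4 := W.HV v' hv'
      rcases Nat.lt_or_gt_of_ne hne with h | h
      · have := W.mono (by omega : v + 1 ≤ v') (by omega)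
        omega
      · have := W.mono (by omega : v' + 1 ≤ v) (by omega)
        omega
  rw [Finset.sum_add_distrib] at h2
  have h4 := W.sum_cg hN hr
  calc N0 * ∑ v ∈ H, (a (σ (v + 1)) - a (σ v))
      ≤ N0 * (∑ v ∈ H, cg g (σ v) (σ (v + 1)) + E.card) := Nat.mul_le_mul_left _ (by omega)
    _ ≤ _ := by rw [Nat.mul_add]; omega

end

/-- the counted steps : at most `N0 + 1` on every level of `a` -/
theorem lvl {N0 n : ℕ} {g : ℕ → Prop} {r a : ℕ → ℕ}
    (hr : ∀ i < n, r (i + 1) = r i ∨ (r (i + 1) = r i + 1 ∧ ¬ g i))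
    (am : ∀ i j, i ≤ j → j ≤ n → a i ≤ a j) (hga : ∀ i < n, g i → a (i + 1) = a i + 1)
    (Lt : Finset ℕ) (hL : ∀ k ∈ Lt, k < n ∧ (a (k + 1) = a k + 1 ∨ (r (k + 1) = r k + 1 ∧
      ∃ p, k < p ∧ p < n ∧ g p ∧ a p = a k ∧ r p ≤ r k + N0))) (z : ℕ) :
    (Lt.filter fun k => a k = z).card ≤ N0 + 1 := by
  classical
  rw [← Finset.card_filter_add_card_filter_not (s := Lt.filter fun k => a k = z)
    (fun k => a (k + 1) = a k + 1)]
  have h1 : ((Lt.filter fun k => a k = z).filter fun k => a (k + 1) = a k + 1).card ≤ 1 := by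
    rw [Finset.card_le_one]
    intro k hk k' hk'
    rw [Finset.mem_filter, Finset.mem_filter] at hk hk'
    have f1 := (hL k hk.1.1).1
    have f2 := (hL k' hk'.1.1).1
    rcases lt_trichotomy k k' with h | h | h
    · have := am (k + 1) k' (by omega) f2.le
      omega
    · exact h
    · have := am (k' + 1) k (by omega) f1.le
      omega
  have h2 : ((Lt.filter fun k => a k = z).filter fun k => ¬ a (k + 1) = a k + 1).card ≤ N0 := by
    rcases ((Lt.filter fun k => a k = z).filter fun k => ¬ a (k + 1) = a k + 1).eq_empty_or_nonempty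
      with h0 | ⟨k0, h0⟩
    · rw [h0]; simp
    have key : ∀ k ∈ (Lt.filter fun k => a k = z).filter (fun k => ¬ a (k + 1) = a k + 1),
        k < n ∧ r (k + 1) = r k + 1 ∧ ∃ p, k < p ∧ p < n ∧ g p ∧ a p = z ∧ r p ≤ r k + N0 := by
      intro k hk
      rw [Finset.mem_filter, Finset.mem_filter] at hk
      have f1 := hL k hk.1.1
      rcases f1.2 with h | ⟨h, p, e1, e2, e3, e4, e5⟩
      · exact absurd h hk.2
      · exact ⟨f1.1, h, p, e1, e2, e3, by rw [e4]; exact hk.1.2, e5⟩
    obtain ⟨_, _, p0, e1, e2, e3, e4, e5⟩ := key k0 h0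
    have hmaps : ∀ k ∈ (Lt.filter fun k => a k = z).filter (fun k => ¬ a (k + 1) = a k + 1),
        r k ∈ Ico (r p0 - N0) (r p0) := by
      intro k hk
      obtain ⟨f1, f2, p, g1, g2, g3, g4, g5⟩ := key k hk
      have hpp : p = p0 := by
        rcases lt_trichotomy p p0 with h | h | h
        · have h1 := am (p + 1) p0 (by omega) e2.le
          have h2 := hga p g2 g3
          omega
        · exact h
        · have h1 := am (p0 + 1) p (by omega) g2.le
          have h2 := hga p0 e2 e3
          omega
      subst hpp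
      have := rmono hr (by omega : k + 1 ≤ p) g2.le
      rw [Finset.mem_Ico]
      omega
    have hinj : Set.InjOn r ((Lt.filter fun k => a k = z).filter
        (fun k => ¬ a (k + 1) = a k + 1)) := by
      intro k hk k' hk' heq
      obtain ⟨f1, f2, _⟩ := key k hk
      obtain ⟨g1, g2, _⟩ := key k' hk'
      rcases lt_trichotomy k k' with h | h | h
      · have := rmono hr (by omega : k + 1 ≤ k') g1.le
        omega
      · exact h
      · have := rmono hr (by omega : k' + 1 ≤ k) f1.le
        omega
    have := Finset.card_le_card_of_injOn _ hmaps hinj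
    rw [Nat.card_Ico] at this
    omega
  omega

/-- **lookahead** : double counting.  `Lt` has at most `Q` members on every level of `a`. -/
theorem look (n L K Q : ℕ) (a : ℕ → ℕ) (am : ∀ i j, i ≤ j → j ≤ n → a i ≤ a j) (Lt : Finset ℕ)
    (hQ : ∀ z, (Lt.filter fun k => a k = z).card ≤ Q)
    (F : Finset ℕ) (hF : ∀ k ∈ F, k ∈ Lt ∧ k + L ≤ n ∧ a (k + L) < a k + K) :
    F.card * L ≤ Q * K * n := by
  classical
  have h1 : F.card * L = ((F ×ˢ range n).filter fun q => q.1 ≤ q.2 ∧ q.2 < q.1 + L).card := by
    rw [Finset.card_filter, Finset.sum_product]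
    have h2 : ∀ k ∈ F, ∑ j ∈ range n, (if k ≤ j ∧ j < k + L then 1 else 0) = L := by
      intro k hk
      rw [← Finset.card_filter]
      have h3 : (range n).filter (fun j => k ≤ j ∧ j < k + L) = Ico k (k + L) := by
        ext j
        have := (hF k hk).2.1
        simp only [Finset.mem_filter, Finset.mem_range, Finset.mem_Ico]
        omega
      rw [h3, Nat.card_Ico]
      omega
    rw [Finset.sum_congr rfl h2, Finset.sum_const, smul_eq_mul]
  have h2 : ((F ×ˢ range n).filter fun q => q.1 ≤ q.2 ∧ q.2 < q.1 + L).card =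
      ∑ j ∈ range n, (F.filter fun k => k ≤ j ∧ j < k + L).card := by
    rw [Finset.card_filter, Finset.sum_product_right]
    refine Finset.sum_congr rfl fun j _ => ?_
    rw [Finset.card_filter]
  have h3 : ∀ j ∈ range n, (F.filter fun k => k ≤ j ∧ j < k + L).card ≤ Q * K := by
    intro j hj
    have hj' := Finset.mem_range.1 hj
    have h4 : F.filter (fun k => k ≤ j ∧ j < k + L) ⊆
        (Ico (a j + 1 - K) (a j + 1)).biUnion fun z => Lt.filter fun k => a k = z := by
      intro k hk
      rw [Finset.mem_filter] at hk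
      obtain ⟨f1, f2, f3⟩ := hF k hk.1
      rw [Finset.mem_biUnion]
      refine ⟨a k, ?_, Finset.mem_filter.2 ⟨f1, rfl⟩⟩
      have f4 := am k j hk.2.1 (by omega)
      have f5 := am j (k + L) (by omega) f2
      rw [Finset.mem_Ico]
      omega
    refine (Finset.card_le_card h4).trans (Finset.card_biUnion_le.trans ?_)
    refine (Finset.sum_le_card_nsmul _ _ Q fun z _ => hQ z).trans ?_
    rw [Nat.card_Ico, smul_eq_mul, mul_comm]
    exact Nat.mul_le_mul_left _ (by omega)
  rw [h1, h2]
  refine (Finset.sum_le_card_nsmul _ _ _ h3).trans ?_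
  rw [card_range, smul_eq_mul, mul_comm]

end Vale.Agent.P106.U.H118
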