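import Vale.Agent.P106.U.H118.HLet

/-!
# P106 / U / H118 : the young letter of a step given the young letter of a later step (helper118)

* `mtr_near`, `mtr_near0` : the cell with true digits given a later one, `3 log (2 M + 3) + nuK (8 K)`.
* **`Rec.ml_cl`** : `hc (Ml k) (Ml k2) ≤ nuM`, two young indices of the same kind.
* **`Rec.ml_fzK`, `Rec.ml_fzP`** : `Ml k` given the cell of the frozen path at the later step `k2` (helper357's `eJ`).
-/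

set_option autoImplicit false

namespace Vale.Agent.P106.U.H118

open Finset Vale.Agent.P127 Vale.Agent.P127.Stk
open Vale.Agent.P127.U.CellD (q2 rd Nb q2_pos q2_add q2_le rd_err rd_sub fl1_fl1)
open Vale.Agent.P106.U.Cell Vale.Agent.P106.U.S3
open Vale.Agent.P106.U.H785.Mtr
open Vale.Agent.P106.U.H101 (lc low)

section

variable {Ω π π₀ : Type} {D : Mtd Ω π} {D₀ : Mtd Ω π₀} {K : ℝ} {I : Set ℕ} {i j b : ℕ} {ω ω' : Ω} [Fintype Ω]

theorem mtr_near (P : Law Ω) (H : Dc D K I i j b) (hy : ∀ ω, 0 < P.w ω → D.Hy K I ω)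
    (hpf : Fn P (D.pf i) (D.pf j)) {M : ℕ} (hM : 641 * K ^ 2 ≤ M) :
    hc P (D.mtr i b) (D.mtr j b) ≤ 3 * Real.log ((2 * M + 3 : ℕ) : ℝ) + nuK (8 * K) := by
  set C := D.p2 i j H.ij with hC
  have a1 : hc P (D.lt i) (D.mtr j b) ≤ 3 * Real.log ((2 * M + 3 : ℕ) : ℝ) := by
    refine (hc_mono_right P _ fun ω ω' p p' e => ?_).trans (hc_ltc P H hy hM)
    have e2 : D.pf j ω = D.pf j ω' := congrArg (fun x : Lt π × Pth.Dg => x.1.2.1) e
    simp only [Prod.mk.injEq]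
    exact ⟨hpf ω ω' p p' e2, e⟩
  have hok : ∀ ω, 0 < P.w ω → C.Ok (8 * K) ω := fun ω hω => Mtd.pa_ok H.K1 (hy ω hω) fun k => by
    unfold Mtd.tw
    split_ifs
    · exact H.hi
    · exact H.hj
  have hR0 : C.R 0 b = D.R i b := by
    rw [Pth.R_eq]
    rfl
  have a2 := H300.n2 P C (K := 8 * K) (by have := H.K1; linarith) hok (i := 0) (j := 1) (b := b) (Nat.zero_le 1)
    ⟨H.b8, by rw [hR0]; exact H.R8⟩
  have a3 := hc_le_add' P (D.mtr i b) (D.lt i) (D.mtr j b)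
  have a4 : hc P (D.mtr i b) (fun ω => (D.lt i ω, D.mtr j b ω)) ≤ hc P (C.cell 0 b) (C.cell 1 b) := by
    refine (hc_mono_left P ?_).trans (hc_mono_right P _ ?_)
    · intro ω ω' _ _ e
      simp only [Prod.mk.injEq] at e ⊢
      exact (D.p2_cell0_iff i j H.ij b ω ω').1 e.1
    · intro ω ω' _ _ e
      simp only [Prod.mk.injEq] at e
      exact (D.p2_cell1_iff i j H.ij b ω ω').2 ⟨e.1, e.2⟩
  have a5 : hc P (C.cell 0 b) (C.cell 1 b) ≤ nuK (8 * K) := a2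
  linarith

theorem mtr_near0 (P : Law Ω) (hp : Prr D D₀) (H : Dc D₀ K I i j b)
    (hy : ∀ ω, 0 < P.w ω → D.Hy K I ω) (hy0 : ∀ ω, 0 < P.w ω → D₀.Hy K I ω)
    (hpf : Fn P (D.pf i) (D.pf j)) {M : ℕ} (hM : 641 * K ^ 2 ≤ M) :
    hc P (D₀.mtr i b) (D₀.mtr j b) ≤ 3 * Real.log ((2 * M + 3 : ℕ) : ℝ) + nuK (8 * K) := by
  set C := D₀.p2 i j H.ij with hC
  have hDg : Dg K I i j b D.μ := ⟨H.K1, H.hi, H.hj, H.ij, by rw [← hp.μ]; exact H.b8⟩
  have a1 : hc P (D₀.lt i) (D₀.mtr j b) ≤ 3 * Real.log ((2 * M + 3 : ℕ) : ℝ) := by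
    refine (hc_mono_left P (X' := D.lt i) fun ω ω' p p' e => ?_).trans
      (hc_ltg P hDg (D₀.mtr j b) (fun ω ω' p p' e1 => ?_) hM)
    · exact (hp.lt_iff i ω ω').2 (congrArg Prod.fst e)
    · have e2 : D₀.lt j ω = D₀.lt j ω' := congrArg Prod.fst e1
      have e3 := (hp.lt_iff j ω ω').1 e2
      have hL : (D₀.p1 j).Lev 0 b := by
        refine ⟨H.b8, ?_⟩
        rw [D₀.p1_R]
        have := H.R8
        have := R_mono_D D₀ H.ij b
        show 8 * D₀.μ ≤ D₀.R j b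
        omega
      have hN := Pth.Nr_of_cell' (K := 8 * K) (by have := H.K1; linarith) (Mtd.pa_ok H.K1 (hy0 ω p) fun _ => H.hj) hL
        ((D₀.p1_cell_iff j 0 b ω ω').2 e1)
      refine ⟨hy ω p, hy ω' p', ?_, ?_, ?_, ?_, ?_, ?_, ?_⟩
      · exact hpf ω ω' p p' (congrArg (fun x : Lt π => x.2.1) e3)
      · exact congrArg (fun x : Lt π => x.1) e3
      · exact congrArg (fun x : Lt π => x.2.2.1) e3
      · exact congrArg (fun x : Lt π => x.2.2.2.1) e3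
      · exact congrArg (fun x : Lt π => x.2.2.2.2) e3
      · rw [← hp.l, ← hp.μ]
        exact hN.w.trans (le_of_eq (by show 10 * (8 * K) ^ 2 * q2 (b + 2 * D₀.μ) = _; ring))
      · rw [← hp.l, ← hp.μ, ← hp.s, ← hp.a]
        exact hN.N
  have hok : ∀ ω, 0 < P.w ω → C.Ok (8 * K) ω := fun ω hω => Mtd.pa_ok H.K1 (hy0 ω hω) fun k => by
    unfold Mtd.tw
    split_ifs
    · exact H.hi
    · exact H.hj
  have hR0 : C.R 0 b = D₀.R i b := by
    rw [Pth.R_eq]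
    rfl
  have a2 := H300.n2 P C (K := 8 * K) (by have := H.K1; linarith) hok (i := 0) (j := 1) (b := b) (Nat.zero_le 1)
    ⟨H.b8, by rw [hR0]; exact H.R8⟩
  have a3 := hc_le_add' P (D₀.mtr i b) (D₀.lt i) (D₀.mtr j b)
  have a4 : hc P (D₀.mtr i b) (fun ω => (D₀.lt i ω, D₀.mtr j b ω)) ≤ hc P (C.cell 0 b) (C.cell 1 b) := by
    refine (hc_mono_left P ?_).trans (hc_mono_right P _ ?_)
    · intro ω ω' _ _ e
      simp only [Prod.mk.injEq] at e ⊢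
      exact (D₀.p2_cell0_iff i j H.ij b ω ω').1 e.1
    · intro ω ω' _ _ e
      simp only [Prod.mk.injEq] at e
      exact (D₀.p2_cell1_iff i j H.ij b ω ω').2 ⟨e.1, e.2⟩
  have a5 : hc P (C.cell 0 b) (C.cell 1 b) ≤ nuK (8 * K) := a2
  linarith

end

section

variable {Ω : Type} [Fintype Ω] {τ υ π : Type} {R : Run Ω τ υ} {p : Run.Num} {K c' g' gU : ℝ} {B bS bV μ : ℕ}
  {F : Pf R π} {Vs Xs : Finset ℕ} {o : Fin 7 → ℝ} {o' : ℕ → ℝ} {f a : ℕ → ℕ} {N b k k2 : ℕ}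

/-- the constant -/
noncomputable def cM (K : ℝ) : ℝ := 3 * Real.log ((2 * MM K + 3 : ℕ) : ℝ) + nuK (8 * (4 * K))

theorem cM_nonneg (K : ℝ) : 0 ≤ cM K := by
  unfold cM
  have h1 := nuK_nonneg (8 * (4 * K))
  have h2 : 0 ≤ Real.log ((2 * MM K + 3 : ℕ) : ℝ) := Real.log_nonneg (by
    have : 1 ≤ 2 * MM K + 3 := by omega
    exact_mod_cast this)
  positivity

theorem cM_le (K : ℝ) : cM K ≤ nuM (4 * K) (MM K) := by
  unfold cM nuM
  have : 0 ≤ Real.log 45 := Real.log_nonneg (by norm_num)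
  linarith

namespace Rec

/-- **the young letter given a later young letter** -/
theorem ml_cl (H : Rec R p K c' g' gU B bS bV μ F Vs Xs f a N b) (hk : k ≤ k2) (hk2 : k2 ≤ N)
    (h1 : a k ∈ Vy Vs Xs) (h2 : a k2 ∈ Vy Vs Xs)
    (hr : b + R.C.rk (f k) < R.C.rf (f k) ↔ b + R.C.rk (f k2) < R.C.rf (f k2)) :
    hc R.Q (Ml R F μ o o' b (f k)) (Ml R F μ o o' b (f k2)) ≤ cM K := by
  have y1 := H.yi (hk.trans hk2) h1
  have y2 := H.yi hk2 h2
  have hM : 641 * (4 * K) ^ 2 ≤ ((MM K : ℕ) : ℝ) := Nat.le_ceil _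
  have hmB := H.mB
  have hrr := H.hr
  have hμB := H.μB
  have hb8 := H.b8
  by_cases hq : b + R.C.rk (f k) < R.C.rf (f k)
  · have hq2 := hr.1 hq
    have hD : Dc (mt R F μ o o') (4 * K) (YI R p Vs) (f k) (f k2) b := by
      refine ⟨H.K4, y1, y2, H.fm hk, hb8, ?_⟩
      show 8 * μ ≤ min (R.C.rk (f k) - μ / 2 + b) (R.C.rf (f k))
      have := H.rk_ge (f k)
      have := R.C.hkf (f k)
      omega
    have key := mtr_near (M := MM K) R.Q hD (fun ω hω => hy_mt H.ok H.f2 H.K1 H.hB H.hr H.μB H.μC hω)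
      (H.pfm (H.fm hk) (H.fn k2 hk2)) hM
    refine le_trans (le_trans (hc_mono_left R.Q fun ω ω' _ _ e => ?_) (hc_mono_right R.Q _ fun ω ω' _ _ e => ?_)) key
    · simp only [Prod.mk.injEq] at e ⊢
      exact (ml_kap hq ω ω').2 e.1
    · exact (ml_kap hq2 ω ω').1 e
  · have hq2 : ¬ b + R.C.rk (f k2) < R.C.rf (f k2) := fun h => hq (hr.2 h)
    have hph := H.phi (hk.trans hk2) h1 hq
    have hD : Dc (mt0 R F μ o o') (4 * K) (YI R p Vs) (f k) (f k2) b := by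
      refine ⟨H.K4, y1, y2, H.fm hk, hb8, ?_⟩
      show 8 * μ ≤ min (F.rk0 (f k) - μ / 2 + b) (R.C.rf (f k))
      have := H.f2.lo0 (f k)
      have := H.rk_ge (f k)
      have := R.C.hkf (f k)
      omega
    have key := mtr_near0 (M := MM K) R.Q (prr_mt (R := R) (F := F) (μ := μ) (o := o) (o' := o')) hD
      (fun ω hω => hy_mt H.ok H.f2 H.K1 H.hB H.hr H.μB H.μC hω)
      (fun ω hω => hy_mt0 H.ok H.f2 H.K1 H.hB H.hr H.μB H.μC hω H.f2.lo0)
      (H.pfm (H.fm hk) (H.fn k2 hk2)) hM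
    refine le_trans (le_trans (hc_mono_left R.Q fun ω ω' _ _ e => ?_) (hc_mono_right R.Q _ fun ω ω' _ _ e => ?_)) key
    · simp only [Prod.mk.injEq] at e ⊢
      exact (ml_phi hq ω ω').2 e.1
    · exact (ml_phi hq2 ω ω').1 e

/-- .. given the cell of the frozen path, kappa regime -/
theorem ml_fzK (H : Rec R p K c' g' gU B bS bV μ F Vs Xs f a N b) (hk : k ≤ k2) (hk2 : k2 ≤ N)
    (h1 : a k ∈ Vy Vs Xs) (h2 : a k2 ∈ Vy Vs Xs)
    (hq : b + R.C.rk (f k) < R.C.rf (f k)) (hq2 : b + R.C.rk (f k2) < R.C.rf (f k2)) :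
    hc R.Q (Ml R F μ o o' b (f k)) (((mt R F μ o o').fz (f k2) (f k2)).cell (f k2) b) ≤ cM K := by
  refine (hc_mono_right R.Q _ fun ω ω' _ _ e => ?_).trans (H.ml_cl hk hk2 h1 h2 ⟨fun _ => hq2, fun _ => hq⟩)
  exact (ml_kap hq2 ω ω').2 (((mt R F μ o o').fz_cell_iff le_rfl b ω ω').1 e)

/-- .. given the cell of the frozen path, phi regime -/
theorem ml_fzP (H : Rec R p K c' g' gU B bS bV μ F Vs Xs f a N b) (hk : k ≤ k2) (hk2 : k2 ≤ N)
    (h1 : a k ∈ Vy Vs Xs) (h2 : a k2 ∈ Vy Vs Xs)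
    (hq : ¬ b + R.C.rk (f k) < R.C.rf (f k)) (hq2 : ¬ b + R.C.rk (f k2) < R.C.rf (f k2)) :
    hc R.Q (Ml R F μ o o' b (f k)) (((mt0 R F μ o o').fz (f k2) (f k2)).cell (f k2) b) ≤ cM K := by
  refine (hc_mono_right R.Q _ fun ω ω' _ _ e => ?_).trans
    (H.ml_cl hk hk2 h1 h2 ⟨fun h => absurd h hq, fun h => absurd h hq2⟩)
  exact (ml_phi hq2 ω ω').2 (((mt0 R F μ o o').fz_cell_iff le_rfl b ω ω').1 e)

end Rec

end

end Vale.Agent.P106.U.H118
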