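import Vale.Agent.P106.U.H122.MtrI
import Vale.Agent.P106.U.H118.RiseH

/-!
# P106 / U / H118 : the cells with true digits are nested up to a bounded number of choices (helper118)

* `VZ_congr` : the nominal position depends on the line, the time, the margins and the level only.
* `hc_ltc` : the letter `lt i` given the cell `mtr j b` of a later step (any two steps `i ≤ j`) : `3 log (2 M + 3)`.
* **`mtr_vz_near`** : `(mtr i b, VZ i b)` given `(mtr j b, VZ j b)` : `nuM K M = 3 log (2 M + 3) + nuK (8 K) + log 45`.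
-/

set_option autoImplicit false

namespace Vale.Agent.P106.U.H118

open Finset Vale.Agent.P127 Vale.Agent.P127.Stk
open Vale.Agent.P127.U.CellD (q2 rd Nb q2_pos q2_add q2_le rd_err rd_sub fl1_fl1)
open Vale.Agent.P106.U.Cell
open Vale.Agent.P106.U.H785.Mtr
open Vale.Agent.P106.U.H122 (s_of off_near)

theorem VZ_congr {Ω τ τ' : Type} {C : Pth Ω τ} {C' : Pth Ω τ'} {k k' b : ℕ} (hμ : C.μ = C'.μ) (ho : C.o = C'.o)
    (hl : C.l = C'.l) (ht : C.t = C'.t) (ha : C.a k = C'.a k') : C.VZ k b = C'.VZ k' b := by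
  have hs : ∀ ω, C.s k ω = C'.s k' ω := by
    intro ω
    unfold Pth.s
    rw [ha, ht]
  funext ω
  have hZ : ∀ s, C.Zs b s ω = C'.Zs b s ω := by
    intro s
    unfold Pth.Zs
    have : C.ro 1 (b - C.μ) (C.l ω).w = C'.ro 1 (b - C'.μ) (C'.l ω).w := by
      unfold Pth.ro
      rw [ho, hμ, hl]
    rw [this, hl]
  unfold Pth.VZ
  rw [hs, hZ, ha, hl]

section

variable {Ω π : Type} {D : Mtd Ω π} {K : ℝ} {I : Set ℕ} {i j b : ℕ} {ω ω' : Ω}

/-- two steps `i ≤ j` -/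
structure Dc (D : Mtd Ω π) (K : ℝ) (I : Set ℕ) (i j b : ℕ) : Prop where
  K1 : 1 ≤ K
  hi : i ∈ I
  hj : j ∈ I
  ij : i ≤ j
  b8 : 8 * D.μ ≤ b
  R8 : 8 * D.μ ≤ D.R i b

/-- two points with the same later cell and the same prefix -/
structure Smc (D : Mtd Ω π) (K : ℝ) (I : Set ℕ) (i j b : ℕ) (ω ω' : Ω) : Prop where
  h : D.Hy K I ω
  h' : D.Hy K I ω'
  pf : D.pf i ω = D.pf i ω'
  e : D.mtr j b ω = D.mtr j b ω'

lemma R_mono_D (D : Mtd Ω π) (h : i ≤ j) (b : ℕ) : D.R i b ≤ D.R j b := by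
  unfold Mtd.R Mtd.rr
  have := D.hk h
  have := D.hf h
  omega

lemma Smc.g (S : Smc D K I i j b ω ω') : D.g i ω' = D.g i ω := by
  unfold Mtd.g
  rw [S.pf]

lemma Smc.tj (S : Smc D K I i j b ω ω') : fl1 (D.a j) (D.t ω) = fl1 (D.a j) (D.t ω') :=
  congrArg (fun x : Lt π × Pth.Dg => x.1.1) S.e

lemma Smc.kj (S : Smc D K I i j b ω ω') : D.kN j ω = D.kN j ω' :=
  congrArg (fun x : Lt π × Pth.Dg => x.1.2.2.1) S.e

lemma Smc.uj (S : Smc D K I i j b ω ω') : D.uN j ω = D.uN j ω' :=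
  congrArg (fun x : Lt π × Pth.Dg => x.1.2.2.2.1) S.e

lemma Smc.nj (S : Smc D K I i j b ω ω') : D.nN j ω = D.nN j ω' :=
  congrArg (fun x : Lt π × Pth.Dg => x.1.2.2.2.2) S.e

lemma Smc.ti (S : Smc D K I i j b ω ω') (H : Dc D K I i j b) : fl1 (D.a i) (D.t ω) = fl1 (D.a i) (D.t ω') :=
  fl1_fl1 (D.ha H.ij) S.tj

lemma rrc (H : Dc D K I i j b) : q2 (D.rr j) ≤ q2 (D.rr i) := Mtd.rr_mono D H.ij

/-- kappa -/
lemma Smc.kappa (S : Smc D K I i j b ω ω') (H : Dc D K I i j b) :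
    |D.κ i ω' - D.κ i ω| ≤ 3 * K * q2 (D.rr i) := by
  have e1 := S.h.ka i H.hi j H.hj H.ij
  have e2 := S.h'.ka i H.hi j H.hj H.ij
  rw [s_of S.tj, s_of (S.ti H), S.g] at e2
  have e3 : |D.κ j ω' - D.κ j ω| ≤ q2 (D.rr j) := off_near S.kj
  have e4 := rrc H
  have e5 := Mtd.rr_le D i
  have K1 := H.K1
  have q := q2_pos (D.rr i)
  have e6 : K * q2 (D.rk i) ≤ K * q2 (D.rr i) := mul_le_mul_of_nonneg_left e5 (by linarith)
  rw [abs_le] at e1 e2 e3 ⊢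
  have : q2 (D.rr i) ≤ K * q2 (D.rr i) := by nlinarith
  constructor <;> linarith [e1.1, e1.2, e2.1, e2.2, e3.1, e3.2]

/-- the rays in the later cell -/
lemma Smc.nr (S : Smc D K I i j b ω ω') (H : Dc D K I i j b) :
    |(D.l ω').w - (D.l ω).w| ≤ 640 * K ^ 2 * q2 (b + 2 * D.μ) ∧
      |(D.l ω').N (D.s j ω) - (D.l ω).N (D.s j ω)| ≤ q2 (D.a j + b - D.μ) := by
  have hL : (D.p1 j).Lev 0 b := by
    refine ⟨H.b8, ?_⟩
    rw [D.p1_R]
    have := H.R8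
    have := R_mono_D D H.ij b
    show 8 * D.μ ≤ D.R j b
    omega
  have hN := Pth.Nr_of_cell' (K := 8 * K) (by have := H.K1; linarith) (Mtd.pa_ok H.K1 S.h fun _ => H.hj) hL
    ((D.p1_cell_iff j 0 b ω ω').2 S.e)
  refine ⟨hN.w.trans (le_of_eq (by show 10 * (8 * K) ^ 2 * q2 (b + 2 * D.μ) = _; ring)), hN.N⟩

/-- N-position at the earlier step -/
lemma Smc.Npos (S : Smc D K I i j b ω ω') (H : Dc D K I i j b) :
    |(D.l ω').N (D.s i ω') - (D.l ω).N (D.s i ω)| ≤ 641 * K ^ 2 * q2 (D.a i) := by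
  obtain ⟨h1, h2⟩ := S.nr H
  have K1 := H.K1
  have K2 : 1 ≤ K ^ 2 := one_le_pow₀ K1
  have hs : |D.s i ω - D.s j ω| ≤ q2 (D.a i) := by
    rw [abs_sub_comm]
    exact rd_sub (D.ha H.ij) _
  have e : (D.l ω').N (D.s i ω') - (D.l ω).N (D.s i ω) = ((D.l ω').N (D.s j ω) - (D.l ω).N (D.s j ω)) +
      (D.s i ω - D.s j ω) * ((D.l ω').w - (D.l ω).w) := by
    rw [s_of (S.ti H)]
    unfold Ray.N
    ring
  rw [e]
  have t1 : |(D.s i ω - D.s j ω) * ((D.l ω').w - (D.l ω).w)| ≤ 640 * K ^ 2 * q2 (D.a i) := by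
    rw [abs_mul]
    calc _ ≤ q2 (D.a i) * (640 * K ^ 2 * q2 (b + 2 * D.μ)) := mul_le_mul hs h1 (abs_nonneg _) (q2_pos _).le
      _ = 640 * K ^ 2 * (q2 (D.a i) * q2 (b + 2 * D.μ)) := by ring
      _ ≤ _ := by
        refine mul_le_mul_of_nonneg_left ?_ (by positivity)
        rw [← q2_add]
        exact q2_le (by omega)
  have t2 : q2 (D.a j + b - D.μ) ≤ q2 (D.a i) := q2_le (by have := D.ha H.ij; have := H.b8; omega)
  have q := q2_pos (D.a i)
  have : q2 (D.a i) ≤ K ^ 2 * q2 (D.a i) := by nlinarith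
  refine (abs_add_le _ _).trans ?_
  linarith

/-- gamma -/
lemma Smc.gamma (S : Smc D K I i j b ω ω') (H : Dc D K I i j b) (hn : D.nN i ω = D.nN i ω') :
    |D.u i ω' - D.u i ω| ≤ 19 * K * q2 (D.rr i) := by
  have K1 := H.K1
  have K0 : 0 < K := by linarith
  set r := q2 (D.rk i) with hr
  have r0 : 0 < r := q2_pos _
  set σ := D.s j ω - D.s i ω with hσ
  have hs : |σ| ≤ q2 (D.a i) := by
    have := rd_sub (D.ha H.ij) (D.t ω)
    exact this
  have sj := s_of S.tj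
  have si := s_of (S.ti H)
  have hNi : D.Nr i ω' = D.Nr i ω := by unfold Mtd.Nr; rw [hn]
  have hNj : D.Nr j ω' = D.Nr j ω := by unfold Mtd.Nr; rw [S.nj]
  -- the identity
  have id : ∀ x : Ω, D.s j x = D.s j ω → D.s i x = D.s i ω →
      D.u i x - D.u j x = (D.κ i x - D.κ j x - σ * D.g i x) * (D.l x).w +
        (D.g i x - D.al i x) * σ * (D.l x).w + (D.al i x - D.al j x) * ((D.l x).N (D.s j x) - D.Nr j x) +
        D.al i x * (D.Nr j x - D.Nr i x) := by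
    intro x h1 h2
    unfold Mtd.u
    have : (D.l x).N (D.s i x) = (D.l x).N (D.s j x) - σ * (D.l x).w := by
      rw [h1, h2, hσ]
      unfold Ray.N
      ring
    rw [this]
    ring
  have E1 := id ω rfl rfl
  have E2 := id ω' sj si
  -- bounds of the terms
  have A1 : ∀ x : Ω, D.Hy K I x → D.s j x = D.s j ω → D.s i x = D.s i ω →
      |(D.κ i x - D.κ j x - σ * D.g i x) * (D.l x).w| ≤ 2 * K * r := by
    intro x hx h1 h2
    have t := hx.ka i H.hi j H.hj H.ij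
    rw [h1, h2] at t
    rw [abs_mul]
    calc _ ≤ K * r * 2 := mul_le_mul t hx.w1 (abs_nonneg _) (by positivity)
      _ = _ := by ring
  have A2 : ∀ x : Ω, D.Hy K I x → |(D.g i x - D.al i x) * σ * (D.l x).w| ≤ 2 * K * r := by
    intro x hx
    have t := hx.ap i H.hi
    rw [abs_mul, abs_mul, abs_sub_comm]
    have t2 : |D.al i x - D.g i x| * |σ| ≤ K * r := (mul_le_mul_of_nonneg_left hs (abs_nonneg _)).trans t
    calc _ ≤ K * r * 2 := mul_le_mul t2 hx.w1 (abs_nonneg _) (by positivity)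
      _ = _ := by ring
  have A3 : ∀ x : Ω, D.Hy K I x → |(D.al i x - D.al j x) * ((D.l x).N (D.s j x) - D.Nr j x)| ≤ K * r := by
    intro x hx
    have t := hx.aa i H.hi j H.hj H.ij
    rw [abs_mul, abs_sub_comm (D.al i x)]
    exact (mul_le_mul_of_nonneg_left (Mtd.Nr_near D j x) (abs_nonneg _)).trans t
  have A4 : |(D.al i ω' - D.al i ω) * (D.Nr j ω - D.Nr i ω)| ≤ 8 * K * r := by
    have t1 := S.h.ap i H.hi
    have t2 := S.h'.ap i H.hi
    rw [S.g] at t2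
    have t3 : |D.al i ω' - D.al i ω| * q2 (D.a i) ≤ 2 * K * r := by
      have e : D.al i ω' - D.al i ω = (D.al i ω' - D.g i ω) - (D.al i ω - D.g i ω) := by ring
      rw [e]
      have := mul_le_mul_of_nonneg_right (abs_sub (D.al i ω' - D.g i ω) (D.al i ω - D.g i ω)) (q2_pos (D.a i)).le
      linarith
    have t4 : |D.Nr j ω - D.Nr i ω| ≤ 4 * q2 (D.a i) := by
      have n1 := Mtd.Nr_near D j ω
      have n2 := Mtd.Nr_near D i ω
      have n3 : q2 (D.a j) ≤ q2 (D.a i) := q2_le (D.ha H.ij)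
      have n4 : (D.l ω).N (D.s i ω) = (D.l ω).N (D.s j ω) - σ * (D.l ω).w := by
        rw [hσ]
        unfold Ray.N
        ring
      have n5 : |σ * (D.l ω).w| ≤ 2 * q2 (D.a i) := by
        rw [abs_mul, mul_comm 2]
        exact mul_le_mul hs S.h.w1 (abs_nonneg _) (q2_pos _).le
      rw [n4] at n2
      rw [abs_le] at n1 n2 n5 ⊢
      constructor <;> linarith [n1.1, n1.2, n2.1, n2.2, n5.1, n5.2]
    rw [abs_mul]
    calc _ ≤ |D.al i ω' - D.al i ω| * (4 * q2 (D.a i)) := mul_le_mul_of_nonneg_left t4 (abs_nonneg _)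
      _ = 4 * (|D.al i ω' - D.al i ω| * q2 (D.a i)) := by ring
      _ ≤ 4 * (2 * K * r) := by linarith
      _ = _ := by ring
  have B1 := A1 ω S.h rfl rfl
  have B1' := A1 ω' S.h' sj si
  have B2 := A2 ω S.h
  have B2' := A2 ω' S.h'
  have B3 := A3 ω S.h
  have B3' := A3 ω' S.h'
  have e5 : |D.u j ω' - D.u j ω| ≤ q2 (D.rr j) := off_near S.uj
  have e6 : q2 (D.rr j) ≤ q2 (D.rr i) := rrc H
  have e7 : r ≤ q2 (D.rr i) := Mtd.rr_le D i
  have e8 : K * r ≤ K * q2 (D.rr i) := mul_le_mul_of_nonneg_left e7 K0.le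
  have e9 : q2 (D.rr i) ≤ K * q2 (D.rr i) := by
    have := q2_pos (D.rr i)
    nlinarith
  rw [hNi, hNj] at E2
  have E4 : D.al i ω' * (D.Nr j ω - D.Nr i ω) = D.al i ω * (D.Nr j ω - D.Nr i ω) +
      (D.al i ω' - D.al i ω) * (D.Nr j ω - D.Nr i ω) := by ring
  rw [hNj] at B3'
  rw [abs_le] at *
  constructor <;> linarith [B1.1, B1.2, B1'.1, B1'.2, B2.1, B2.2, B2'.1, B2'.2, B3.1, B3.2, B3'.1, B3'.2, A4.1, A4.2,
    e5.1, e5.2]

/-- the constant of the nesting of the cells `mtr` -/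
noncomputable def nuM (K : ℝ) (M : ℕ) : ℝ := 3 * Real.log ((2 * M + 3 : ℕ) : ℝ) + (nuK (8 * K) + Real.log 45)

variable [Fintype Ω]

/-- the letter given a later cell `mtr` -/
theorem hc_ltc (P : Law Ω) (H : Dc D K I i j b) (hy : ∀ ω, 0 < P.w ω → D.Hy K I ω) {M : ℕ} (hM : 641 * K ^ 2 ≤ M) :
    hc P (D.lt i) (fun ω => (D.pf i ω, D.mtr j b ω)) ≤ 3 * Real.log ((2 * M + 3 : ℕ) : ℝ) := by
  have K1 := H.K1
  have K2 : 1 ≤ K ^ 2 := one_le_pow₀ K1
  have KK : K ≤ K ^ 2 := by nlinarith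
  set Y : Ω → π × (Lt π × Pth.Dg) := fun ω => (D.pf i ω, D.mtr j b ω) with hY
  have sm : ∀ ω ω', 0 < P.w ω → 0 < P.w ω' → Y ω = Y ω' → Smc D K I i j b ω ω' := fun ω ω' p p' e =>
    ⟨hy ω p, hy ω' p', congrArg Prod.fst e, congrArg Prod.snd e⟩
  have a1 : hc P (D.nN i) Y ≤ Real.log ((2 * M + 3 : ℕ) : ℝ) := by
    refine hc_le_log P _ _ (2 * M + 3) (H364.N4.int_card P _ Y fun ω ω' p p' e => ?_)
    refine H364.fl1_le_of_near (M := M) ?_
    rw [add_sub_add_right_eq_sub]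
    refine ((sm ω ω' p p' e).Npos H).trans (mul_le_mul_of_nonneg_right hM (q2_pos _).le)
  have a2 : hc P (D.kN i) Y ≤ Real.log ((2 * M + 3 : ℕ) : ℝ) := by
    refine hc_le_log P _ _ (2 * M + 3) (H364.N4.int_card P _ Y fun ω ω' p p' e => ?_)
    refine H364.fl1_le_of_near (M := M) ?_
    rw [add_sub_add_right_eq_sub]
    refine ((sm ω ω' p p' e).kappa H).trans (mul_le_mul_of_nonneg_right ?_ (q2_pos _).le)
    linarith
  have a3 : hc P (D.uN i) (fun ω => (D.nN i ω, Y ω)) ≤ Real.log ((2 * M + 3 : ℕ) : ℝ) := by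
    refine hc_le_log P _ _ (2 * M + 3) (H364.N4.int_card P _ _ fun ω ω' p p' e => ?_)
    refine H364.fl1_le_of_near (M := M) ?_
    rw [add_sub_add_right_eq_sub]
    refine ((sm ω ω' p p' (congrArg Prod.snd e)).gamma H (congrArg Prod.fst e)).trans
      (mul_le_mul_of_nonneg_right ?_ (q2_pos _).le)
    linarith
  have b1 : hc P (D.lt i) Y ≤ hc P (fun ω => (D.nN i ω, (D.uN i ω, D.kN i ω))) Y := by
    refine hc_mono_left P ?_
    intro ω ω' p p' e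
    simp only [Prod.mk.injEq] at e
    obtain ⟨⟨e1, e2, e3⟩, e4⟩ := e
    have S := sm ω ω' p p' e4
    unfold Mtd.lt
    rw [S.ti H, S.pf, e1, e2, e3]
  have b2 := hc_pair P (D.nN i) (fun ω => (D.uN i ω, D.kN i ω)) Y
  have b3 := hc_pair P (D.uN i) (D.kN i) (fun ω => (D.nN i ω, Y ω))
  have b4 : hc P (D.kN i) (fun ω => (D.uN i ω, (D.nN i ω, Y ω))) ≤ hc P (D.kN i) Y :=
    hc_mono_right P _ fun _ _ _ _ e => congrArg Prod.snd (congrArg Prod.snd e)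
  linarith

/-- **nesting of `(mtr, VZ)`** : any two steps, bounded number of choices -/
theorem mtr_vz_near (P : Law Ω) (H : Dc D K I i j b) (hy : ∀ ω, 0 < P.w ω → D.Hy K I ω)
    (hpf : Fn P (D.pf i) (D.pf j)) {M : ℕ} (hM : 641 * K ^ 2 ≤ M) (hμ : 640 * K ^ 2 * q2 D.μ ≤ 1) :
    hc P (fun ω => (D.mtr i b ω, (D.p1 i).VZ 0 b ω)) (fun ω => (D.mtr j b ω, (D.p1 j).VZ 0 b ω)) ≤ nuM K M := by
  set C := D.p2 i j H.ij with hC
  set Y : Ω → (Lt π × Pth.Dg) × (ℤ × ℤ) := fun ω => (D.mtr j b ω, (D.p1 j).VZ 0 b ω) with hY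
  have a1 : hc P (D.lt i) Y ≤ 3 * Real.log ((2 * M + 3 : ℕ) : ℝ) := by
    refine (hc_mono_right P _ fun ω ω' p p' e => ?_).trans (hc_ltc P H hy hM)
    have e1 : D.mtr j b ω = D.mtr j b ω' := congrArg Prod.fst e
    have e2 : D.pf j ω = D.pf j ω' := congrArg (fun x : Lt π × Pth.Dg => x.1.2.1) e1
    simp only [Prod.mk.injEq]
    exact ⟨hpf ω ω' p p' e2, e1⟩
  have hok : ∀ ω, 0 < P.w ω → C.Ok (8 * K) ω := fun ω hω => Mtd.pa_ok H.K1 (hy ω hω) fun k => by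
    unfold Mtd.tw
    split_ifs
    · exact H.hi
    · exact H.hj
  have hR0 : C.R 0 b = D.R i b := by
    rw [Pth.R_eq]
    rfl
  have a2 := cvz_near P C (K := 8 * K) (by have := H.K1; linarith) hok (k := 0) (k2 := 1) (b := b) (Nat.zero_le 1)
    ⟨H.b8, by rw [hR0]; exact H.R8⟩ (by
      refine le_trans (le_of_eq ?_) hμ
      show 10 * (8 * K) ^ 2 * q2 D.μ = _
      ring)
  have v0 : C.VZ 0 b = (D.p1 i).VZ 0 b := VZ_congr rfl rfl rfl rfl rfl
  have v1 : C.VZ 1 b = (D.p1 j).VZ 0 b := VZ_congr rfl rfl rfl rfl rfl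
  rw [v0, v1] at a2
  have a3 := hc_le_add' P (fun ω => (D.mtr i b ω, (D.p1 i).VZ 0 b ω)) (D.lt i) Y
  have a4 : hc P (fun ω => (D.mtr i b ω, (D.p1 i).VZ 0 b ω)) (fun ω => (D.lt i ω, Y ω)) ≤
      hc P (fun ω => (C.cell 0 b ω, (D.p1 i).VZ 0 b ω)) (fun ω => (C.cell 1 b ω, (D.p1 j).VZ 0 b ω)) := by
    refine (hc_mono_left P ?_).trans (hc_mono_right P _ ?_)
    · intro ω ω' _ _ e
      simp only [Prod.mk.injEq] at e ⊢
      exact ⟨(D.p2_cell0_iff i j H.ij b ω ω').1 e.1.1, e.1.2⟩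
    · intro ω ω' _ _ e
      simp only [hY, Prod.mk.injEq] at e ⊢
      exact ⟨(D.p2_cell1_iff i j H.ij b ω ω').2 ⟨e.1, e.2.1⟩, e.2.2⟩
  unfold nuM
  linarith

end

end Vale.Agent.P106.U.H118
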