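import Vale.Agent.P106.U.H118.NearM

/-!
# P106 / U / H118 : nesting of the cells with true digits, letter of one precision, numbers of another one (helper118)

* `Mg D K I i j b ω ω'` : what the later cell must know; `Mg.kappa`, `Mg.Npos`, `Mg.gamma`, `hc_ltg`.
* `Prr D D₀` : `D₀` has the same true numbers, coarser digits `rk`, its prefix letter contains the digits of `D` (`S3.mt`, `S3.mt0`).
* **`mtr_vz_near0`** : `(D₀.mtr i b, VZ i b)` given `(D₀.mtr j b, VZ j b)` : `nuM K M`.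
-/

set_option autoImplicit false

namespace Vale.Agent.P106.U.H118

open Finset Vale.Agent.P127 Vale.Agent.P127.Stk
open Vale.Agent.P127.U.CellD (q2 rd Nb q2_pos q2_add q2_le rd_err rd_sub fl1_fl1)
open Vale.Agent.P106.U.Cell
open Vale.Agent.P106.U.H785.Mtr
open Vale.Agent.P106.U.H122 (s_of off_near)

section

variable {Ω π π₀ : Type} {D : Mtd Ω π} {D₀ : Mtd Ω π₀} {K : ℝ} {I : Set ℕ} {i j b : ℕ} {ω ω' : Ω}

/-- two points with the same later letter, close rays and the same prefix -/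
structure Mg (D : Mtd Ω π) (K : ℝ) (I : Set ℕ) (i j b : ℕ) (ω ω' : Ω) : Prop where
  h : D.Hy K I ω
  h' : D.Hy K I ω'
  pf : D.pf i ω = D.pf i ω'
  tj : fl1 (D.a j) (D.t ω) = fl1 (D.a j) (D.t ω')
  kj : D.kN j ω = D.kN j ω'
  uj : D.uN j ω = D.uN j ω'
  nj : D.nN j ω = D.nN j ω'
  nw : |(D.l ω').w - (D.l ω).w| ≤ 640 * K ^ 2 * q2 (b + 2 * D.μ)
  nn : |(D.l ω').N (D.s j ω) - (D.l ω).N (D.s j ω)| ≤ q2 (D.a j + b - D.μ)

/-- two steps `i ≤ j` -/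
structure Dg (K : ℝ) (I : Set ℕ) (i j b μ : ℕ) : Prop where
  K1 : 1 ≤ K
  hi : i ∈ I
  hj : j ∈ I
  ij : i ≤ j
  b8 : 8 * μ ≤ b

lemma Mg.g (S : Mg D K I i j b ω ω') : D.g i ω' = D.g i ω := by
  unfold Mtd.g
  rw [S.pf]

lemma Mg.ti (S : Mg D K I i j b ω ω') (H : Dg K I i j b D.μ) : fl1 (D.a i) (D.t ω) = fl1 (D.a i) (D.t ω') :=
  fl1_fl1 (D.ha H.ij) S.tj

/-- kappa -/
lemma Mg.kappa (S : Mg D K I i j b ω ω') (H : Dg K I i j b D.μ) :
    |D.κ i ω' - D.κ i ω| ≤ 3 * K * q2 (D.rr i) := by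
  have e1 := S.h.ka i H.hi j H.hj H.ij
  have e2 := S.h'.ka i H.hi j H.hj H.ij
  rw [s_of S.tj, s_of (S.ti H), S.g] at e2
  have e3 : |D.κ j ω' - D.κ j ω| ≤ q2 (D.rr j) := off_near S.kj
  have e4 := Mtd.rr_mono D H.ij
  have e5 := Mtd.rr_le D i
  have K1 := H.K1
  have q := q2_pos (D.rr i)
  have e6 : K * q2 (D.rk i) ≤ K * q2 (D.rr i) := mul_le_mul_of_nonneg_left e5 (by linarith)
  rw [abs_le] at e1 e2 e3 ⊢
  have : q2 (D.rr i) ≤ K * q2 (D.rr i) := by nlinarith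
  constructor <;> linarith [e1.1, e1.2, e2.1, e2.2, e3.1, e3.2]

/-- N-position at the earlier step -/
lemma Mg.Npos (S : Mg D K I i j b ω ω') (H : Dg K I i j b D.μ) :
    |(D.l ω').N (D.s i ω') - (D.l ω).N (D.s i ω)| ≤ 641 * K ^ 2 * q2 (D.a i) := by
  have h1 := S.nw
  have h2 := S.nn
  have K1 := H.K1
  have K2 : 1 ≤ K ^ 2 := one_le_pow₀ K1
  have hs : |D.s i ω - D.s j ω| ≤ q2 (D.a i) := by
    rw [abs_sub_comm]
    exact rd_sub (D.ha H.ij) _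
  have e : (D.l ω').N (D.s i ω') - (D.l ω).N (D.s i ω) = ((D.l ω').N (D.s j ω) - (D.l ω).N (D.s j ω)) +
      (D.s i ω - D.s j ω) * ((D.l ω').w - (D.l ω).w) := by
    rw [s_of (S.ti H)]
    unfold Ray.N
    ring
  rw [e]
  have t1 : |(D.s i ω - D.s j ω) * ((D.l ω').w - (D.l ω).w)| ≤ 640 * K ^ 2 * q2 (D.a i) := by
    rw [abs_mul]
    calc _ ≤ q2 (D.a i) * (640 * K ^ 2 * q2 (b + 2 * D.μ)) := mul_le_mul hs h1 (abs_nonneg _) (q2_pos _).le
      _ = 640 * K ^ 2 * (q2 (D.a i) * q2 (b + 2 * D.μ)) := by ring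
      _ ≤ _ := by
        refine mul_le_mul_of_nonneg_left ?_ (by positivity)
        rw [← q2_add]
        exact q2_le (by omega)
  have t2 : q2 (D.a j + b - D.μ) ≤ q2 (D.a i) := q2_le (by have := D.ha H.ij; have := H.b8; omega)
  have q := q2_pos (D.a i)
  have : q2 (D.a i) ≤ K ^ 2 * q2 (D.a i) := by nlinarith
  refine (abs_add_le _ _).trans ?_
  linarith

/-- gamma -/
lemma Mg.gamma (S : Mg D K I i j b ω ω') (H : Dg K I i j b D.μ) (hn : D.nN i ω = D.nN i ω') :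
    |D.u i ω' - D.u i ω| ≤ 19 * K * q2 (D.rr i) := by
  have K1 := H.K1
  have K0 : 0 < K := by linarith
  set r := q2 (D.rk i) with hr
  have r0 : 0 < r := q2_pos _
  set σ := D.s j ω - D.s i ω with hσ
  have hs : |σ| ≤ q2 (D.a i) := by
    have := rd_sub (D.ha H.ij) (D.t ω)
    exact this
  have sj := s_of S.tj
  have si := s_of (S.ti H)
  have hNi : D.Nr i ω' = D.Nr i ω := by unfold Mtd.Nr; rw [hn]
  have hNj : D.Nr j ω' = D.Nr j ω := by unfold Mtd.Nr; rw [S.nj]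
  -- the identity
  have id : ∀ x : Ω, D.s j x = D.s j ω → D.s i x = D.s i ω →
      D.u i x - D.u j x = (D.κ i x - D.κ j x - σ * D.g i x) * (D.l x).w +
        (D.g i x - D.al i x) * σ * (D.l x).w + (D.al i x - D.al j x) * ((D.l x).N (D.s j x) - D.Nr j x) +
        D.al i x * (D.Nr j x - D.Nr i x) := by
    intro x h1 h2
    unfold Mtd.u
    have : (D.l x).N (D.s i x) = (D.l x).N (D.s j x) - σ * (D.l x).w := by
      rw [h1, h2, hσ]
      unfold Ray.N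
      ring
    rw [this]
    ring
  have E1 := id ω rfl rfl
  have E2 := id ω' sj si
  -- bounds of the terms
  have A1 : ∀ x : Ω, D.Hy K I x → D.s j x = D.s j ω → D.s i x = D.s i ω →
      |(D.κ i x - D.κ j x - σ * D.g i x) * (D.l x).w| ≤ 2 * K * r := by
    intro x hx h1 h2
    have t := hx.ka i H.hi j H.hj H.ij
    rw [h1, h2] at t
    rw [abs_mul]
    calc _ ≤ K * r * 2 := mul_le_mul t hx.w1 (abs_nonneg _) (by positivity)
      _ = _ := by ring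
  have A2 : ∀ x : Ω, D.Hy K I x → |(D.g i x - D.al i x) * σ * (D.l x).w| ≤ 2 * K * r := by
    intro x hx
    have t := hx.ap i H.hi
    rw [abs_mul, abs_mul, abs_sub_comm]
    have t2 : |D.al i x - D.g i x| * |σ| ≤ K * r := (mul_le_mul_of_nonneg_left hs (abs_nonneg _)).trans t
    calc _ ≤ K * r * 2 := mul_le_mul t2 hx.w1 (abs_nonneg _) (by positivity)
      _ = _ := by ring
  have A3 : ∀ x : Ω, D.Hy K I x → |(D.al i x - D.al j x) * ((D.l x).N (D.s j x) - D.Nr j x)| ≤ K * r := by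
    intro x hx
    have t := hx.aa i H.hi j H.hj H.ij
    rw [abs_mul, abs_sub_comm (D.al i x)]
    exact (mul_le_mul_of_nonneg_left (Mtd.Nr_near D j x) (abs_nonneg _)).trans t
  have A4 : |(D.al i ω' - D.al i ω) * (D.Nr j ω - D.Nr i ω)| ≤ 8 * K * r := by
    have t1 := S.h.ap i H.hi
    have t2 := S.h'.ap i H.hi
    rw [S.g] at t2
    have t3 : |D.al i ω' - D.al i ω| * q2 (D.a i) ≤ 2 * K * r := by
      have e : D.al i ω' - D.al i ω = (D.al i ω' - D.g i ω) - (D.al i ω - D.g i ω) := by ring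
      rw [e]
      have := mul_le_mul_of_nonneg_right (abs_sub (D.al i ω' - D.g i ω) (D.al i ω - D.g i ω)) (q2_pos (D.a i)).le
      linarith
    have t4 : |D.Nr j ω - D.Nr i ω| ≤ 4 * q2 (D.a i) := by
      have n1 := Mtd.Nr_near D j ω
      have n2 := Mtd.Nr_near D i ω
      have n3 : q2 (D.a j) ≤ q2 (D.a i) := q2_le (D.ha H.ij)
      have n4 : (D.l ω).N (D.s i ω) = (D.l ω).N (D.s j ω) - σ * (D.l ω).w := by
        rw [hσ]
        unfold Ray.N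
        ring
      have n5 : |σ * (D.l ω).w| ≤ 2 * q2 (D.a i) := by
        rw [abs_mul, mul_comm 2]
        exact mul_le_mul hs S.h.w1 (abs_nonneg _) (q2_pos _).le
      rw [n4] at n2
      rw [abs_le] at n1 n2 n5 ⊢
      constructor <;> linarith [n1.1, n1.2, n2.1, n2.2, n5.1, n5.2]
    rw [abs_mul]
    calc _ ≤ |D.al i ω' - D.al i ω| * (4 * q2 (D.a i)) := mul_le_mul_of_nonneg_left t4 (abs_nonneg _)
      _ = 4 * (|D.al i ω' - D.al i ω| * q2 (D.a i)) := by ring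
      _ ≤ 4 * (2 * K * r) := by linarith
      _ = _ := by ring
  have B1 := A1 ω S.h rfl rfl
  have B1' := A1 ω' S.h' sj si
  have B2 := A2 ω S.h
  have B2' := A2 ω' S.h'
  have B3 := A3 ω S.h
  have B3' := A3 ω' S.h'
  have e5 : |D.u j ω' - D.u j ω| ≤ q2 (D.rr j) := off_near S.uj
  have e6 : q2 (D.rr j) ≤ q2 (D.rr i) := Mtd.rr_mono D H.ij
  have e7 : r ≤ q2 (D.rr i) := Mtd.rr_le D i
  have e8 : K * r ≤ K * q2 (D.rr i) := mul_le_mul_of_nonneg_left e7 K0.le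
  have e9 : q2 (D.rr i) ≤ K * q2 (D.rr i) := by
    have := q2_pos (D.rr i)
    nlinarith
  rw [hNi, hNj] at E2
  have E4 : D.al i ω' * (D.Nr j ω - D.Nr i ω) = D.al i ω * (D.Nr j ω - D.Nr i ω) +
      (D.al i ω' - D.al i ω) * (D.Nr j ω - D.Nr i ω) := by ring
  rw [hNj] at B3'
  rw [abs_le] at *
  constructor <;> linarith [B1.1, B1.2, B1'.1, B1'.2, B2.1, B2.2, B2'.1, B2'.2, B3.1, B3.2, B3'.1, B3'.2, A4.1, A4.2,
    e5.1, e5.2]


variable [Fintype Ω]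

/-- the letter given a later letter -/
theorem hc_ltg (P : Law Ω) (H : Dg K I i j b D.μ) {σ : Type*} (Y : Ω → σ)
    (sm : ∀ ω ω', 0 < P.w ω → 0 < P.w ω' → Y ω = Y ω' → Mg D K I i j b ω ω') {M : ℕ} (hM : 641 * K ^ 2 ≤ M) :
    hc P (D.lt i) Y ≤ 3 * Real.log ((2 * M + 3 : ℕ) : ℝ) := by
  have K1 := H.K1
  have K2 : 1 ≤ K ^ 2 := one_le_pow₀ K1
  have KK : K ≤ K ^ 2 := by nlinarith
  have a1 : hc P (D.nN i) Y ≤ Real.log ((2 * M + 3 : ℕ) : ℝ) := by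
    refine hc_le_log P _ _ (2 * M + 3) (H364.N4.int_card P _ Y fun ω ω' p p' e => ?_)
    refine H364.fl1_le_of_near (M := M) ?_
    rw [add_sub_add_right_eq_sub]
    refine ((sm ω ω' p p' e).Npos H).trans (mul_le_mul_of_nonneg_right hM (q2_pos _).le)
  have a2 : hc P (D.kN i) Y ≤ Real.log ((2 * M + 3 : ℕ) : ℝ) := by
    refine hc_le_log P _ _ (2 * M + 3) (H364.N4.int_card P _ Y fun ω ω' p p' e => ?_)
    refine H364.fl1_le_of_near (M := M) ?_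
    rw [add_sub_add_right_eq_sub]
    refine ((sm ω ω' p p' e).kappa H).trans (mul_le_mul_of_nonneg_right ?_ (q2_pos _).le)
    linarith
  have a3 : hc P (D.uN i) (fun ω => (D.nN i ω, Y ω)) ≤ Real.log ((2 * M + 3 : ℕ) : ℝ) := by
    refine hc_le_log P _ _ (2 * M + 3) (H364.N4.int_card P _ _ fun ω ω' p p' e => ?_)
    refine H364.fl1_le_of_near (M := M) ?_
    rw [add_sub_add_right_eq_sub]
    refine ((sm ω ω' p p' (congrArg Prod.snd e)).gamma H (congrArg Prod.fst e)).trans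
      (mul_le_mul_of_nonneg_right ?_ (q2_pos _).le)
    linarith
  have b1 : hc P (D.lt i) Y ≤ hc P (fun ω => (D.nN i ω, (D.uN i ω, D.kN i ω))) Y := by
    refine hc_mono_left P ?_
    intro ω ω' p p' e
    simp only [Prod.mk.injEq] at e
    obtain ⟨⟨e1, e2, e3⟩, e4⟩ := e
    have S := sm ω ω' p p' e4
    unfold Mtd.lt
    rw [S.ti H, S.pf, e1, e2, e3]
  have b2 := hc_pair P (D.nN i) (fun ω => (D.uN i ω, D.kN i ω)) Y
  have b3 := hc_pair P (D.uN i) (D.kN i) (fun ω => (D.nN i ω, Y ω))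
  have b4 : hc P (D.kN i) (fun ω => (D.uN i ω, (D.nN i ω, Y ω))) ≤ hc P (D.kN i) Y :=
    hc_mono_right P _ fun _ _ _ _ e => congrArg Prod.snd (congrArg Prod.snd e)
  linarith

/-- `D₀` : the same true numbers, coarser digits, its prefix letter contains the digits of `D` -/
structure Prr (D : Mtd Ω π) (D₀ : Mtd Ω π₀) : Prop where
  a : D₀.a = D.a
  rk : ∀ i, D₀.rk i ≤ D.rk i
  μ : D₀.μ = D.μ
  ν : D₀.ν = D.ν
  o : D₀.o = D.o
  oκ : D₀.oκ = D.oκ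
  oγ : D₀.oγ = D.oγ
  l : D₀.l = D.l
  t : D₀.t = D.t
  un : D₀.un = D.un
  κ : D₀.κ = D.κ
  al : D₀.al = D.al
  pf : ∀ i ω ω', D₀.pf i ω = D₀.pf i ω' ↔ D.pf i ω = D.pf i ω' ∧ D.kN i ω = D.kN i ω' ∧ D.uN i ω = D.uN i ω'

omit [Fintype Ω] in
lemma Prr.s (h : Prr D D₀) (i : ℕ) (ω : Ω) : D₀.s i ω = D.s i ω := by
  unfold Mtd.s
  rw [h.a, h.t]

omit [Fintype Ω] in
lemma Prr.nN (h : Prr D D₀) (i : ℕ) (ω : Ω) : D₀.nN i ω = D.nN i ω := by
  unfold Mtd.nN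
  rw [h.s, h.a, h.l, h.o]

omit [Fintype Ω] in
lemma Prr.u (h : Prr D D₀) (i : ℕ) (ω : Ω) : D₀.u i ω = D.u i ω := by
  unfold Mtd.u Mtd.Nr
  rw [h.un, h.κ, h.l, h.al, h.s, h.nN, h.a, h.o]

omit [Fintype Ω] in
lemma Prr.rr (h : Prr D D₀) (i : ℕ) : D₀.rr i ≤ D.rr i := by
  unfold Mtd.rr
  have := h.rk i
  rw [h.ν]
  omega

omit [Fintype Ω] in
/-- the letters are equivalent -/
lemma Prr.lt_iff (h : Prr D D₀) (i : ℕ) (ω ω' : Ω) : D₀.lt i ω = D₀.lt i ω' ↔ D.lt i ω = D.lt i ω' := by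
  unfold Mtd.lt
  simp only [Prod.mk.injEq]
  rw [h.pf, h.nN, h.nN, h.a, h.t]
  constructor
  · rintro ⟨e1, ⟨e2, e3, e4⟩, _, _, e5⟩
    exact ⟨e1, e2, e3, e4, e5⟩
  · rintro ⟨e1, e2, e3, e4, e5⟩
    refine ⟨e1, ⟨e2, e3, e4⟩, ?_, ?_, e5⟩
    · unfold Mtd.kN at e3 ⊢
      rw [h.κ, h.oκ]
      exact fl1_fl1 (h.rr i) e3
    · unfold Mtd.uN at e4 ⊢
      rw [h.u, h.u, h.oγ]
      exact fl1_fl1 (h.rr i) e4

/-- **nesting of `(mtr, VZ)`** for the letter of one precision and the numbers of another one -/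
theorem mtr_vz_near0 (P : Law Ω) (hp : Prr D D₀) (H : Dc D₀ K I i j b)
    (hy : ∀ ω, 0 < P.w ω → D.Hy K I ω) (hy0 : ∀ ω, 0 < P.w ω → D₀.Hy K I ω)
    (hpf : Fn P (D.pf i) (D.pf j)) {M : ℕ} (hM : 641 * K ^ 2 ≤ M) (hμ : 640 * K ^ 2 * q2 D₀.μ ≤ 1) :
    hc P (fun ω => (D₀.mtr i b ω, (D₀.p1 i).VZ 0 b ω)) (fun ω => (D₀.mtr j b ω, (D₀.p1 j).VZ 0 b ω)) ≤ nuM K M := by
  set C := D₀.p2 i j H.ij with hC
  set Y : Ω → (Lt π₀ × Pth.Dg) × (ℤ × ℤ) := fun ω => (D₀.mtr j b ω, (D₀.p1 j).VZ 0 b ω) with hY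
  have hDg : Dg K I i j b D.μ := ⟨H.K1, H.hi, H.hj, H.ij, by rw [← hp.μ]; exact H.b8⟩
  have a1 : hc P (D₀.lt i) Y ≤ 3 * Real.log ((2 * M + 3 : ℕ) : ℝ) := by
    refine (hc_mono_left P (X' := D.lt i) fun ω ω' p p' e => ?_).trans (hc_ltg P hDg Y (fun ω ω' p p' e => ?_) hM)
    · exact (hp.lt_iff i ω ω').2 (congrArg Prod.fst e)
    · have e1 : D₀.mtr j b ω = D₀.mtr j b ω' := congrArg Prod.fst e
      have e2 : D₀.lt j ω = D₀.lt j ω' := congrArg Prod.fst e1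
      have e3 := (hp.lt_iff j ω ω').1 e2
      have hL : (D₀.p1 j).Lev 0 b := by
        refine ⟨H.b8, ?_⟩
        rw [D₀.p1_R]
        have := H.R8
        have := R_mono_D D₀ H.ij b
        show 8 * D₀.μ ≤ D₀.R j b
        omega
      have hN := Pth.Nr_of_cell' (K := 8 * K) (by have := H.K1; linarith) (Mtd.pa_ok H.K1 (hy0 ω p) fun _ => H.hj) hL
        ((D₀.p1_cell_iff j 0 b ω ω').2 e1)
      refine ⟨hy ω p, hy ω' p', ?_, ?_, ?_, ?_, ?_, ?_, ?_⟩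
      · exact hpf ω ω' p p' (congrArg (fun x : Lt π => x.2.1) e3)
      · exact congrArg (fun x : Lt π => x.1) e3
      · exact congrArg (fun x : Lt π => x.2.2.1) e3
      · exact congrArg (fun x : Lt π => x.2.2.2.1) e3
      · exact congrArg (fun x : Lt π => x.2.2.2.2) e3
      · rw [← hp.l, ← hp.μ]
        exact hN.w.trans (le_of_eq (by show 10 * (8 * K) ^ 2 * q2 (b + 2 * D₀.μ) = _; ring))
      · rw [← hp.l, ← hp.μ, ← hp.s, ← hp.a]
        exact hN.N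
  have hok : ∀ ω, 0 < P.w ω → C.Ok (8 * K) ω := fun ω hω => Mtd.pa_ok H.K1 (hy0 ω hω) fun k => by
    unfold Mtd.tw
    split_ifs
    · exact H.hi
    · exact H.hj
  have hR0 : C.R 0 b = D₀.R i b := by
    rw [Pth.R_eq]
    rfl
  have a2 := cvz_near P C (K := 8 * K) (by have := H.K1; linarith) hok (k := 0) (k2 := 1) (b := b) (Nat.zero_le 1)
    ⟨H.b8, by rw [hR0]; exact H.R8⟩ (by
      refine le_trans (le_of_eq ?_) hμ
      show 10 * (8 * K) ^ 2 * q2 D₀.μ = _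
      ring)
  have v0 : C.VZ 0 b = (D₀.p1 i).VZ 0 b := VZ_congr rfl rfl rfl rfl rfl
  have v1 : C.VZ 1 b = (D₀.p1 j).VZ 0 b := VZ_congr rfl rfl rfl rfl rfl
  rw [v0, v1] at a2
  have a3 := hc_le_add' P (fun ω => (D₀.mtr i b ω, (D₀.p1 i).VZ 0 b ω)) (D₀.lt i) Y
  have a4 : hc P (fun ω => (D₀.mtr i b ω, (D₀.p1 i).VZ 0 b ω)) (fun ω => (D₀.lt i ω, Y ω)) ≤
      hc P (fun ω => (C.cell 0 b ω, (D₀.p1 i).VZ 0 b ω)) (fun ω => (C.cell 1 b ω, (D₀.p1 j).VZ 0 b ω)) := by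
    refine (hc_mono_left P ?_).trans (hc_mono_right P _ ?_)
    · intro ω ω' _ _ e
      simp only [Prod.mk.injEq] at e ⊢
      exact ⟨(D₀.p2_cell0_iff i j H.ij b ω ω').1 e.1.1, e.1.2⟩
    · intro ω ω' _ _ e
      simp only [hY, Prod.mk.injEq] at e ⊢
      exact ⟨(D₀.p2_cell1_iff i j H.ij b ω ω').2 ⟨e.1, e.2.1⟩, e.2.2⟩
  unfold nuM
  linarith

end

end Vale.Agent.P106.U.H118
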