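import Vale.Agent.P127.Stk.LibEnt

/-!
# P106 / U / H118 : the RISE (RUN) lemma, abstract Shannon part (helper118)

One finite law `P`, a line `ln`, nested cells `J i'`, ..., `J n` (`J k` a function of `J (k+1)`), at every
step `k` the new state `T k` (time and frame after the step) and the new position block `X k`, both functions
of `J (k+1)`.  `G` = two copies of `P`, conditionally independent given `(ln, J i)`.

If, in `G`, the block `X k` of the first copy is confined (`hc ≤ e k`) once the cell `J i'` of the SECOND copy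
is known, then the cell `J i'` knows much about the line:
`∑_k (H(X k | J k, T k) - e k) - H(J i' | ln, J i) ≤ I(ln ; J i' | J i)`.
-/

set_option autoImplicit false

namespace Vale.Agent.P106.U.H118

open Finset Vale.Agent.P127 Vale.Agent.P127.Stk

section

variable {Ω : Type} [Fintype Ω] {S T U V : Type*}

/-- two conditionally independent copies given `K` -/
noncomputable abbrev two (P : Law Ω) (K : Ω → S) : Law (Law.GT K K) := Law.glue P P K K fun _ => rfl

theorem two_supp {P : Law Ω} {K : Ω → S} {p : Law.GT K K} (hp : 0 < (two P K).w p) :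
    0 < P.w p.fst ∧ 0 < P.w p.snd := by
  have hp' : 0 < P.w p.fst * P.w p.snd / P.pr K (K p.fst) := hp
  constructor
  · rcases (P.nn p.fst).eq_or_lt with h0 | h0
    · simp [← h0] at hp'
    · exact h0
  · rcases (P.nn p.snd).eq_or_lt with h0 | h0
    · simp [← h0] at hp'
    · exact h0

theorem two_hc (P : Law Ω) (K : Ω → S) (X : Ω → T) (Y : Ω → U) :
    hc (two P K) (fun p => X p.fst) (fun p => Y p.fst) = hc P X Y := by
  unfold hc
  rw [Law.glue_H (fun _ => rfl) (fun ω => (X ω, Y ω)), Law.glue_H (fun _ => rfl) Y]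

theorem two_hc' (P : Law Ω) (K : Ω → S) (X : Ω → T) (Y : Ω → U) :
    hc (two P K) (fun p => X p.snd) (fun p => Y p.snd) = hc P X Y := by
  unfold hc
  rw [Law.glue_H' (fun _ => rfl) (fun ω => (X ω, Y ω)), Law.glue_H' (fun _ => rfl) Y]

theorem Fn.fst {P : Law Ω} {K : Ω → S} {X : Ω → T} {Y : Ω → U} (h : Fn P X Y) :
    Fn (two P K) (fun p => X p.fst) (fun p => Y p.fst) :=
  fun p q hp hq e => h _ _ (two_supp hp).1 (two_supp hq).1 e

/-- chain rule along nested cells -/
theorem chain_mi {Ω' : Type} [Fintype Ω'] (G : Law Ω') {Γ χ τ : ℕ → Type*} (D : Ω' → V)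
    (J : ∀ k, Ω' → Γ k) (X : ∀ k, Ω' → χ k) (T : ∀ k, Ω' → τ k) (i : ℕ) :
    ∀ n, i ≤ n → (∀ k, i ≤ k → k < n → Fn G (J k) (J (k + 1))) →
      (∀ k, i ≤ k → k < n → Fn G (fun ω => (T k ω, X k ω)) (J (k + 1))) →
      ∀ s ⊆ Finset.Ico i n, ∑ k ∈ s, mi G D (X k) (fun ω => (T k ω, J k ω)) ≤ mi G D (J n) (J i) := by
  intro n hn
  induction n, hn using Nat.le_induction with
  | base =>
    intro _ _ s hs
    have : s = ∅ := by simpa using hs
    subst this
    simpa using mi_nonneg G D (J i) (J i)
  | succ n hn ih =>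
    intro h1 h2 s hs
    have hJ : Fn G (J i) (J n) := by
      have : ∀ m, i ≤ m → m ≤ n → Fn G (J i) (J m) := by
        intro m hm
        induction m, hm using Nat.le_induction with
        | base => exact fun _ ω ω' _ _ e => e
        | succ m hm ih' =>
          intro hmn ω ω' p p' e
          exact ih' (by omega) ω ω' p p' (h1 m hm (by omega) ω ω' p p' e)
      exact this n hn le_rfl
    -- split off the last step
    have e1 : mi G D (J n) (J i) + mi G D (J (n + 1)) (fun ω => (J n ω, J i ω)) =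
        mi G D (fun ω => (J n ω, J (n + 1) ω)) (J i) := (mi_pair G D (J n) (J (n + 1)) (J i)).symm
    have e2 : mi G D (fun ω => (J n ω, J (n + 1) ω)) (J i) ≤ mi G D (J (n + 1)) (J i) := by
      refine mi_mono_right G D fun ω ω' p p' e => ?_
      simp only [Prod.mk.injEq] at e
      exact Prod.ext (h1 n hn (by omega) ω ω' p p' e.1) e.1
    have e3 : mi G D (J (n + 1)) (fun ω => (J n ω, J i ω)) = mi G D (J (n + 1)) (J n) :=
      mi_congr_cond G D _ (Z := fun ω => (J n ω, J i ω)) (Z' := J n)
        (fun ω ω' p p' e => Prod.ext e (hJ ω ω' p p' e)) (fun ω ω' _ _ e => congrArg Prod.fst e)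
    have ih1 := ih (fun k hk hk' => h1 k hk (by omega)) (fun k hk hk' => h2 k hk (by omega))
      (s.erase n) (by
        intro k hk
        have := hs (Finset.mem_of_mem_erase hk)
        rw [Finset.mem_Ico] at this ⊢
        have := Finset.ne_of_mem_erase hk
        omega)
    by_cases hns : n ∈ s
    · have e4 : mi G D (X n) (fun ω => (T n ω, J n ω)) ≤ mi G D (J (n + 1)) (J n) := by
        have f1 := mi_pair G D (T n) (X n) (J n)
        have f2 : mi G D (fun ω => (T n ω, X n ω)) (J n) ≤ mi G D (J (n + 1)) (J n) := by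
          refine mi_mono_right G D fun ω ω' p p' e => ?_
          simp only [Prod.mk.injEq] at e
          exact h2 n hn (by omega) ω ω' p p' e.1
        have f3 := mi_nonneg G D (T n) (J n)
        linarith
      rw [← Finset.add_sum_erase s _ hns]
      linarith
    · have : s.erase n = s := Finset.erase_eq_of_notMem hns
      rw [this] at ih1
      have f3 := mi_nonneg G D (J (n + 1)) (J n)
      linarith

/-- **RISE / RUN lemma** (abstract).  `G = two P (ln, J i)`. -/
theorem rise (P : Law Ω) {Λ : Type*} {Γ χ τ : ℕ → Type*} (ln : Ω → Λ)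
    (J : ∀ k, Ω → Γ k) (X : ∀ k, Ω → χ k) (T : ∀ k, Ω → τ k) (i i' n : ℕ) (hn : i' ≤ n)
    (h0 : Fn P (J i) (J i'))
    (h1 : ∀ k, i' ≤ k → k < n → Fn P (J k) (J (k + 1)))
    (h2 : ∀ k, i' ≤ k → k < n → Fn P (fun ω => (T k ω, X k ω)) (J (k + 1)))
    (s : Finset ℕ) (hs : s ⊆ Finset.Ico i' n) (e : ℕ → ℝ)
    (he : ∀ k ∈ s, hc (two P fun ω => (ln ω, J i ω)) (fun p => X k p.fst)
      (fun p => (J i' p.snd, (T k p.fst, J k p.fst))) ≤ e k) :
    ∑ k ∈ s, (hc P (X k) (fun ω => (T k ω, J k ω)) - e k) - hc P (J i') (fun ω => (ln ω, J i ω)) ≤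
      mi P ln (J i') (J i) := by
  set K : Ω → Λ × Γ i := fun ω => (ln ω, J i ω) with hK
  set G := two P K with hG
  -- information = entropy - entropy given the line
  have a1 : mi P ln (J i') (J i) = hc P (J i') (J i) - hc P (J i') (fun ω => (ln ω, J i ω)) := by
    rw [mi_symm]; rfl
  -- the second copy
  have a2 : hc P (J i') (J i) = hc G (fun p => J i' p.snd) (fun p => J i p.snd) := (two_hc' P K _ _).symm
  have a3 : hc G (fun p => J i' p.snd) (fun p => J i' p.fst) ≤
      hc G (fun p => J i' p.snd) (fun p => J i p.snd) := by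
    refine hc_mono_right G _ fun p q hp hq e => ?_
    have b1 : J i p.fst = J i q.fst := h0 _ _ (two_supp hp).1 (two_supp hq).1 e
    have b2 : J i p.fst = J i p.snd := congrArg Prod.snd p.eq
    have b3 : J i q.fst = J i q.snd := congrArg Prod.snd q.eq
    show J i p.snd = J i q.snd
    rw [← b2, ← b3, b1]
  have a4 : mi G (fun p => J i' p.snd) (fun p => J n p.fst) (fun p => J i' p.fst) ≤
      hc G (fun p => J i' p.snd) (fun p => J i' p.fst) := mi_le_hc G _ _ _
  have a5 := chain_mi G (fun p => J i' p.snd) (fun k p => J k p.fst) (fun k p => X k p.fst)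
    (fun k p => T k p.fst) i' n hn (fun k hk hk' => Fn.fst (h1 k hk hk'))
    (fun k hk hk' => Fn.fst (h2 k hk hk')) s hs
  have a6 : ∑ k ∈ s, (hc P (X k) (fun ω => (T k ω, J k ω)) - e k) ≤
      ∑ k ∈ s, mi G (fun p => J i' p.snd) (fun p => X k p.fst) (fun p => (T k p.fst, J k p.fst)) := by
    refine Finset.sum_le_sum fun k hk => ?_
    rw [mi_symm]
    have c1 : hc G (fun p => X k p.fst) (fun p => (T k p.fst, J k p.fst)) =
        hc P (X k) (fun ω => (T k ω, J k ω)) := two_hc P K _ (fun ω => (T k ω, J k ω))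
    have c2 := he k hk
    unfold mi
    rw [c1]
    linarith
  linarith

end

end Vale.Agent.P106.U.H118
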