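import Vale.Agent.P106.U.H118.StripC
import Vale.Agent.P106.U.H833.Near
import Vale.Agent.P127.U.CellE

/-!
# P106 / U / H118 : RISE in the cells of the path (helper118)

* `rise_end` : `rise_tot` of helper833 with the last term of the chain.
* `hc_exc_loc` : few values outside a small event, local support.
* `vz_card` : the next position takes few values given the cell (no normalisation needed).
* `strip_hc` : the strip count as an entropy bound for two copies.
* `rise_cell` : **RISE** for the cells of `U/Cell.lean`.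
-/

set_option autoImplicit false

namespace Vale.Agent.P106.U.H118

open Finset Vale.Agent.P127 Vale.Agent.P127.Stk
open Vale.Agent.P127.U.CellD (q2 rd Nb q2_pos q2_add q2_le rd_err rd_sub)
open Vale.Agent.P106.U.Cell

section

variable {Ω : Type} [Fintype Ω] (P : Law Ω) {S T V W : Type*}

/-- **RISE**, approximately nested cells, with the last term of the chain -/
theorem rise_end {κ σ χ τ : Type*} (K : Ω → κ) (E : Ω → V) (E' : Ω → W) (S : ℕ → Ω → σ)
    (X : ℕ → Ω → χ) (T' : ℕ → Ω → τ) (N : ℕ) {c0 : ℝ} {ν e : ℕ → ℝ}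
    (hK : Fn P E K)
    (h0 : hc P E (S 0) ≤ c0)
    (h1 : ∀ w < N, hc P (S w) (S (w + 1)) ≤ ν w)
    (h2 : ∀ w < N, Fn P (fun ω => (T' w ω, X w ω)) (S (w + 1)))
    (he : ∀ w < N, hc (two P K) (fun p => X w p.fst)
      (fun p => (E' p.snd, (T' w p.fst, S w p.fst))) ≤ e w) :
    ∑ w ∈ range N, (hc P (X w) (fun ω => (T' w ω, S w ω)) - e w - ν w) - c0 +
      hc (two P K) (fun p => E' p.snd) (fun p => S N p.fst) ≤ hc P E' E := by
  set G := two P K with hG
  have a2 : hc P E' E = hc G (fun p => E' p.snd) (fun p => E p.snd) := (two_hc' P K _ _).symm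
  have b : ∀ p : Law.GT K K, 0 < G.w p → E p.fst = E p.snd := fun p hp =>
    hK _ _ (two_supp hp).1 (two_supp hp).2 p.eq
  have a3 : hc G (fun p => E' p.snd) (fun p => E p.fst) =
      hc G (fun p => E' p.snd) (fun p => E p.snd) :=
    hc_congr G (fun _ _ _ _ e => congrArg Prod.fst e) (fun _ _ _ _ e => congrArg Prod.fst e)
      (fun p q hp hq e => by
        have e' : E p.snd = E q.snd := e
        change E p.fst = E q.fst
        rw [b p hp, b q hq, e'])
      (fun p q hp hq e => by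
        have e' : E p.fst = E q.fst := e
        change E p.snd = E q.snd
        rw [← b p hp, ← b q hq, e'])
  have a4 : hc G (fun p => E' p.snd) (fun p => S 0 p.fst) ≤
      hc G (fun p => E' p.snd) (fun p => E p.fst) + c0 := by
    have b1 := H833.hc_le_near G (fun p => E' p.snd) (fun p => E p.fst) (fun p => S 0 p.fst)
    have b2 : hc G (fun p => E' p.snd) (fun p => (S 0 p.fst, E p.fst)) ≤
        hc G (fun p => E' p.snd) (fun p => E p.fst) :=
      hc_mono_right G _ fun _ _ _ _ e => congrArg Prod.snd e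
    have b3 : hc G (fun p => E p.fst) (fun p => S 0 p.fst) = hc P E (S 0) := two_hc P K _ _
    linarith
  have a5 : ∑ w ∈ range N, (mi G (fun p => E' p.snd) (fun p => S (w + 1) p.fst)
      (fun p => S w p.fst) - ν w) + hc G (fun p => E' p.snd) (fun p => S N p.fst) ≤
      hc G (fun p => E' p.snd) (fun p => S 0 p.fst) := by
    have b1 : ∀ w ∈ range N, mi G (fun p => E' p.snd) (fun p => S (w + 1) p.fst)
        (fun p => S w p.fst) - ν w ≤ hc G (fun p => E' p.snd) (fun p => S w p.fst) -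
        hc G (fun p => E' p.snd) (fun p => S (w + 1) p.fst) := by
      intro w hw
      have b2 := H833.mi_near G (fun p => E' p.snd) (fun p => S w p.fst) (fun p => S (w + 1) p.fst)
      have b3 : hc G (fun p => S w p.fst) (fun p => S (w + 1) p.fst) = hc P (S w) (S (w + 1)) :=
        two_hc P K _ _
      have b4 := h1 w (Finset.mem_range.1 hw)
      linarith
    have b6 := Finset.sum_le_sum b1
    rw [Finset.sum_range_sub' (fun w => hc G (fun p => E' p.snd) (fun p => S w p.fst)) N] at b6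
    linarith
  have a6 : ∑ w ∈ range N, (hc P (X w) (fun ω => (T' w ω, S w ω)) - e w - ν w) ≤
      ∑ w ∈ range N, (mi G (fun p => E' p.snd) (fun p => S (w + 1) p.fst)
      (fun p => S w p.fst) - ν w) := by
    refine Finset.sum_le_sum fun w hw => ?_
    have hw' := Finset.mem_range.1 hw
    have c1 : hc G (fun p => X w p.fst) (fun p => (T' w p.fst, S w p.fst)) =
        hc P (X w) (fun ω => (T' w ω, S w ω)) := two_hc P K _ (fun ω => (T' w ω, S w ω))
    have c2 := he w hw'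
    have c3 : mi G (fun p => E' p.snd) (fun p => (T' w p.fst, X w p.fst)) (fun p => S w p.fst) ≤
        mi G (fun p => E' p.snd) (fun p => S (w + 1) p.fst) (fun p => S w p.fst) := by
      refine mi_mono_right G _ fun p q hp hq e => ?_
      simp only [Prod.mk.injEq] at e
      exact h2 w hw' p.fst q.fst (two_supp hp).1 (two_supp hq).1 e.1
    have c4 := mi_pair G (fun p => E' p.snd) (fun p => T' w p.fst) (fun p => X w p.fst)
      (fun p => S w p.fst)
    have c5 := mi_nonneg G (fun p => E' p.snd) (fun p => T' w p.fst) (fun p => S w p.fst)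
    have c6 : mi G (fun p => E' p.snd) (fun p => X w p.fst) (fun p => (T' w p.fst, S w p.fst)) =
        mi G (fun p => X w p.fst) (fun p => E' p.snd) (fun p => (T' w p.fst, S w p.fst)) :=
      mi_symm G _ _ _
    have c7 : mi G (fun p => X w p.fst) (fun p => E' p.snd) (fun p => (T' w p.fst, S w p.fst)) =
        hc G (fun p => X w p.fst) (fun p => (T' w p.fst, S w p.fst)) -
        hc G (fun p => X w p.fst) (fun p => (E' p.snd, (T' w p.fst, S w p.fst))) := rfl
    linarith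
  linarith

/-- few values outside a small event, local support -/
theorem hc_exc_loc (X : Ω → S) (Y : Ω → T) (bad : Ω → Prop) (N N' : ℕ) (hN : 1 ≤ N) (hN' : 1 ≤ N')
    (h1 : ∀ y, ∃ U : Finset S, U.card ≤ N' ∧ ∀ ω, 0 < P.w ω → ¬ bad ω → Y ω = y → X ω ∈ U)
    (h2 : ∀ ω, 0 < P.w ω → ∃ F : Finset S, F.card ≤ N ∧
      ∀ ω', 0 < P.w ω' → Y ω' = Y ω → X ω' ∈ F) :
    hc P X Y ≤ Real.log N' + (2 * Real.sqrt (prE P bad) + prE P bad * Real.log N) := by
  classical
  choose U hU1 hU2 using h1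
  set Z : Ω → Option S := fun ω => if X ω ∈ U (Y ω) then some (X ω) else
    (if h : (U (Y ω)).Nonempty then some h.choose else none) with hZ
  have e1 : hc P Z Y ≤ Real.log N' := by
    refine hc_le_log P Z Y N' fun ω _ => ?_
    by_cases h : (U (Y ω)).Nonempty
    · refine ⟨(U (Y ω)).image some, Finset.card_image_le.trans (hU1 _), fun ω' _ e => ?_⟩
      rw [hZ]
      simp only
      rw [e]
      by_cases h3 : X ω' ∈ U (Y ω)
      · rw [if_pos h3]
        exact Finset.mem_image_of_mem _ h3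
      · rw [if_neg h3, dif_pos h]
        exact Finset.mem_image_of_mem _ h.choose_spec
    · refine ⟨{none}, by simpa using hN', fun ω' _ e => ?_⟩
      rw [hZ]
      simp only
      rw [e]
      have h3 : ¬ X ω' ∈ U (Y ω) := fun h4 => h ⟨_, h4⟩
      rw [if_neg h3, dif_neg h]
      exact Finset.mem_singleton_self _
  have e2 : hc P X (fun ω => (Z ω, Y ω)) ≤
      2 * Real.sqrt (prE P bad) + prE P bad * Real.log N := by
    refine Vale.Agent.P127.U.CellE.hc_bad P X (fun ω => (Z ω, Y ω)) bad N hN ?_ ?_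
    · intro ω ω' p p' b b' e
      simp only [Prod.mk.injEq] at e
      have g1 := hU2 (Y ω) ω p b rfl
      have g2 := hU2 (Y ω') ω' p' b' rfl
      have g3 : Z ω = some (X ω) := by rw [hZ]; simp only; rw [if_pos g1]
      have g4 : Z ω' = some (X ω') := by rw [hZ]; simp only; rw [if_pos g2]
      rw [g3, g4] at e
      exact Option.some_injective _ e.1
    · intro ω p
      obtain ⟨F, hF, hF'⟩ := h2 ω p
      refine ⟨F, hF, fun ω' p' e => hF' ω' p' ?_⟩
      simp only [Prod.mk.injEq] at e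
      exact e.2
  have e3 := hc_le_add' P X Z Y
  linarith

end

section

variable {Ω τ : Type} (C : Pth Ω τ)

theorem q2_split (n m : ℕ) : q2 n = 2 ^ m * q2 (n + m) := by
  rw [q2_add, mul_left_comm, Vale.Agent.P127.U.CellD.q2_mul_pow, mul_one]

/-- the next position takes few values given the cell -/
theorem vz_card {k b m : ℕ} (ham : C.a (k + 1) = C.a k + m) (hb : C.μ ≤ b) (r : Ω) :
    ∃ F : Finset (ℤ × ℤ), F.card ≤ 45 * 2 ^ (2 * m + 2 * C.μ) ∧ ∀ ω, td C (k + 1) ω = td C (k + 1) r →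
      C.cell k b ω = C.cell k b r → C.VZ k b ω = C.VZ k b r → C.VZ (k + 1) b ω ∈ F := by
  classical
  set x0 := (C.VZ (k + 1) b r).1 with hx0
  set z0 := (C.VZ (k + 1) b r).2 with hz0
  refine ⟨(Icc (x0 - (2 * 2 ^ m : ℕ)) (x0 + (2 * 2 ^ m : ℕ))) ×ˢ
    (Icc (z0 - (4 * 2 ^ (m + 2 * C.μ) : ℕ)) (z0 + (4 * 2 ^ (m + 2 * C.μ) : ℕ))), ?_, ?_⟩
  · rw [Finset.card_product, Int.card_Icc, Int.card_Icc]
    have e1 : (x0 + (2 * 2 ^ m : ℕ) + 1 - (x0 - (2 * 2 ^ m : ℕ))).toNat = 4 * 2 ^ m + 1 := by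
      have : x0 + (2 * 2 ^ m : ℕ) + 1 - (x0 - (2 * 2 ^ m : ℕ)) = ((4 * 2 ^ m + 1 : ℕ) : ℤ) := by
        push_cast; ring
      rw [this]; rfl
    have e2 : (z0 + (4 * 2 ^ (m + 2 * C.μ) : ℕ) + 1 - (z0 - (4 * 2 ^ (m + 2 * C.μ) : ℕ))).toNat =
        8 * 2 ^ (m + 2 * C.μ) + 1 := by
      have : z0 + (4 * 2 ^ (m + 2 * C.μ) : ℕ) + 1 - (z0 - (4 * 2 ^ (m + 2 * C.μ) : ℕ)) =
          ((8 * 2 ^ (m + 2 * C.μ) + 1 : ℕ) : ℤ) := by
        push_cast; ring
      rw [this]; rfl
    rw [e1, e2]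
    have h1 : 1 ≤ 2 ^ m := Nat.one_le_two_pow
    have h2 : 1 ≤ 2 ^ (m + 2 * C.μ) := Nat.one_le_two_pow
    calc (4 * 2 ^ m + 1) * (8 * 2 ^ (m + 2 * C.μ) + 1)
        ≤ (5 * 2 ^ m) * (9 * 2 ^ (m + 2 * C.μ)) := Nat.mul_le_mul (by omega) (by omega)
      _ = 45 * 2 ^ (2 * m + 2 * C.μ) := by
          rw [show 2 * m + 2 * C.μ = m + (m + 2 * C.μ) by ring, pow_add 2 m (m + 2 * C.μ)]
          ring
  · intro ω hT hc hvz
    have hsk : C.s k ω = C.s k r := s_congr (cell_T hc)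
    have hss : C.s (k + 1) ω = C.s (k + 1) r := s_td hT
    set s := C.s (k + 1) r with hs
    set l := C.l ω with hl
    set lr := C.l r with hlr
    have hδ : |s - C.s k r| ≤ q2 (C.a k) := rd_sub (C.ha (Nat.le_succ k)) _
    have hv : |l.v - lr.v| ≤ q2 b := fl1_close (cell_v hc)
    have hw : |l.w - lr.w| ≤ q2 (b - C.μ) := by
      have := cell_va hc 1
      simpa [Pth.lv, Pth.va] using this
    have hrv : rd b l.v = rd b lr.v := by
      unfold rd
      rw [cell_v hc]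
    have hrw : C.ro 1 (b - C.μ) l.w = C.ro 1 (b - C.μ) lr.w := row_congr hc
    have hX : |l.X (C.s k r) - lr.X (C.s k r)| ≤ q2 (C.a k + b) := by
      have := congrArg Prod.fst hvz
      simp only [Pth.VZ] at this
      rw [hsk] at this
      exact fl1_close this
    have hZ : |C.Zs b (C.s k r) ω - C.Zs b (C.s k r) r| ≤ q2 (C.a k + 2 * b) := by
      have := congrArg Prod.snd hvz
      simp only [Pth.VZ] at this
      rw [hsk] at this
      exact fl1_close this
    have hA : |lr.v - rd b lr.v| ≤ q2 b := by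
      rw [abs_sub_comm]; exact rd_err _ _
    have hB : |lr.w - C.ro 1 (b - C.μ) lr.w| ≤ q2 (b - C.μ) := by
      rw [abs_sub_comm]; exact ro_err _ _ _
    have eX : l.X s - lr.X s = (l.X (C.s k r) - lr.X (C.s k r)) + (s - C.s k r) * (l.v - lr.v) := by
      unfold Ray.X; ring
    have eZ : C.Zs b s ω - C.Zs b s r = (C.Zs b (C.s k r) ω - C.Zs b (C.s k r) r) +
        (s - C.s k r) * (((l.v - lr.v) ^ 2 + (l.w - lr.w) ^ 2) / 2 + (lr.v - rd b lr.v) * (l.v - lr.v) +
          (lr.w - C.ro 1 (b - C.μ) lr.w) * (l.w - lr.w)) := by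
      unfold Pth.Zs
      rw [hrv, hrw]
      unfold Ray.Z Ray.X Ray.N
      ring
    have hb1 : q2 b ≤ q2 (b - C.μ) := q2_le (by omega)
    have hb0 : 0 < q2 b := q2_pos _
    have kX : |l.X s - lr.X s| ≤ ((2 * 2 ^ m : ℕ) : ℝ) * q2 (C.a (k + 1) + b) := by
      rw [eX]
      refine (abs_add_le _ _).trans ?_
      have h1 := mul_bd hδ hv
      rw [← q2_add] at h1
      have h2 : q2 (C.a k + b) = 2 ^ m * q2 (C.a (k + 1) + b) := by
        rw [q2_split (C.a k + b) m, ham]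
        congr 2
        omega
      push_cast
      linarith
    have kZ : |C.Zs b s ω - C.Zs b s r| ≤ ((4 * 2 ^ (m + 2 * C.μ) : ℕ) : ℝ) *
        q2 (C.a (k + 1) + 2 * b) := by
      rw [eZ]
      refine (abs_add_le _ _).trans ?_
      have q1 : |(l.v - lr.v) ^ 2 + (l.w - lr.w) ^ 2| ≤ 2 * q2 (b - C.μ) ^ 2 := by
        have g1 := sq_bd hv
        have g2 := sq_bd hw
        have g3 : q2 b ^ 2 ≤ q2 (b - C.μ) ^ 2 := pow_le_pow_left₀ hb0.le hb1 2
        rw [abs_of_nonneg (by positivity)]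
        linarith
      have q1' : |((l.v - lr.v) ^ 2 + (l.w - lr.w) ^ 2) / 2| ≤ q2 (b - C.μ) ^ 2 := by
        rw [abs_div, abs_of_pos (by norm_num : (0 : ℝ) < 2)]
        linarith
      have q3 : |(lr.v - rd b lr.v) * (l.v - lr.v)| ≤ q2 (b - C.μ) ^ 2 := by
        rw [pow_two]
        exact mul_bd (hA.trans hb1) (hv.trans hb1)
      have q4 : |(lr.w - C.ro 1 (b - C.μ) lr.w) * (l.w - lr.w)| ≤ q2 (b - C.μ) ^ 2 := by
        rw [pow_two]
        exact mul_bd hB hw
      have q5 := abs4 q1' q3 q4 (abs_zero.le)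
      rw [add_zero] at q5
      have q6 := mul_bd hδ q5
      have e1 : q2 (C.a k) * (q2 (b - C.μ) ^ 2 + q2 (b - C.μ) ^ 2 + q2 (b - C.μ) ^ 2 + 0) =
          3 * (q2 (C.a k) * q2 (b - C.μ) ^ 2) := by ring
      rw [e1] at q6
      have e2 : q2 (C.a k) * q2 (b - C.μ) ^ 2 = 2 ^ (m + 2 * C.μ) * q2 (C.a (k + 1) + 2 * b) := by
        rw [pow_two, ← q2_add, ← q2_add, q2_split _ (m + 2 * C.μ), ham]
        congr 2
        omega
      have e3 : q2 (C.a k + 2 * b) ≤ q2 (C.a k) * q2 (b - C.μ) ^ 2 := by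
        rw [pow_two, ← q2_add, ← q2_add]
        exact q2_le (by omega)
      rw [e2] at q6 e3
      push_cast
      linarith
    have b1 := fl1_bd kX
    have b2 := fl1_bd kZ
    rw [abs_le] at b1 b2
    have f1 : (C.VZ (k + 1) b ω).1 = fl1 (C.a (k + 1) + b) (l.X s) := by
      unfold Pth.VZ; rw [hss]
    have f2 : (C.VZ (k + 1) b ω).2 = fl1 (C.a (k + 1) + 2 * b) (C.Zs b s ω) := by
      unfold Pth.VZ; rw [hss]
    have f3 : x0 = fl1 (C.a (k + 1) + b) (lr.X s) := rfl
    have f4 : z0 = fl1 (C.a (k + 1) + 2 * b) (C.Zs b s r) := rfl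
    rw [Finset.mem_product, Finset.mem_Icc, Finset.mem_Icc, f1, f2, f3, f4]
    refine ⟨⟨?_, ?_⟩, ?_, ?_⟩
    · linarith [b1.1]
    · linarith [b1.2]
    · linarith [b2.1]
    · linarith [b2.2]

end

section

variable {Ω τ χ : Type} [Fintype Ω] (P : Law Ω) (C : Pth Ω τ)

/-- the exceptional event of the strip -/
def sbad (K : ℝ) (i i' k b m' : ℕ) {X : Ω → χ} (p : Law.GT X X) : Prop :=
  ¬ (C.Ok K p.fst ∧ C.Ok K p.snd ∧ DifK C i i' k b m' p.fst p.snd)

/-- **strip count**, entropy form -/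
theorem strip_hc {K : ℝ} (hK : 1 ≤ K) {i i' k b m m' : ℕ} (hL : SLv C i i' k b m m')
    (hμ : 40 * K ^ 2 * q2 C.μ ≤ (1 / 4 : ℝ) ^ m) (X : Ω → χ)
    (hX : ∀ ω ω', 0 < P.w ω → 0 < P.w ω' → X ω = X ω' → C.l ω = C.l ω' ∧ C.T i ω = C.T i ω') :
    hc (two P X) (fun p => C.VZ (k + 1) b p.fst)
      (fun p => (C.cell i' b p.snd, (td C (k + 1) p.fst, (C.cell k b p.fst, C.VZ k b p.fst)))) ≤
    Real.log (9540 * 2 ^ m : ℕ) + (2 * Real.sqrt (prE (two P X) (sbad C K i i' k b m')) +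
      prE (two P X) (sbad C K i i' k b m') * Real.log (45 * 2 ^ (2 * m + 2 * C.μ) : ℕ)) := by
  refine hc_exc_loc (two P X) _ _ (sbad C K i i' k b m') _ _ ?_ ?_ ?_ ?_
  · have : 1 ≤ 2 ^ (2 * m + 2 * C.μ) := Nat.one_le_two_pow
    omega
  · have : 1 ≤ 2 ^ m := Nat.one_le_two_pow
    omega
  · intro y
    obtain ⟨U, hU, hU'⟩ := strip_cell hK hL hμ y
      (fun ω0 ω1 => (C.cell i' b ω1, (td C (k + 1) ω0, (C.cell k b ω0, C.VZ k b ω0))))
      (fun ω0 ω1 ω0' ω1' e => by
        simp only [Prod.mk.injEq] at e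
        exact ⟨e.1, e.2.1, e.2.2.1, e.2.2.2⟩)
    refine ⟨U, hU, fun p hp hb e => ?_⟩
    have h1 := hX _ _ (two_supp hp).1 (two_supp hp).2 p.eq
    unfold sbad at hb
    rw [not_not] at hb
    exact hU' p.fst p.snd e h1.1 h1.2 hb.1 hb.2.1 hb.2.2
  · intro p _
    obtain ⟨F, hF, hF'⟩ := vz_card C (b := b) hL.am (by have := hL.hb; omega) p.fst
    refine ⟨F, hF, fun p' _ e => ?_⟩
    simp only [Prod.mk.injEq] at e
    exact hF' p'.fst e.2.1 e.2.2.1 e.2.2.2

/-- **RISE** in the cells of the path -/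
theorem rise_cell {K : ℝ} (hK : 1 ≤ K) {i i' b m m' N : ℕ} (κ : ℕ → ℕ)
    (hκ : ∀ w < N, SLv C i i' (κ w) b m m')
    (hκ1 : ∀ w < N, κ w + 1 ≤ κ (w + 1) ∧ C.a (κ (w + 1)) = C.a (κ w + 1))
    (hμ : 40 * K ^ 2 * q2 C.μ ≤ (1 / 4 : ℝ) ^ m) (X : Ω → χ)
    (hX : ∀ ω ω', 0 < P.w ω → 0 < P.w ω' → X ω = X ω' → C.l ω = C.l ω' ∧ C.T i ω = C.T i ω')
    (hE : Fn P (C.cell i b) X) {c0 ν η : ℝ} {u : ℕ → ℝ}
    (h0 : hc P (C.cell i b) (fun ω => (C.cell (κ 0) b ω, C.VZ (κ 0) b ω)) ≤ c0)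
    (h1 : ∀ w < N, hc P (fun ω => (C.cell (κ w) b ω, C.VZ (κ w) b ω))
      (fun ω => (C.cell (κ (w + 1)) b ω, C.VZ (κ (w + 1)) b ω)) ≤ ν)
    (hV : ∀ w < N, 2 * (m * Real.log 2) - u w ≤ hc P (C.VZ (κ w + 1) b)
      (fun ω => (td C (κ w + 1) ω, (C.cell (κ w) b ω, C.VZ (κ w) b ω))))
    (hb : ∀ w < N, prE (two P X) (sbad C K i i' (κ w) b m') ≤ η) :
    (N : ℝ) * (m * Real.log 2) - ∑ w ∈ range N, u w - N * (Real.log 9540 + 2 * Real.sqrt η +
      η * (Real.log 45 + (2 * m + 2 * C.μ) * Real.log 2) + ν) - c0 +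
      hc (two P X) (fun p => C.cell i' b p.snd) (fun p => (C.cell (κ N) b p.fst, C.VZ (κ N) b p.fst)) ≤
      hc P (C.cell i' b) (C.cell i b) := by
  have hl2 : 0 ≤ Real.log 2 := Real.log_nonneg (by norm_num)
  have hTm : ∀ {j j' : ℕ}, j ≤ j' → ∀ ω ω', C.T j' ω = C.T j' ω' → C.T j ω = C.T j ω' := by
    intro j j' h
    induction j', h using Nat.le_induction with
    | base => intro ω ω' e; exact e
    | succ j' _ ih => intro ω ω' e; exact ih ω ω' (C.hT _ _ _ e)
  have key := rise_end P X (C.cell i b) (C.cell i' b)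
    (fun w ω => (C.cell (κ w) b ω, C.VZ (κ w) b ω)) (fun w => C.VZ (κ w + 1) b)
    (fun w => td C (κ w + 1)) N (c0 := c0) (ν := fun _ => ν)
    (e := fun _ => Real.log (9540 * 2 ^ m : ℕ) + (2 * Real.sqrt η +
      η * Real.log (45 * 2 ^ (2 * m + 2 * C.μ) : ℕ))) hE h0 h1 (by
      intro w hw ω ω' _ _ e
      simp only [Prod.mk.injEq] at e ⊢
      have e1 := cell_T e.1
      refine ⟨td_of_T (hTm (hκ1 w hw).1 ω ω' e1), ?_⟩
      have e2 := e.2
      have s1 : ∀ ω : Ω, C.s (κ w + 1) ω = C.s (κ (w + 1)) ω := by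
        intro ω
        unfold Pth.s
        rw [(hκ1 w hw).2]
      unfold Pth.VZ at e2 ⊢
      rw [s1, s1, ← (hκ1 w hw).2]
      exact e2) (by
      intro w hw
      refine (strip_hc P C hK (hκ w hw) hμ X hX).trans ?_
      have hp := hb w hw
      have hp0 : 0 ≤ prE (two P X) (sbad C K i i' (κ w) b m') := prE_nonneg _ _
      have g1 := Real.sqrt_le_sqrt hp
      have g2 : 0 ≤ Real.log (45 * 2 ^ (2 * m + 2 * C.μ) : ℕ) := Real.log_nonneg (by
        have : 1 ≤ 45 * 2 ^ (2 * m + 2 * C.μ) := by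
          have : 1 ≤ 2 ^ (2 * m + 2 * C.μ) := Nat.one_le_two_pow
          omega
        exact_mod_cast this)
      have g3 := mul_le_mul_of_nonneg_right hp g2
      linarith)
  refine le_trans ?_ key
  have e1 : Real.log (9540 * 2 ^ m : ℕ) = Real.log 9540 + m * Real.log 2 := by
    push_cast
    rw [Real.log_mul (by norm_num) (by positivity), Real.log_pow]
  have e2 : Real.log (45 * 2 ^ (2 * m + 2 * C.μ) : ℕ) =
      Real.log 45 + (2 * m + 2 * C.μ) * Real.log 2 := by
    push_cast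
    rw [Real.log_mul (by norm_num) (by positivity), Real.log_pow]
    push_cast
    ring
  have h3 : ∑ w ∈ range N, ((m * Real.log 2 - u w) - (Real.log 9540 + 2 * Real.sqrt η +
      η * (Real.log 45 + (2 * m + 2 * C.μ) * Real.log 2) + ν)) ≤
      ∑ w ∈ range N, (hc P (C.VZ (κ w + 1) b) (fun ω => (td C (κ w + 1) ω,
        (C.cell (κ w) b ω, C.VZ (κ w) b ω))) - (Real.log (9540 * 2 ^ m : ℕ) + (2 * Real.sqrt η +
      η * Real.log (45 * 2 ^ (2 * m + 2 * C.μ) : ℕ))) - ν) := by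
    refine Finset.sum_le_sum fun w hw => ?_
    have h4 := hV w (Finset.mem_range.1 hw)
    rw [e1, e2]
    linarith
  rw [Finset.sum_sub_distrib, Finset.sum_sub_distrib, Finset.sum_const, Finset.sum_const, card_range,
    nsmul_eq_mul, nsmul_eq_mul] at h3
  linarith

end

end Vale.Agent.P106.U.H118
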