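import Vale.Agent.P106.U.H118.Rise
import Vale.Agent.P127.U.Mic.CountW
import Vale.Agent.P127.Stk.LibDom

/-!
# P106 / U / H118 : the RISE (RUN) lemma over `Mic.Dat` (helper118)

`C j` the cells, `T j` the path information (`P127.U.Mic.Dat`), copies given `(l, C i)`.  The later path is cut
in windows `σ w ≤ σ (w+1)`, `w < V`, `σ 0 ≥ i'`; `X w` = all the (V,Z)-digits counted in the window `w`, a
function of `(T (σ (w+1)), C (σ (w+1)))`.

* `rise_dat` : if, given the cell `C i'` of the second copy, the digits `X w` of the first copy are confined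
  (`≤ e w`), then `∑ (H(X w | T (σ (w+1)), C (σ w)) - e w) - H(T i' | l, T i) ≤ I(l ; C i' | C i)`.
* `conf` : `e w` from a count of values outside an event.
-/

set_option autoImplicit false

namespace Vale.Agent.P106.U.H118

open Finset Vale.Agent.P127 Vale.Agent.P127.Stk Vale.Agent.P127.U.Cell Vale.Agent.P127.U.Mic

variable {Ω : Type} [Fintype Ω] {lam tau kap S T U : Type*}

/-- the cell costs no more than the path, given the line -/
theorem cell_cost {P : Law Ω} {l : Ω → lam} {T : ℕ → Ω → tau} {C : ℕ → Ω → kap} (d : Dat P l T C)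
    (i i' : ℕ) : hc P (C i') (fun ω => (l ω, C i ω)) ≤ hc P (T i') (fun ω => (l ω, T i ω)) := by
  have h1 : hc P (C i') (fun ω => (l ω, C i ω)) ≤ hc P (T i') (fun ω => (l ω, C i ω)) := by
    refine hc_mono_left P ?_
    intro ω ω' p p' e
    simp only [Prod.mk.injEq] at e
    exact d.Cl i' ω ω' p p' (Prod.ext e.2.1 e.1)
  refine h1.trans (hc_mono_right P _ ?_)
  intro ω ω' p p' e
  simp only [Prod.mk.injEq] at e ⊢
  exact ⟨e.1, d.TC i ω ω' p p' e.2⟩

/-- **RISE / RUN lemma** over `Dat` -/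
theorem rise_dat {P : Law Ω} {l : Ω → lam} {T : ℕ → Ω → tau} {C : ℕ → Ω → kap} (d : Dat P l T C)
    {χ : ℕ → Type*} {i i' : ℕ} (hi : i ≤ i') (σ : ℕ → ℕ) (hσ0 : i' ≤ σ 0)
    (hσ : ∀ w, σ w ≤ σ (w + 1)) (V : ℕ) (X : ∀ w, Ω → χ w)
    (hX : ∀ w < V, Fn P (X w) (fun ω => (T (σ (w + 1)) ω, C (σ (w + 1)) ω))) (e : ℕ → ℝ)
    (he : ∀ w < V, hc (two P fun ω => (l ω, C i ω)) (fun p => X w p.fst)
      (fun p => (C i' p.snd, (T (σ (w + 1)) p.fst, C (σ w) p.fst))) ≤ e w) :
    ∑ w ∈ range V, (hc P (X w) (fun ω => (T (σ (w + 1)) ω, C (σ w) ω)) - e w) -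
      hc P (T i') (fun ω => (l ω, T i ω)) ≤ mi P l (C i') (C i) := by
  have hm : ∀ w, i' ≤ σ w := by
    intro w
    induction w with
    | zero => exact hσ0
    | succ w ih => exact ih.trans (hσ w)
  set K : Ω → lam × kap := fun ω => (l ω, C i ω) with hK
  set G := two P K with hG
  have a1 : mi P l (C i') (C i) = hc P (C i') (C i) - hc P (C i') (fun ω => (l ω, C i ω)) := by
    rw [mi_symm]; rfl
  have a2 : hc P (C i') (C i) = hc G (fun p => C i' p.snd) (fun p => C i p.snd) := (two_hc' P K _ _).symm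
  have a3 : hc G (fun p => C i' p.snd) (fun p => C i' p.fst) ≤
      hc G (fun p => C i' p.snd) (fun p => C i p.snd) := by
    refine hc_mono_right G _ fun p q hp hq e => ?_
    have b1 : C i p.fst = C i q.fst := d.CC hi _ _ (two_supp hp).1 (two_supp hq).1 e
    have b2 : C i p.fst = C i p.snd := congrArg Prod.snd p.eq
    have b3 : C i q.fst = C i q.snd := congrArg Prod.snd q.eq
    show C i p.snd = C i q.snd
    rw [← b2, ← b3, b1]
  have a4 : mi G (fun p => C i' p.snd) (fun p => C (σ V) p.fst) (fun p => C i' p.fst) ≤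
      hc G (fun p => C i' p.snd) (fun p => C i' p.fst) := mi_le_hc G _ _ _
  have a5 := chain_mi G (fun p => C i' p.snd) (fun w p => C (σ w) p.fst) (fun w p => X w p.fst)
    (fun w p => T (σ (w + 1)) p.fst) 0 V (Nat.zero_le _)
    (fun w _ _ => Fn.fst (d.CC (hσ w)))
    (fun w _ hw => Fn.fst (X := fun ω => (T (σ (w + 1)) ω, X w ω)) (Y := C (σ (w + 1)))
      (fun ω ω' p p' e => Prod.ext (d.TC _ ω ω' p p' e)
      (hX w hw ω ω' p p' (Prod.ext (d.TC _ ω ω' p p' e) e)))) (range V) (by
        intro k hk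
        rw [Finset.mem_range] at hk
        exact Finset.mem_Ico.2 ⟨Nat.zero_le _, hk⟩)
  -- from `C (σ 0)` to `C i'`
  have a5' : mi G (fun p => C i' p.snd) (fun p => C (σ V) p.fst) (fun p => C (σ 0) p.fst) ≤
      mi G (fun p => C i' p.snd) (fun p => C (σ V) p.fst) (fun p => C i' p.fst) := by
    have hv : ∀ w, σ 0 ≤ σ w := by
      intro w
      induction w with
      | zero => exact le_rfl
      | succ w ih => exact ih.trans (hσ w)
    have f1 : Fn G (fun p => C (σ 0) p.fst) (fun p => C (σ V) p.fst) := Fn.fst (d.CC (hv V))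
    have f2 : Fn G (fun p => C i' p.fst) (fun p => C (σ 0) p.fst) := Fn.fst (d.CC hσ0)
    have g1 := mi_cond_le G (X := fun p => C (σ V) p.fst) (fun p => C i' p.snd)
      (W := fun p => C (σ 0) p.fst) (fun p => C i' p.fst)
      (fun p q hp hq e => f1 p q hp hq (congrArg Prod.fst e))
    have g2 : mi G (fun p => C i' p.snd) (fun p => C (σ V) p.fst)
        (fun p => (C (σ 0) p.fst, C i' p.fst)) ≤
        mi G (fun p => C i' p.snd) (fun p => C (σ V) p.fst) (fun p => C i' p.fst) := by
      have e1 := mi_symm G (fun p => C i' p.snd) (fun p => C (σ V) p.fst)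
        (fun p => (C (σ 0) p.fst, C i' p.fst))
      have e2 := mi_symm G (fun p => C i' p.snd) (fun p => C (σ V) p.fst) (fun p => C i' p.fst)
      rw [e1, e2]
      exact g1
    have g3 : mi G (fun p => C i' p.snd) (fun p => C (σ V) p.fst)
        (fun p => (C (σ 0) p.fst, C i' p.fst)) =
        mi G (fun p => C i' p.snd) (fun p => C (σ V) p.fst) (fun p => C (σ 0) p.fst) :=
      mi_congr_cond G _ _ (fun p q hp hq e => Prod.ext e (f2 p q hp hq e))
        (fun p q _ _ e => congrArg Prod.fst e)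
    rw [g3] at g2
    exact g2
  have a6 : ∑ w ∈ range V, (hc P (X w) (fun ω => (T (σ (w + 1)) ω, C (σ w) ω)) - e w) ≤
      ∑ w ∈ range V, mi G (fun p => C i' p.snd) (fun p => X w p.fst)
        (fun p => (T (σ (w + 1)) p.fst, C (σ w) p.fst)) := by
    refine Finset.sum_le_sum fun w hw => ?_
    rw [mi_symm]
    have c1 : hc G (fun p => X w p.fst) (fun p => (T (σ (w + 1)) p.fst, C (σ w) p.fst)) =
        hc P (X w) (fun ω => (T (σ (w + 1)) ω, C (σ w) ω)) :=
      two_hc P K _ (fun ω => (T (σ (w + 1)) ω, C (σ w) ω))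
    have c2 := he w (Finset.mem_range.1 hw)
    unfold mi
    rw [c1]
    linarith
  have a7 := cell_cost d i i'
  linarith

end Vale.Agent.P106.U.H118
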