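import Vale.Agent.P106.U.H118.RiseH

/-!
# P106 / U / H118 : RISE over mixed letters (helper118)

Letters `Y k` : the cell at the old levels, another letter (`Mtr` of helper785) at the young levels.

* `heavy_hcM`, `heavy_psiM`, `heavy_capM` : as in `RiseH` with the chain `(Y k, VZ k b)`; inputs: the `(V, Z)`-step over `Y`,
  near-nestedness of the chain (`ν + u2` of the level), the strip count `hS` for the two copies, the overhang.
-/

set_option autoImplicit false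

namespace Vale.Agent.P106.U.H118

open Finset Vale.Agent.P127 Vale.Agent.P127.Stk
open Vale.Agent.P127.U.CellD (q2 rd Nb q2_pos q2_add q2_le rd_err rd_sub)
open Vale.Agent.P106.U.Cell

section

variable {Ω τ Λ ζ : Type} [Fintype Ω] (P : Law Ω) (C : Pth Ω τ)

omit [Fintype Ω] in
theorem td_eq {k k' : ℕ} (h : C.a k = C.a k') (ω : Ω) : td C k ω = td C k' ω := by
  unfold td
  rw [h]

omit [Fintype Ω] in
theorem VZ_eq {k k' : ℕ} (h : C.a k = C.a k') (b : ℕ) (ω : Ω) : C.VZ k b ω = C.VZ k' b ω := by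
  unfold Pth.VZ Pth.s
  rw [h]

/-- **heavy interval** `[i, i1]`, mixed letters -/
theorem heavy_hcM {n m b A0 : ℕ} {a R : ℕ → ℕ} (hA : ∀ k ≤ n, C.a k = A0 + m * a k)
    (ha : ∀ k < n, a (k + 1) = a k ∨ a (k + 1) = a k + 1)
    {σ : Type} (Y : ℕ → Ω → σ) {χ : Type} (X : Ω → χ) {u1 u2 : ℕ → ℝ} {ν eS δ co c0 cE : ℝ}
    (hY : ∀ k ≤ n, Fn P (td C k) (Y k))
    (hV : ∀ k < n, a (k + 1) = a k + 1 → 2 * (m * Real.log 2) - u1 (a k) ≤ hc P (C.VZ (k + 1) b)
      (fun ω => (td C (k + 1) ω, (Y k ω, C.VZ k b ω))))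
    (hu1 : ∀ z, 0 ≤ u1 z) (hu2 : ∀ z, 0 ≤ u2 z)
    (hN : ∀ k k2, k < n → a (k + 1) = a k + 1 → k < k2 → k2 ≤ n → a k2 = a k + 1 →
      (k2 = n ∨ a (k2 + 1) = a k2 + 1) →
      hc P (fun ω => (Y k ω, C.VZ k b ω)) (fun ω => (Y k2 ω, C.VZ k2 b ω)) ≤ ν + u2 (a k))
    (hδ : eS + ν ≤ δ * (m * Real.log 2)) (hδ1 : δ ≤ 1) (hco : 0 ≤ co)
    {i i1 Kμ Kc : ℕ} (hi : i < i1) (hi1 : i1 ≤ n) (hRi : R i ≤ R i1)
    (hXC : Fn P (C.cell i b) X)
    (h0 : ∀ k, i < k → k ≤ n → hc P (C.cell i b) (fun ω => (Y k ω, C.VZ k b ω)) ≤ c0)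
    (hE : hc P (Y n) (fun ω => (C.cell n b ω, C.VZ n b ω)) ≤ cE)
    (hS : ∀ k, i1 ≤ k → k < n → a (k + 1) = a k + 1 → a i1 + Kμ ≤ a k → a k + Kc + R i < a i + R i1 →
      hc (two P X) (fun p => C.VZ (k + 1) b p.fst)
        (fun p => (C.cell i1 b p.snd, (td C (k + 1) p.fst, (Y k p.fst, C.VZ k b p.fst)))) ≤
        m * Real.log 2 + eS)
    (hov : a n + Kc + R i < a i + R i1 → ((a i : ℝ) + R i1 - R i - a n) * (m * Real.log 2) * (1 - δ) - co ≤
      hc (two P X) (fun p => C.cell i1 b p.snd)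
        (fun p => (C.cell n b p.fst, C.VZ n b p.fst))) :
    ((R i1 : ℝ) - R i - ((a i1 : ℝ) - a i) - Kμ - Kc) * (m * Real.log 2) * (1 - δ) -
      ∑ z ∈ Icc (a i) (a i + (R i1 - R i)), (u1 z + u2 z) - c0 - cE - co ≤
        hc P (C.cell i1 b) (C.cell i b) := by
  have hl2 : 0 ≤ Real.log 2 := Real.log_nonneg (by norm_num)
  set M : ℝ := m * Real.log 2 with hM
  have hM0 : 0 ≤ M := by positivity
  have hcE : 0 ≤ cE := (hc_nonneg P _ _).trans hE
  set κ : ℕ → ℕ := fun w => lst a n (a i1 + Kμ + w) with hκ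
  have ham : ∀ k k', k ≤ k' → k' ≤ n → a k ≤ a k' := by
    intro k k' h
    induction k', h using Nat.le_induction with
    | base => intro _; exact le_rfl
    | succ k' _ ih =>
      intro h2
      have h3 := ih (by omega)
      rcases ha k' (by omega) with h4 | h4 <;> omega
  have h00 : a 0 ≤ a i1 := ham 0 i1 (Nat.zero_le _) hi1
  have hai : a i ≤ a i1 := ham i i1 hi.le hi1
  -- the common step
  have main : ∀ N : ℕ, (∀ w < N, a i1 + Kμ + w < a n) →
      (∀ w < N, a i1 + Kμ + w + Kc + R i < a i + R i1) →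
      (N : ℝ) * M * (1 - δ) - ∑ z ∈ Icc (a i) (a i + (R i1 - R i)), (u1 z + u2 z) - c0 +
        hc (two P X) (fun p => C.cell i1 b p.snd)
          (fun p => (Y (κ N) p.fst, C.VZ (κ N) b p.fst)) ≤
        hc P (C.cell i1 b) (C.cell i b) := by
    intro N hN1 hN2
    have k1 : ∀ w < N, κ w < n ∧ a (κ w + 1) = a i1 + Kμ + w + 1 ∧ a (κ w) = a i1 + Kμ + w := by
      intro w hw
      have h1 := lst_step ha (by omega : a 0 ≤ a i1 + Kμ + w) (hN1 w hw)
      exact ⟨h1.1, h1.2, lst_eq ha (by omega) (hN1 w hw).le⟩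
    have k2 : ∀ w, i1 ≤ κ w := fun w => lst_max hi1 (by omega)
    have kn : ∀ w, κ w ≤ n := fun w => lst_le
    have k3 : ∀ w < N, κ w + 1 ≤ κ (w + 1) ∧ a (κ (w + 1)) = a i1 + Kμ + (w + 1) := by
      intro w hw
      obtain ⟨c1, c2, c3⟩ := k1 w hw
      have c4 : κ w + 1 ≤ κ (w + 1) := lst_max (by omega) (by rw [c2]; omega)
      exact ⟨c4, lst_eq ha (by omega) (by have := ham (κ w + 1) n c1 le_rfl; omega)⟩
    have k4 : ∀ w < N, C.a (κ (w + 1)) = C.a (κ w + 1) := by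
      intro w hw
      obtain ⟨c1, c2, c3⟩ := k1 w hw
      rw [hA _ (kn _), hA _ c1, (k3 w hw).2, c2]
      ring
    have key := rise_end P X (C.cell i b) (C.cell i1 b)
      (fun w ω => (Y (κ w) ω, C.VZ (κ w) b ω)) (fun w => C.VZ (κ w + 1) b)
      (fun w => td C (κ w + 1)) N (c0 := c0) (ν := fun w => ν + u2 (a i1 + Kμ + w)) (e := fun _ => M + eS)
      hXC (h0 (κ 0) (by have := k2 0; omega) (kn 0))
      (fun w hw => by
        obtain ⟨c1, c2, c3⟩ := k1 w hw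
        obtain ⟨c4, c5⟩ := k3 w hw
        have := hN (κ w) (κ (w + 1)) c1 (by omega) (by omega) (kn _) (by omega) (by
          rcases Nat.lt_or_ge (κ (w + 1)) n with c6 | c6
          · right
            have c7 := lst_next (a := a) (n := n) (z := a i1 + Kμ + (w + 1)) c6
            change a i1 + Kμ + (w + 1) < a (κ (w + 1) + 1) at c7
            rcases ha _ c6 with c8 | c8
            · omega
            · exact c8
          · left
            exact le_antisymm (kn _) c6)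
        rwa [c3] at this)
      (fun w hw ω ω' p p' e => by
        simp only [Prod.mk.injEq] at e ⊢
        have e1 := k4 w hw
        refine ⟨?_, ?_⟩
        · rw [← td_eq C e1 ω, ← td_eq C e1 ω']
          exact hY _ (kn _) ω ω' p p' e.1
        · rw [← VZ_eq C e1 b ω, ← VZ_eq C e1 b ω']
          exact e.2)
      (fun w hw => by
        obtain ⟨c1, c2, c3⟩ := k1 w hw
        have c4 := hN2 w hw
        exact hS (κ w) (k2 w) c1 (by omega) (by omega) (by omega))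
    have s1 : ∑ w ∈ range N, (u1 (a i1 + Kμ + w) + u2 (a i1 + Kμ + w)) ≤
        ∑ z ∈ Icc (a i) (a i + (R i1 - R i)), (u1 z + u2 z) := by
      rw [← Finset.sum_image (f := fun z => u1 z + u2 z) (g := fun w => a i1 + Kμ + w) (fun x _ y _ e => by
        have : a i1 + Kμ + x = a i1 + Kμ + y := e
        omega)]
      refine Finset.sum_le_sum_of_subset_of_nonneg ?_ fun z _ _ => add_nonneg (hu1 z) (hu2 z)
      intro z hz
      obtain ⟨w, hw, rfl⟩ := Finset.mem_image.1 hz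
      have c4 := hN2 w (Finset.mem_range.1 hw)
      rw [Finset.mem_Icc]
      omega
    have s2 : (N : ℝ) * (eS + ν) ≤ N * (δ * M) := mul_le_mul_of_nonneg_left hδ (Nat.cast_nonneg _)
    have s3 : ∑ w ∈ range N, ((2 * M - u1 (a i1 + Kμ + w)) - (M + eS) - (ν + u2 (a i1 + Kμ + w))) ≤
        ∑ w ∈ range N, (hc P (C.VZ (κ w + 1) b) (fun ω => (td C (κ w + 1) ω, (Y (κ w) ω, C.VZ (κ w) b ω))) -
          (M + eS) - (ν + u2 (a i1 + Kμ + w))) := by
      refine Finset.sum_le_sum fun w hw => ?_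
      obtain ⟨c1, c2, c3⟩ := k1 w (Finset.mem_range.1 hw)
      have := hV (κ w) c1 (by omega)
      rw [c3] at this
      linarith
    have s4 : ∑ w ∈ range N, ((2 * M - u1 (a i1 + Kμ + w)) - (M + eS) - (ν + u2 (a i1 + Kμ + w))) =
        N * M - N * (eS + ν) - ∑ w ∈ range N, (u1 (a i1 + Kμ + w) + u2 (a i1 + Kμ + w)) := by
      have : ∀ w ∈ range N, ((2 * M - u1 (a i1 + Kμ + w)) - (M + eS) - (ν + u2 (a i1 + Kμ + w))) =
          (M - (eS + ν)) - (u1 (a i1 + Kμ + w) + u2 (a i1 + Kμ + w)) := fun w _ => by ring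
      rw [Finset.sum_congr rfl this, Finset.sum_sub_distrib, Finset.sum_const, card_range, nsmul_eq_mul]
      ring
    have s5 : (N : ℝ) * M * (1 - δ) = N * M - N * (δ * M) := by ring
    rw [s5]
    linarith
  have hMδ : 0 ≤ M * (1 - δ) := mul_nonneg hM0 (by linarith)
  rcases Nat.lt_or_ge (a n + Kc + R i) (a i + R i1) with hc' | hc'
  · set N := a n - (a i1 + Kμ) with hN'
    have h1 := main N (fun w hw => by omega) (fun w hw => by omega)
    have h2 : κ N = n := lst_top (by omega)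
    rw [h2] at h1
    have h3 := hov hc'
    have h4 : (a n : ℝ) ≤ N + (a i1 + Kμ) := by
      have : a n ≤ N + (a i1 + Kμ) := by omega
      exact_mod_cast this
    have h5 : ((R i1 : ℝ) - R i - ((a i1 : ℝ) - a i) - Kμ - Kc) * (M * (1 - δ)) ≤
        (N + ((a i : ℝ) + R i1 - R i - a n)) * (M * (1 - δ)) := by
      refine mul_le_mul_of_nonneg_right ?_ hMδ
      have : (0 : ℝ) ≤ Kc := Nat.cast_nonneg _
      linarith
    -- the last letter
    set G := two P X with hG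
    have h6 := H833.hc_le_near G (fun p => C.cell i1 b p.snd) (fun p => Y n p.fst)
      (fun p => (C.cell n b p.fst, C.VZ n b p.fst))
    have h7 : hc G (fun p => C.cell i1 b p.snd)
        (fun p => ((C.cell n b p.fst, C.VZ n b p.fst), Y n p.fst)) ≤
        hc G (fun p => C.cell i1 b p.snd) (fun p => (Y n p.fst, C.VZ n b p.fst)) :=
      hc_mono_right G _ fun _ _ _ _ e => by
        simp only [Prod.mk.injEq] at e ⊢
        exact ⟨e.2, e.1.2⟩
    have h8 : hc G (fun p => Y n p.fst) (fun p => (C.cell n b p.fst, C.VZ n b p.fst)) =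
        hc P (Y n) (fun ω => (C.cell n b ω, C.VZ n b ω)) :=
      two_hc P X (Y n) (fun ω => (C.cell n b ω, C.VZ n b ω))
    linarith
  · set N := a i + R i1 - (R i + Kc) - (a i1 + Kμ) with hN'
    have h1 := main N (fun w hw => by omega) (fun w hw => by omega)
    have h3 := hc_nonneg (two P X) (fun p => C.cell i1 b p.snd)
      (fun p => (Y (κ N) p.fst, C.VZ (κ N) b p.fst))
    have h4 : (a i : ℝ) + R i1 ≤ N + (a i1 + Kμ) + (R i + Kc) := by
      have : a i + R i1 ≤ N + (a i1 + Kμ) + (R i + Kc) := by omega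
      exact_mod_cast this
    have h5 : ((R i1 : ℝ) - R i - ((a i1 : ℝ) - a i) - Kμ - Kc) * (M * (1 - δ)) ≤
        N * (M * (1 - δ)) := by
      refine mul_le_mul_of_nonneg_right ?_ hMδ
      linarith
    linarith

/-- **heavy interval** for the potential of helper833, mixed letters -/
theorem heavy_psiM {n m b A0 : ℕ} {a R : ℕ → ℕ} (hA : ∀ k ≤ n, C.a k = A0 + m * a k)
    (ha : ∀ k < n, a (k + 1) = a k ∨ a (k + 1) = a k + 1)
    (l : Ω → Λ) {Z : ℕ → Ω → ζ} (hZ : ∀ i < n, Fn P (Z i) (Z (i + 1)))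
    (hZT : ∀ i ≤ n, Fn P (C.T i) (Z i))
    {σ : Type} (Y : ℕ → Ω → σ) {χ : Type} (X : Ω → χ) {u1 u2 : ℕ → ℝ} {ν eS δ co c0 cE cN : ℝ}
    (hY : ∀ k ≤ n, Fn P (td C k) (Y k))
    (hV : ∀ k < n, a (k + 1) = a k + 1 → 2 * (m * Real.log 2) - u1 (a k) ≤ hc P (C.VZ (k + 1) b)
      (fun ω => (td C (k + 1) ω, (Y k ω, C.VZ k b ω))))
    (hu1 : ∀ z, 0 ≤ u1 z) (hu2 : ∀ z, 0 ≤ u2 z)
    (hN : ∀ k k2, k < n → a (k + 1) = a k + 1 → k < k2 → k2 ≤ n → a k2 = a k + 1 →
      (k2 = n ∨ a (k2 + 1) = a k2 + 1) →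
      hc P (fun ω => (Y k ω, C.VZ k b ω)) (fun ω => (Y k2 ω, C.VZ k2 b ω)) ≤ ν + u2 (a k))
    (hδ : eS + ν ≤ δ * (m * Real.log 2)) (hδ1 : δ ≤ 1) (hco : 0 ≤ co)
    {i i1 Kμ Kc : ℕ} (hi : i < i1) (hi1 : i1 ≤ n) (hRi : R i ≤ R i1)
    (hXC : Fn P (C.cell i b) X)
    (h0 : ∀ k, i < k → k ≤ n → hc P (C.cell i b) (fun ω => (Y k ω, C.VZ k b ω)) ≤ c0)
    (hE : hc P (Y n) (fun ω => (C.cell n b ω, C.VZ n b ω)) ≤ cE)
    (hC : hc P (C.cell i b) (C.cell i1 b) ≤ cN)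
    (hS : ∀ k, i1 ≤ k → k < n → a (k + 1) = a k + 1 → a i1 + Kμ ≤ a k → a k + Kc + R i < a i + R i1 →
      hc (two P X) (fun p => C.VZ (k + 1) b p.fst)
        (fun p => (C.cell i1 b p.snd, (td C (k + 1) p.fst, (Y k p.fst, C.VZ k b p.fst)))) ≤
        m * Real.log 2 + eS)
    (hov : a n + Kc + R i < a i + R i1 → ((a i : ℝ) + R i1 - R i - a n) * (m * Real.log 2) * (1 - δ) - co ≤
      hc (two P X) (fun p => C.cell i1 b p.snd)
        (fun p => (C.cell n b p.fst, C.VZ n b p.fst))) :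
    ((R i1 : ℝ) - R i - ((a i1 : ℝ) - a i) - Kμ - Kc) * (m * Real.log 2) * (1 - δ) -
      ∑ z ∈ Icc (a i) (a i + (R i1 - R i)), (u1 z + u2 z) - (c0 + cE + cN) - co -
      (m * Real.log 2) * ((a i1 : ℝ) - a i) -
      ∑ j ∈ Ico i i1, H833.qc P l Z (fun j ω => fl1 (C.a j) (C.t ω)) j ≤
      H833.psi P l Z (fun k => C.cell k b) i1 - H833.psi P l Z (fun k => C.cell k b) i := by
  have h1 := heavy_hcM P C hA ha Y X hY hV hu1 hu2 hN hδ hδ1 hco hi hi1 hRi hXC h0 hE hS hov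
  have h2 := H833.psi_sub P l Z (fun k => C.cell k b) (i := i) (k := i1) (H833.fn_chain P hZ hi.le hi1)
  have htT : ∀ j ≤ n, ∀ ω ω', 0 < P.w ω → 0 < P.w ω' → Z j ω = Z j ω' →
      fl1 (C.a j) (C.t ω) = fl1 (C.a j) (C.t ω') := by
    intro j hj ω ω' p p' e
    have e1 := hZT j hj ω ω' p p' e
    rw [← C.htm, ← C.htm, e1]
  have h4 := H833.cost_heavy P l (Z := Z) (tm := fun j ω => fl1 (C.a j) (C.t ω)) (n := n)
    (T := m * Real.log 2) (fun j hj => by
      rcases ha j hj with h5 | h5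
      · have e1 : C.a (j + 1) = C.a j := by rw [hA j (by omega), hA (j + 1) (by omega), h5]
        refine le_trans (le_of_eq (hc_zero P ?_)) (mul_nonneg (Nat.cast_nonneg _)
          (Real.log_nonneg (by norm_num)))
        intro ω ω' p p' e
        simp only [Prod.mk.injEq] at e
        simp only [e1]
        exact htT j (by omega) ω ω' p p' e.2
      · have e1 : C.a (j + 1) = C.a j + m := by
          rw [hA j (by omega), hA (j + 1) (by omega), h5]; ring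
        have e2 : hc P (fun ω => fl1 (C.a (j + 1)) (C.t ω)) (fun ω => (l ω, Z j ω)) ≤
            hc P (fun ω => fl1 (C.a (j + 1)) (C.t ω)) (fun ω => (fl1 (C.a j) (C.t ω), ())) :=
          hc_mono_right P _ fun ω ω' p p' e => by
            simp only [Prod.mk.injEq] at e ⊢
            exact ⟨htT j (by omega) ω ω' p p' e.2, trivial⟩
        have e3 := hc_fl1_digits_le P (C.ha (Nat.le_succ j)) C.t (fun _ => ())
        refine e2.trans (e3.trans (le_of_eq ?_))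
        rw [show C.a (j + 1) - C.a j = m by omega])
    (a := a) (fun j hj => by
      rcases ha j hj with h5 | h5
      · refine Or.inr ⟨h5, fun ω ω' p p' e => ?_⟩
        have e1 : C.a (j + 1) = C.a j := by rw [hA j (by omega), hA (j + 1) (by omega), h5]
        simp only [e1]
        exact htT j (by omega) ω ω' p p' e
      · exact Or.inl h5) hi.le hi1
  rw [h2]
  linarith

/-- **hypothesis (H)** of the summation, mixed letters `Y` (cell at the old levels, `Mtr` at the young ones) -/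
theorem heavy_capM {n m b A0 : ℕ} {a R : ℕ → ℕ} (hA : ∀ k ≤ n, C.a k = A0 + m * a k)
    (ha : ∀ k < n, a (k + 1) = a k ∨ a (k + 1) = a k + 1)
    (l : Ω → Λ) {Z : ℕ → Ω → ζ} (hZ : ∀ i < n, Fn P (Z i) (Z (i + 1)))
    (hZT : ∀ i ≤ n, Fn P (C.T i) (Z i)) (hZC : ∀ i ≤ n, Fn P (C.cell i b) (fun ω => (l ω, Z i ω)))
    {σ : Type} (Y : ℕ → Ω → σ) {χ : Type} (X : ℕ → Ω → χ)
    (hXC : ∀ i ≤ n, Fn P (C.cell i b) (X i)) {u1 u2 : ℕ → ℝ} {ν eS δ co c0 cE cN : ℝ}
    (hY : ∀ k ≤ n, Fn P (td C k) (Y k))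
    (hV : ∀ k < n, a (k + 1) = a k + 1 → 2 * (m * Real.log 2) - u1 (a k) ≤ hc P (C.VZ (k + 1) b)
      (fun ω => (td C (k + 1) ω, (Y k ω, C.VZ k b ω))))
    (hu1 : ∀ z, 0 ≤ u1 z) (hu2 : ∀ z, 0 ≤ u2 z)
    (hN : ∀ k k2, k < n → a (k + 1) = a k + 1 → k < k2 → k2 ≤ n → a k2 = a k + 1 →
      (k2 = n ∨ a (k2 + 1) = a k2 + 1) →
      hc P (fun ω => (Y k ω, C.VZ k b ω)) (fun ω => (Y k2 ω, C.VZ k2 b ω)) ≤ ν + u2 (a k))
    (hδ0 : 0 ≤ δ) (hδ : eS + ν ≤ δ * (m * Real.log 2)) (hδ1 : δ ≤ 1) (hco : 0 ≤ co)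
    (h0 : ∀ i k, i < k → k ≤ n → hc P (C.cell i b) (fun ω => (Y k ω, C.VZ k b ω)) ≤ c0) (hc0 : 0 ≤ c0)
    (hE : hc P (Y n) (fun ω => (C.cell n b ω, C.VZ n b ω)) ≤ cE)
    (hC : ∀ i k, i ≤ k → k ≤ n → hc P (C.cell i b) (C.cell k b) ≤ cN)
    (g : ℕ → Prop) (M1 c3 cK : ℕ) {x : ℕ → ℝ} (hx : ∀ j, 0 ≤ x j) {cx : ℝ} (hcx : 0 ≤ cx)
    (hpair : ∀ i i1, g i → i < i1 → i1 ≤ n → R i + M1 < R i1 → R i + cK * (a i1 - a i) + c3 < R i1 →
      m * Real.log 2 * ((R i1 : ℝ) - R i) ≤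
          ∑ j ∈ Ico i i1, x j + co + m * Real.log 2 * cx * ((a i1 : ℝ) - a i) ∨
      ∃ Kμ Kc : ℕ, Kμ + Kc ≤ cK * (a i1 - a i) + c3 ∧
        (∀ k, i1 ≤ k → k < n → a (k + 1) = a k + 1 → a i1 + Kμ ≤ a k → a k + Kc + R i < a i + R i1 →
          hc (two P (X i)) (fun p => C.VZ (k + 1) b p.fst)
            (fun p => (C.cell i1 b p.snd, (td C (k + 1) p.fst, (Y k p.fst, C.VZ k b p.fst)))) ≤
            m * Real.log 2 + eS) ∧
        (a n + Kc + R i < a i + R i1 → ((a i : ℝ) + R i1 - R i - a n) * (m * Real.log 2) * (1 - δ) -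
          (co + ∑ j ∈ Ico i i1, x j + m * Real.log 2 * cx * ((a i1 : ℝ) - a i)) ≤ hc (two P (X i)) (fun p => C.cell i1 b p.snd)
            (fun p => (C.cell n b p.fst, C.VZ n b p.fst)))) :
    ∀ i i1, g i → i < i1 → i1 ≤ n → R i + M1 < R i1 →
      m * Real.log 2 * (1 - δ) * ((R i1 : ℝ) - R i) - m * Real.log 2 * (cK + 2 + cx) * ((a i1 : ℝ) - a i) -
        ∑ z ∈ Icc (a i) (a i + (R i1 - R i)), (u1 z + u2 z) -
        (c3 * (m * Real.log 2) + (c0 + cE + cN) + co) -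
        ∑ j ∈ Ico i i1, (H833.qc P l Z (fun j ω => fl1 (C.a j) (C.t ω)) j + x j) ≤
      H833.psi P l Z (fun k => C.cell k b) i1 - H833.psi P l Z (fun k => C.cell k b) i := by
  intro i i1 hg hi hi1 hRM
  have hl2 : 0 ≤ Real.log 2 := Real.log_nonneg (by norm_num)
  have hM0 : 0 ≤ m * Real.log 2 := by positivity
  have hcE : 0 ≤ cE := (hc_nonneg P _ _).trans hE
  have hcN : 0 ≤ cN := (hc_nonneg P _ _).trans (hC i i1 hi.le hi1)
  set M : ℝ := m * Real.log 2 with hM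
  have ham : a i ≤ a i1 := by
    have key : ∀ k', i ≤ k' → k' ≤ n → a i ≤ a k' := by
      intro k' h
      induction k', h using Nat.le_induction with
      | base => intro _; exact le_rfl
      | succ k' _ ih =>
        intro h2
        have h3 := ih (by omega)
        rcases ha k' (by omega) with h4 | h4 <;> omega
    exact key i1 hi.le hi1
  have hw : (0 : ℝ) ≤ (a i1 : ℝ) - a i := by
    have : (a i : ℝ) ≤ a i1 := by exact_mod_cast ham
    linarith
  have hwc : ((a i1 - a i : ℕ) : ℝ) = (a i1 : ℝ) - a i := by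
    rw [Nat.cast_sub ham]
  have hus : 0 ≤ ∑ z ∈ Icc (a i) (a i + (R i1 - R i)), (u1 z + u2 z) :=
    Finset.sum_nonneg fun z _ => add_nonneg (hu1 z) (hu2 z)
  have hxs : 0 ≤ ∑ j ∈ Ico i i1, x j := Finset.sum_nonneg fun j _ => hx j
  rw [Finset.sum_add_distrib (f := fun j => H833.qc P l Z (fun j ω => fl1 (C.a j) (C.t ω)) j)]
  have htriv := H833.triv_cap P l (n := n) (Z := Z) (tm := fun j ω => fl1 (C.a j) (C.t ω)) (τ := fun j => C.T j)
    (C := fun k => C.cell k b) (cN := cN) hZ hZC (fun i _ ω ω' _ _ e => cell_T e)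
    (fun i _ ω ω' _ _ e => C.hT i ω ω' e)
    (fun i _ ω ω' _ _ e => by
      change fl1 (C.a i) (C.t ω) = fl1 (C.a i) (C.t ω')
      rw [← C.htm, ← C.htm, e])
    (fun i k hik hk => hC i k hik hk)
    hi.le hi1
  have hR0 : (0 : ℝ) ≤ (R i1 : ℝ) - R i := by
    have : (R i : ℝ) ≤ R i1 := by exact_mod_cast (by omega : R i ≤ R i1)
    linarith
  have hMJ : M * (1 - δ) * ((R i1 : ℝ) - R i) ≤ M * ((R i1 : ℝ) - R i) := by
    refine mul_le_mul_of_nonneg_right ?_ hR0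
    nlinarith
  have hMw : 0 ≤ M * ((a i1 : ℝ) - a i) := mul_nonneg hM0 hw
  have hMc : 0 ≤ M * (cK * ((a i1 : ℝ) - a i)) := mul_nonneg hM0 (by positivity)
  have hM3 : 0 ≤ M * c3 := by positivity
  have hMx : 0 ≤ M * cx * ((a i1 : ℝ) - a i) := mul_nonneg (mul_nonneg hM0 hcx) hw
  have hE4 : M * (cK + 2 + cx) * ((a i1 : ℝ) - a i) =
      M * (cK * ((a i1 : ℝ) - a i)) + 2 * (M * ((a i1 : ℝ) - a i)) + M * cx * ((a i1 : ℝ) - a i) := by
    ring
  have hE3 : (c3 : ℝ) * M = M * c3 := mul_comm _ _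
  rw [hE4, hE3]
  by_cases hJ : R i + cK * (a i1 - a i) + c3 < R i1
  · rcases hpair i i1 hg hi hi1 hRM hJ with h9 | ⟨Kμ, Kc, e2, e3, e4⟩
    · refine le_trans ?_ htriv
      linarith
    have h1 := heavy_psiM P C hA ha l hZ hZT Y (X i) hY hV hu1 hu2 hN hδ hδ1
      (co := co + ∑ j ∈ Ico i i1, x j + M * cx * ((a i1 : ℝ) - a i)) (by linarith) hi hi1 (by omega)
      (hXC i (by omega)) (h0 i) hE (hC i i1 hi.le hi1) e3 e4
    refine le_trans ?_ h1
    have e5 : (Kμ : ℝ) + Kc ≤ cK * ((a i1 : ℝ) - a i) + c3 := by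
      rw [← hwc]
      exact_mod_cast e2
    have e6 : (((a i1 : ℝ) - a i) + Kμ + Kc) * (M * (1 - δ)) ≤ (((a i1 : ℝ) - a i) + Kμ + Kc) * M := by
      refine mul_le_mul_of_nonneg_left ?_ (by positivity)
      nlinarith
    have e7 : (((a i1 : ℝ) - a i) + Kμ + Kc) * M ≤
        (((a i1 : ℝ) - a i) + (cK * ((a i1 : ℝ) - a i) + c3)) * M :=
      mul_le_mul_of_nonneg_right (by linarith) hM0
    have e8 : (((a i1 : ℝ) - a i) + (cK * ((a i1 : ℝ) - a i) + c3)) * M =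
        M * ((a i1 : ℝ) - a i) + M * (cK * ((a i1 : ℝ) - a i)) + M * c3 := by ring
    have e9 : ((R i1 : ℝ) - R i - ((a i1 : ℝ) - a i) - Kμ - Kc) * M * (1 - δ) =
        M * (1 - δ) * ((R i1 : ℝ) - R i) - (((a i1 : ℝ) - a i) + Kμ + Kc) * (M * (1 - δ)) := by ring
    rw [e9]
    linarith
  · have h3 : (R i1 : ℝ) - R i ≤ cK * ((a i1 : ℝ) - a i) + c3 := by
      have : R i1 ≤ R i + cK * (a i1 - a i) + c3 := by omega
      have h4 : (R i1 : ℝ) ≤ R i + cK * ((a i1 - a i : ℕ) : ℝ) + c3 := by exact_mod_cast this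
      rw [hwc] at h4
      linarith
    have h4 := mul_le_mul_of_nonneg_left h3 hM0
    rw [mul_add] at h4
    refine le_trans ?_ htriv
    linarith

end

end Vale.Agent.P106.U.H118
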