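import Vale.Agent.P106.U.H118.StripS

/-!
# P106 / U / H118 : the strip count of RISE for the cells of `U/Cell.lean` (helper118)

Two states `ω0`, `ω1` with the same ray and the same time to `a i` digits.  Given the cell `(i', b)` of `ω1`, the
time digits `td (k+1)`, the cell `(k, b)` and the nominal position `VZ k b` of `ω0`, the next position `VZ (k+1) b` of `ω0`
takes at most `C 2^m` values (out of `4^m`), if the two slabs differ by `2^-(R_i + m')` at the ray (`DifK`) and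
`a_k + R_i + m' + 2 m + 8 μ ≤ a_i + R_i'`.
-/

set_option autoImplicit false

namespace Vale.Agent.P106.U.H118

open Finset Vale.Agent.P127 Vale.Agent.P127.Stk
open Vale.Agent.P127.U.CellD (q2 rd Nb q2_pos q2_add q2_le rd_err rd_sub)
open Vale.Agent.P106.U.Cell

variable {Ω τ : Type} (C : Pth Ω τ)

/-- slab of the copy 0 at step `k`, slope as in the cell, written at the time `s_(k+1)` of the copy 0 -/
noncomputable def sF (k b : ℕ) (ω0 : Ω) : Fu :=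
  (C.Fr k b (C.R k b - 3 * C.μ) ω0).sh (C.s (k + 1) ω0 - C.s k ω0)

/-- slab of the copy 1 at step `i'`, written at the time `s_(k+1)` of the copy 0 -/
noncomputable def sG (i' k b : ℕ) (ω0 ω1 : Ω) : Fu :=
  (C.Fr i' b (C.R i' b - 3 * C.μ) ω1).sh (C.s (k + 1) ω0 - C.s i' ω1)

/-- difference of the slopes at the ray -/
noncomputable def dc1 (i' k b : ℕ) (ω0 ω1 : Ω) : ℝ :=
  (sG C i' k b ω0 ω1).cV (C.l ω0) (C.s (k + 1) ω0) -
    (sG C i' k b ω0 ω1).cN (C.l ω0) (C.s (k + 1) ω0) / (sF C k b ω0).cN (C.l ω0) (C.s (k + 1) ω0) *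
      (sF C k b ω0).cV (C.l ω0) (C.s (k + 1) ω0)

/-- difference of the kappas at the ray -/
noncomputable def dc2 (i' k b : ℕ) (ω0 ω1 : Ω) : ℝ :=
  (sG C i' k b ω0 ω1).ka -
    (sG C i' k b ω0 ω1).cN (C.l ω0) (C.s (k + 1) ω0) / (sF C k b ω0).cN (C.l ω0) (C.s (k + 1) ω0) *
      (sF C k b ω0).ka

/-- the two slabs differ at the ray -/
def DifK (i i' k b m' : ℕ) (ω0 ω1 : Ω) : Prop :=
  q2 (C.R i b + m') ≤ |dc1 C i' k b ω0 ω1| ∨ q2 (C.R i b + m') ≤ |dc2 C i' k b ω0 ω1| * q2 b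

/-- digits of the time at the step `k` -/
noncomputable def td (k : ℕ) (ω : Ω) : ℤ := fl1 (C.a k) (C.t ω)

/-- conditions on the levels -/
structure SLv (i i' k b m m' : ℕ) : Prop where
  ii : i ≤ i'
  ik : i' ≤ k
  am : C.a (k + 1) = C.a k + m
  hb : 8 * C.μ ≤ b
  hR : 9 * C.μ ≤ C.R k b
  hk : C.R i b + m' + 2 * m + 8 * C.μ ≤ C.R k b
  hi : C.a k + C.R i b + m' + 2 * m + 8 * C.μ ≤ C.a i + C.R i' b

section

variable {C}

theorem s_congr {k : ℕ} {ω ω' : Ω} (h : C.T k ω = C.T k ω') : C.s k ω = C.s k ω' := by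
  unfold Pth.s rd
  rw [← C.htm k ω, ← C.htm k ω', h]

theorem s_td {k : ℕ} {ω ω' : Ω} (h : td C k ω = td C k ω') : C.s k ω = C.s k ω' := by
  unfold td at h
  unfold Pth.s rd
  rw [h]

theorem td_of_T {k : ℕ} {ω ω' : Ω} (h : C.T k ω = C.T k ω') : td C k ω = td C k ω' := by
  unfold td
  rw [← C.htm k ω, ← C.htm k ω', h]

theorem ro_err (k : Fin 7) (n : ℕ) (y : ℝ) : |C.ro k n y - y| ≤ q2 n := by
  unfold Pth.ro
  have := rd_err n (y + C.o k)
  have e : rd n (y + C.o k) - C.o k - y = rd n (y + C.o k) - (y + C.o k) := by ring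
  rw [e]
  exact this

theorem fl1_close {n : ℕ} {x y : ℝ} (h : fl1 n x = fl1 n y) : |x - y| ≤ q2 n := by
  have h1 := Vale.Agent.P127.U.CellD.rd_le n x
  have h2 := Vale.Agent.P127.U.CellD.lt_rd n x
  have h3 := Vale.Agent.P127.U.CellD.rd_le n y
  have h4 := Vale.Agent.P127.U.CellD.lt_rd n y
  have h5 : rd n x = rd n y := by unfold rd; rw [h]
  rw [abs_le]
  constructor <;> linarith

theorem ro_congr {k : Fin 7} {n : ℕ} {x y : ℝ} (h : fl1 n (x + C.o k) = fl1 n (y + C.o k)) :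
    C.ro k n x = C.ro k n y := by
  unfold Pth.ro rd
  rw [h]

/-- the data of two states in the same cell -/
theorem cell_T {k b : ℕ} {ω ω' : Ω} (h : C.cell k b ω = C.cell k b ω') : C.T k ω = C.T k ω' :=
  congrArg Prod.fst h

theorem cell_v {k b : ℕ} {ω ω' : Ω} (h : C.cell k b ω = C.cell k b ω') :
    fl1 b (C.l ω).v = fl1 b (C.l ω').v := congrArg (fun x => x.2.1) h

theorem cell_k {k b : ℕ} {ω ω' : Ω} (h : C.cell k b ω = C.cell k b ω') (j : Fin 7) :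
    fl1 (C.lv k b j) (C.va k b ω j + C.o j) = fl1 (C.lv k b j) (C.va k b ω' j + C.o j) :=
  congrFun (congrArg (fun x => x.2.2) h) j

theorem cell_va {k b : ℕ} {ω ω' : Ω} (h : C.cell k b ω = C.cell k b ω') (j : Fin 7) :
    |C.va k b ω j - C.va k b ω' j| ≤ q2 (C.lv k b j) := by
  have h1 := fl1_close (cell_k h j)
  have e : C.va k b ω j + C.o j - (C.va k b ω' j + C.o j) = C.va k b ω j - C.va k b ω' j := by ring
  rwa [e] at h1

theorem bs_le (k b : ℕ) : C.bs k b ≤ b := min_le_left _ _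

theorem rdv_congr {k b : ℕ} {ω ω' : Ω} (h : C.cell k b ω = C.cell k b ω') {n : ℕ} (hn : n ≤ b) :
    rd n (C.l ω).v = rd n (C.l ω').v := by
  unfold rd
  rw [Vale.Agent.P127.U.CellD.fl1_fl1 hn (cell_v h)]

theorem Fr_congr {k b : ℕ} {ω ω' : Ω} (h : C.cell k b ω = C.cell k b ω') :
    C.Fr k b (C.R k b - 3 * C.μ) ω = C.Fr k b (C.R k b - 3 * C.μ) ω' := by
  have hT := cell_T h
  have h1 : C.ro 4 (C.R k b - 3 * C.μ) (C.sl k b ω) = C.ro 4 (C.R k b - 3 * C.μ) (C.sl k b ω') := by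
    refine ro_congr ?_
    have := cell_k h 4
    simpa [Pth.lv, Pth.va] using this
  have h2 : rd (C.bs k b) (C.l ω).v = rd (C.bs k b) (C.l ω').v :=
    rdv_congr h (bs_le (C := C) k b)
  unfold Pth.Fr Pth.F Pth.Fv
  simp only [hT, h1, h2]

theorem row_congr {k b : ℕ} {ω ω' : Ω} (h : C.cell k b ω = C.cell k b ω') :
    C.ro 1 (b - C.μ) (C.l ω).w = C.ro 1 (b - C.μ) (C.l ω').w := by
  refine ro_congr ?_
  have := cell_k h 1
  simpa [Pth.lv, Pth.va] using this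

/-- own slope coefficient of the slab of the cell -/
theorem cV_Fr (k b n : ℕ) (ω : Ω) : (C.Fr k b n ω).cV (C.l ω) (C.s k ω) =
    rd (C.rf k) (C.p ω) * (C.F k ω).cN (C.l ω) (C.s k ω) + (C.ro 4 n (C.sl k b ω) - C.sl k b ω) := by
  have hs : C.s k ω = C.tv k (C.T k ω) := by
    unfold Pth.s Pth.tv rd
    rw [C.htm]
  have e1 : (C.Fr k b n ω).cV (C.l ω) (C.s k ω) = C.ro 4 n (C.sl k b ω) -
      (C.F k ω).ka * rd (C.bs k b) (C.l ω).v + (C.F k ω).ka * (C.l ω).v +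
      (C.F k ω).al * (C.l ω).X (C.s k ω) := rfl
  have e2 : C.sl k b ω = (C.F k ω).ph + (C.F k ω).ka * rd (C.bs k b) (C.l ω).v := rfl
  have e3 : (C.F k ω).ph = rd (C.rf k) (C.p ω) * (C.F k ω).cN (C.l ω) (C.s k ω) -
      (C.F k ω).ka * (C.l ω).v - (C.F k ω).al * (C.l ω).X (C.s k ω) := by
    rw [hs]
    rfl
  rw [e1]
  generalize C.ro 4 n (C.sl k b ω) = y
  rw [e2, e3]
  ring

theorem cN_Fr (k b n : ℕ) (ω : Ω) (l : Ray) (s : ℝ) : (C.Fr k b n ω).cN l s = (C.F k ω).cN l s := rfl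

/-- the normalisation of the slab of a cell -/
theorem Fr_norm {K : ℝ} (hK : 1 ≤ K) {k b : ℕ} (hR : 9 * C.μ ≤ C.R k b) {ω : Ω} (h : C.Ok K ω) :
    |(C.Fr k b (C.R k b - 3 * C.μ) ω).cV (C.l ω) (C.s k ω)| ≤ 3 * K * q2 C.μ ^ 2 := by
  rw [cV_Fr]
  have h0 : 0 < q2 (2 * C.μ) := q2_pos _
  have e2 : q2 (2 * C.μ) = q2 C.μ ^ 2 := by
    rw [two_mul, q2_add, pow_two]
  have hrf : C.R k b ≤ C.rf k := by
    unfold Pth.R Pth.bs
    have := C.hkf k
    have := min_le_right b (C.rf k - C.rk k)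
    omega
  have h1 : |rd (C.rf k) (C.p ω)| ≤ 2 * q2 (2 * C.μ) := by
    have g1 := rd_err (C.rf k) (C.p ω)
    have g2 := h.p1
    have g3 : q2 (C.rf k) ≤ q2 (2 * C.μ) := q2_le (by omega)
    have g4 : rd (C.rf k) (C.p ω) = (rd (C.rf k) (C.p ω) - C.p ω) + C.p ω := by ring
    rw [g4]
    refine (abs_add_le _ _).trans ?_
    linarith
  have hcN : |(C.F k ω).cN (C.l ω) (C.s k ω)| ≤ K := by
    have g1 := h.n1 k
    have g2 := h.n2 k
    rw [abs_of_nonneg]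
    · exact g2
    · by_contra hcon
      push Not at hcon
      nlinarith
  have h2 := mul_bd h1 hcN
  have h3 := ro_err (C := C) 4 (C.R k b - 3 * C.μ) (C.sl k b ω)
  have h4 : q2 (C.R k b - 3 * C.μ) ≤ q2 (2 * C.μ) := q2_le (by omega)
  refine (abs_add_le _ _).trans ?_
  rw [← e2]
  nlinarith

/-- algebra of the strip -/
theorem strip_id (F G : Fu) (lr l : Ray) (s rv rw' ρ : ℝ) (hρF : ρ * F.cN lr s = G.cN lr s) :
    ((G.cV lr s - ρ * F.cV lr s) - (G.ka - ρ * F.ka) * (lr.v - rv)) * (l.X s - lr.X s) +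
      (G.ka - ρ * F.ka) * ((l.Z s - rv * l.X s - rw' * l.N s) -
        (lr.Z s - rv * lr.X s - rw' * lr.N s)) +
      (G.al - ρ * F.al) / 2 * (l.X s - lr.X s) ^ 2 =
      (ρ * (F.g l s - F.g lr s) - (G.g l s - G.g lr s)) +
      ((G.ka - ρ * F.ka) * ((lr.w - rw') * (l.N s - lr.N s)) +
        (-((G.al - ρ * F.al) / 2 * (l.N s - lr.N s) ^ 2))) := by
  have hF1 := Fu.g_sub F lr l s
  have hG1 := Fu.g_sub G lr l s
  have hzz : lr.dz l s = ((l.Z s - rv * l.X s - rw' * l.N s) -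
      (lr.Z s - rv * lr.X s - rw' * lr.N s)) - (lr.v - rv) * (l.X s - lr.X s) -
      (lr.w - rw') * (l.N s - lr.N s) := by
    unfold Ray.dz
    ring
  rw [hF1, hG1, hzz]
  linear_combination (-(l.N s - lr.N s)) * hρF

/-- error of the strip -/
theorem strip_err {K α β β1 ε q Y X0 E1 E2 ρ c2 c3 B dN : ℝ} (hK : 1 ≤ K) (hα : 0 < α) (hβ : 0 < β)
    (hε : 0 < ε) (hε1 : ε ≤ 1) (he : β = ε * β1) (hq : 0 < q) (hq1 : q ≤ 1)
    (hμ : 40 * K ^ 2 * ε ≤ q) (hY : 0 < Y) (hX0 : X0 * q = Y) (hρ : |ρ| ≤ K ^ 2)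
    (h1 : |E1| ≤ 2 * (Y * ε)) (h2 : |E2| ≤ 2 * (Y * ε)) (hB : |B| ≤ β1)
    (hN : |dN| ≤ 18 * K ^ 2 * ε ^ 2 * (α * β)) :
    |(ρ * E1 - E2) + (c2 * (B * dN) + (-(c3 * dN ^ 2)))| ≤
      (X0 / 10 + |c2| * (α * β ^ 2) + |c3| * (α * β) ^ 2) * q := by
  have hKe : 0 ≤ K ^ 2 * ε := by positivity
  have t0 : |ρ * E1 - E2| ≤ X0 / 10 * q := by
    have q4 : |ρ * E1| ≤ K ^ 2 * (2 * (Y * ε)) := mul_bd hρ h1
    refine (abs_sub _ _).trans ?_
    have q6 : X0 / 10 * q = Y / 10 := by rw [← hX0]; ring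
    rw [q6]
    have q7 : 40 * K ^ 2 * ε * Y ≤ 1 * Y := mul_le_mul_of_nonneg_right (hμ.trans hq1) hY.le
    have q8 : ε * Y ≤ K ^ 2 * (ε * Y) := le_mul_of_one_le_left (by positivity) (by nlinarith)
    nlinarith
  have hBN : |B * dN| ≤ q * (α * β ^ 2) := by
    refine (mul_bd hB hN).trans ?_
    have e2 : β1 * (18 * K ^ 2 * ε ^ 2 * (α * β)) = (18 * K ^ 2 * ε) * (α * β * (ε * β1)) := by ring
    rw [e2, ← he]
    have e3 : α * β * β = α * β ^ 2 := by ring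
    rw [e3]
    exact mul_le_mul_of_nonneg_right (by linarith) (by positivity)
  have hNN : dN ^ 2 ≤ q * (α * β) ^ 2 := by
    refine (sq_bd hN).trans ?_
    have e2 : (18 * K ^ 2 * ε ^ 2 * (α * β)) ^ 2 = ((18 * K ^ 2 * ε) * ε) ^ 2 * (α * β) ^ 2 := by ring
    rw [e2]
    refine mul_le_mul_of_nonneg_right ?_ (by positivity)
    have e3 : (18 * K ^ 2 * ε) * ε ≤ q := by
      have g1 : 18 * K ^ 2 * ε ≤ q := by linarith
      have g3 : 0 ≤ 18 * K ^ 2 * ε := by positivity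
      nlinarith
    have e4 : 0 ≤ (18 * K ^ 2 * ε) * ε := by positivity
    nlinarith
  have t1 : |c2 * (B * dN)| ≤ |c2| * (q * (α * β ^ 2)) := mul_bd le_rfl hBN
  have t2 : |c3 * dN ^ 2| ≤ |c3| * (q * (α * β) ^ 2) :=
    mul_bd le_rfl (by rw [abs_of_nonneg (sq_nonneg _)]; exact hNN)
  refine (abs_add_le _ _).trans ?_
  have t3 := abs_add_le (c2 * (B * dN)) (-(c3 * dN ^ 2))
  rw [abs_neg] at t3
  have t4 : (X0 / 10 + |c2| * (α * β ^ 2) + |c3| * (α * β) ^ 2) * q = X0 / 10 * q +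
      |c2| * (q * (α * β ^ 2)) + |c3| * (q * (α * β) ^ 2) := by ring
  rw [t4]
  linarith

/-- the rounded times of two states with the same time to `a i` digits -/
theorem s_near {i i' k : ℕ} (h : i ≤ i') (h' : i ≤ k) {r0 r1 : Ω} (hT : C.T i r0 = C.T i r1) :
    |C.s k r0 - C.s i' r1| ≤ q2 (C.a i) := by
  have e0 : rd (C.a i) (C.t r0) = rd (C.a i) (C.t r1) := s_congr (k := i) hT
  have d1 : rd (C.a i) (C.t r0) ≤ C.s k r0 := Vale.Agent.P127.U.CellD.rd_mono (C.ha h') _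
  have d2 : C.s k r0 ≤ C.t r0 := Vale.Agent.P127.U.CellD.rd_le _ _
  have d3 : C.t r0 < rd (C.a i) (C.t r0) + q2 (C.a i) := Vale.Agent.P127.U.CellD.lt_rd _ _
  have d4 : rd (C.a i) (C.t r1) ≤ C.s i' r1 := Vale.Agent.P127.U.CellD.rd_mono (C.ha h) _
  have d5 : C.s i' r1 ≤ C.t r1 := Vale.Agent.P127.U.CellD.rd_le _ _
  have d6 : C.t r1 < rd (C.a i) (C.t r1) + q2 (C.a i) := Vale.Agent.P127.U.CellD.lt_rd _ _
  rw [abs_le]
  constructor <;> linarith

/-- value of a shifted functional -/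
theorem sh_sub (Φ : Fu) (l l' : Ray) (s0 s : ℝ) :
    (Φ.sh (s - s0)).g l s - (Φ.sh (s - s0)).g l' s = (Φ.g l s0 - Φ.g l' s0) +
      (s - s0) * (Φ.gd l s0 - Φ.gd l' s0) := by
  have h : ∀ y : Ray, (Φ.sh (s - s0)).g y s = Φ.g y s0 + (s - s0) * Φ.gd y s0 := by
    intro y
    have h1 := Fu.g_sh Φ y s0 (s - s0)
    have h2 : s0 + (s - s0) = s := by ring
    rwa [h2] at h1
  rw [h l, h l']; ring

theorem sh_cN (Φ : Fu) (l : Ray) (s0 s : ℝ) : (Φ.sh (s - s0)).cN l s = Φ.cN l s0 := by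
  have h1 := Fu.cN_sh Φ l s0 (s - s0)
  have h2 : s0 + (s - s0) = s := by ring
  rwa [h2] at h1

/-- **strip count in the cells of the path** -/
theorem strip_cell {K : ℝ} (hK : 1 ≤ K) {i i' k b m m' : ℕ} (hL : SLv C i i' k b m m')
    (hμ : 40 * K ^ 2 * q2 C.μ ≤ (1 / 4 : ℝ) ^ m) {D : Type*} (d : D)
    (f : Ω → Ω → D) (hf : ∀ ω0 ω1 ω0' ω1', f ω0 ω1 = f ω0' ω1' →
      C.cell i' b ω1 = C.cell i' b ω1' ∧ td C (k + 1) ω0 = td C (k + 1) ω0' ∧
        C.cell k b ω0 = C.cell k b ω0' ∧ C.VZ k b ω0 = C.VZ k b ω0') :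
    ∃ U : Finset (ℤ × ℤ), U.card ≤ 9540 * 2 ^ m ∧ ∀ ω0 ω1, f ω0 ω1 = d → C.l ω0 = C.l ω1 →
      C.T i ω0 = C.T i ω1 → C.Ok K ω0 → C.Ok K ω1 → DifK C i i' k b m' ω0 ω1 →
      C.VZ (k + 1) b ω0 ∈ U := by
  classical
  by_cases hex : ∃ ω0 ω1, f ω0 ω1 = d ∧ C.l ω0 = C.l ω1 ∧ C.T i ω0 = C.T i ω1 ∧ C.Ok K ω0 ∧
      C.Ok K ω1 ∧ DifK C i i' k b m' ω0 ω1
  swap
  · push Not at hex
    exact ⟨∅, by simp, fun ω0 ω1 h1 h2 h3 h4 h5 h6 => absurd h6 (hex ω0 ω1 h1 h2 h3 h4 h5)⟩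
  obtain ⟨r0, r1, hd, hl, hTi, hO0, hO1, hDif⟩ := hex
  obtain ⟨hii, hik, ham, hb, hR, hk, hi⟩ := hL
  have hak : C.a i ≤ C.a i' := C.ha hii
  have hak2 : C.a i' ≤ C.a k := C.ha hik
  have hR' : 8 * C.μ ≤ C.R i' b := by omega
  -- the scales
  set α := q2 (C.a k) with hα
  set β := q2 b with hβ
  have hS : Sc K α β (q2 (b - C.μ)) (q2 (b - 2 * C.μ)) (q2 C.μ) := by
    refine ⟨hK, q2_pos _, q2_pos _, q2_pos _, q2_pos _, q2_pos _, ?_, ?_, ?_, ?_⟩
    · exact pow_le_one₀ (by norm_num) (by norm_num)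
    · rw [← q2_add]; congr 1; omega
    · rw [hβ, ← q2_add]; congr 1; omega
    · rw [pow_two, ← q2_add]; exact q2_le (by omega)
  have hα0 : 0 < α := q2_pos _
  have hβ0 : 0 < β := q2_pos _
  have hε0 : 0 < q2 C.μ := q2_pos _
  have h4m : (1 / 4 : ℝ) ^ m ≤ 1 := pow_le_one₀ (by norm_num) (by norm_num)
  have hε1 : 40 * K ^ 2 * q2 C.μ ≤ 1 := hμ.trans h4m
  have hp : α * β = q2 (C.a k + b) := by rw [hα, hβ, ← q2_add]
  have hq : α * β ^ 2 = q2 (C.a k + 2 * b) := by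
    rw [hα, hβ, pow_two, ← q2_add, ← q2_add]; congr 1; omega
  -- the reference
  set s := C.s (k + 1) r0 with hs
  set F := sF C k b r0 with hF
  set G := sG C i' k b r0 r1 with hG
  set lr := C.l r0 with hlr
  set A := lr.v - rd b lr.v with hA
  set B := lr.w - C.ro 1 (b - C.μ) lr.w with hB
  set X0 := q2 (C.a k + b + (C.R i b + m')) with hX0
  have hAb : |A| ≤ β := by
    rw [hA, abs_sub_comm]; exact rd_err _ _
  have hBb : |B| ≤ q2 (b - C.μ) := by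
    rw [hB, abs_sub_comm]; exact ro_err _ _ _
  have hδ : |s - C.s k r0| ≤ α := rd_sub (C.ha (Nat.le_succ k)) _
  -- coefficient bounds
  have hFcN : F.cN lr s = (C.F k r0).cN lr (C.s k r0) := sh_cN _ _ _ _
  have hGcN : G.cN lr s = (C.F i' r1).cN lr (C.s i' r1) := sh_cN _ _ _ _
  have n1 : 1 ≤ K * F.cN lr s := by rw [hFcN]; exact hO0.n1 k
  have n2 : G.cN lr s ≤ K := by
    rw [hGcN, hl]; exact hO1.n2 i'
  have n3 : 1 ≤ K * G.cN lr s := by
    rw [hGcN, hl]; exact hO1.n1 i'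
  have hFpos : 0 < F.cN lr s := by
    by_contra hcon
    push Not at hcon
    nlinarith
  have hGpos : 0 < G.cN lr s := by
    by_contra hcon
    push Not at hcon
    nlinarith
  set ρ := G.cN lr s / F.cN lr s with hρ
  have hρ0 : 0 ≤ ρ := by positivity
  have hρK : ρ ≤ K ^ 2 := by
    rw [hρ, div_le_iff₀ hFpos]
    nlinarith
  -- the core
  obtain ⟨U, hU, hU'⟩ := strip_core hα0 hβ0 (m := m) hp hq (c1 := dc1 C i' k b r0 r1)
    (c2 := dc2 C i' k b r0 r1) (c3 := (G.al - ρ * F.al) / 2) (A := A)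
    (Xs := lr.X s) (Zs := C.Zs b s r0) (X0 := X0)
    (e := (X0 / 10 + |dc2 C i' k b r0 r1| * (α * β ^ 2) + |(G.al - ρ * F.al) / 2| * (α * β) ^ 2) *
      (1 / 4 : ℝ) ^ m) hAb (q2_pos _) (by
      have e1 : X0 = q2 (C.R i b + m') * (α * β) := by
        rw [hX0, q2_add (C.a k + b), hp]; ring
      rcases hDif with h | h
      · left
        rw [e1]
        exact mul_le_mul_of_nonneg_right h (by positivity)
      · right
        have e2 : |dc2 C i' k b r0 r1| * (α * β ^ 2) = (|dc2 C i' k b r0 r1| * β) * (α * β) := by ring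
        rw [e1, e2]
        exact mul_le_mul_of_nonneg_right h (by positivity)) le_rfl
  refine ⟨U, hU, ?_⟩
  intro ω0 ω1 h1 h2 h3 h4 h5 h6
  obtain ⟨g1, g2, g3, g4⟩ := hf r0 r1 ω0 ω1 (hd.trans h1.symm)
  -- common data
  have hsk : C.s k ω0 = C.s k r0 := (s_congr (cell_T g3)).symm
  have hss : C.s (k + 1) ω0 = s := (s_td g2).symm
  have hs1 : C.s i' ω1 = C.s i' r1 := (s_congr (cell_T g1)).symm
  set l := C.l ω0 with hlω
  have hv : |l.v - lr.v| ≤ β := fl1_close (cell_v g3).symm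
  have hva : ∀ j, |C.va k b ω0 j - C.va k b r0 j| ≤ q2 (C.lv k b j) := cell_va g3.symm
  have hw : |l.w - lr.w| ≤ q2 (b - C.μ) := by
    have := hva 1
    simpa [Pth.lv, Pth.va] using this
  have hN : |l.N (C.s k r0) - lr.N (C.s k r0)| ≤ α * q2 (b - C.μ) := by
    have := hva 2
    simp only [Pth.lv, Pth.va] at this
    rw [hα, ← q2_add]
    have e : C.a k + (b - C.μ) = C.a k + b - C.μ := by omega
    rw [e]
    simpa [hsk] using this
  have hrv : rd b l.v = rd b lr.v := by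
    unfold rd
    rw [cell_v g3.symm]
  have hrw : C.ro 1 (b - C.μ) l.w = C.ro 1 (b - C.μ) lr.w := row_congr g3.symm
  have hVZ1 : fl1 (C.a k + b) (l.X (C.s k r0)) = fl1 (C.a k + b) (lr.X (C.s k r0)) := by
    have := congrArg Prod.fst g4
    simp only [Pth.VZ] at this
    rw [← hsk]
    rw [hsk]
    rw [hsk] at this
    exact this.symm
  have hVZ2 : fl1 (C.a k + 2 * b) (C.Zs b (C.s k r0) ω0) = fl1 (C.a k + 2 * b) (C.Zs b (C.s k r0) r0) := by
    have := congrArg Prod.snd g4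
    simp only [Pth.VZ] at this
    rw [hsk] at this
    exact this.symm
  have hX : |l.X (C.s k r0) - lr.X (C.s k r0)| ≤ α * β := by
    rw [hp]; exact fl1_close hVZ1
  have hZ : |(l.Z (C.s k r0) - rd b lr.v * l.X (C.s k r0) - C.ro 1 (b - C.μ) lr.w * l.N (C.s k r0)) -
      (lr.Z (C.s k r0) - rd b lr.v * lr.X (C.s k r0) - C.ro 1 (b - C.μ) lr.w * lr.N (C.s k r0))| ≤
        α * β ^ 2 := by
    rw [hq]
    have := fl1_close hVZ2
    unfold Pth.Zs at this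
    rw [hrv, hrw] at this
    exact this
  -- the functional of the cell
  set Φ := C.Fr k b (C.R k b - 3 * C.μ) r0 with hΦ
  have hΦ0 : C.Fr k b (C.R k b - 3 * C.μ) ω0 = Φ := (Fr_congr g3).symm
  set Ψ := C.Fr i' b (C.R i' b - 3 * C.μ) r1 with hΨ
  have hΨ1 : C.Fr i' b (C.R i' b - 3 * C.μ) ω1 = Ψ := (Fr_congr g1).symm
  have hgd0 : |Φ.gd l (C.s k r0) - Φ.gd lr (C.s k r0)| ≤ q2 (C.R k b + b - 5 * C.μ) := by
    have := hva 5
    have e1 : C.va k b ω0 5 = Φ.gd l (C.s k r0) := by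
      rw [← hsk, ← hΦ0]; rfl
    have e2 : C.va k b r0 5 = Φ.gd lr (C.s k r0) := rfl
    rwa [e1, e2] at this
  have hg0 : |Φ.g l (C.s k r0) - Φ.g lr (C.s k r0)| ≤ q2 (C.a k + b + C.R k b - 7 * C.μ) := by
    have := hva 6
    have e1 : C.va k b ω0 6 = Φ.g l (C.s k r0) := by
      rw [← hsk, ← hΦ0]; rfl
    have e2 : C.va k b r0 6 = Φ.g lr (C.s k r0) := rfl
    rwa [e1, e2] at this
  have hva1 : ∀ j, |C.va i' b ω1 j - C.va i' b r1 j| ≤ q2 (C.lv i' b j) := cell_va g1.symm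
  have hgd1 : |Ψ.gd l (C.s i' r1) - Ψ.gd lr (C.s i' r1)| ≤ q2 (C.R i' b + b - 5 * C.μ) := by
    have := hva1 5
    have e1 : C.va i' b ω1 5 = Ψ.gd l (C.s i' r1) := by
      rw [← hs1, ← hΨ1, h2]; rfl
    have e2 : C.va i' b r1 5 = Ψ.gd lr (C.s i' r1) := by
      rw [hl]; rfl
    rwa [e1, e2] at this
  have hg1 : |Ψ.g l (C.s i' r1) - Ψ.g lr (C.s i' r1)| ≤ q2 (C.a i' + b + C.R i' b - 7 * C.μ) := by
    have := hva1 6
    have e1 : C.va i' b ω1 6 = Ψ.g l (C.s i' r1) := by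
      rw [← hs1, ← hΨ1, h2]; rfl
    have e2 : C.va i' b r1 6 = Ψ.g lr (C.s i' r1) := by
      rw [hl]; rfl
    rwa [e1, e2] at this
  -- closeness
  have hcV := Fr_norm hK hR hO0
  have c1 := close1 hS Φ lr l (C.s k r0) (rv := rd b lr.v) (rw' := C.ro 1 (b - C.μ) lr.w)
    (hO0.n1 k) hcV (hO0.k1 k) (hO0.a1 k) hAb hBb hv hw hX hN hZ (hgd0.trans (by
      rw [hβ, pow_two, ← q2_add, ← q2_add]
      exact q2_le (by omega))) (hg0.trans (by
      rw [hα, hβ, pow_two, ← q2_add, ← q2_add, ← q2_add]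
      exact q2_le (by omega)))
  obtain ⟨-, hdw, hdN⟩ := c1
  obtain ⟨k1, k2, k3⟩ := shift1 hS hε1 hδ hAb hBb hv hdw hX hdN hZ
  have hst : s = C.s k r0 + (s - C.s k r0) := by ring
  have eX : l.X s - lr.X s = (l.X (C.s k r0) - lr.X (C.s k r0)) + (s - C.s k r0) * (l.v - lr.v) := by
    unfold Ray.X; ring
  have eN : l.N s - lr.N s = (l.N (C.s k r0) - lr.N (C.s k r0)) + (s - C.s k r0) * (l.w - lr.w) := by
    unfold Ray.N; ring
  have eZ : C.Zs b s ω0 - C.Zs b s r0 = ((l.Z (C.s k r0) - rd b lr.v * l.X (C.s k r0) -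
      C.ro 1 (b - C.μ) lr.w * l.N (C.s k r0)) -
      (lr.Z (C.s k r0) - rd b lr.v * lr.X (C.s k r0) - C.ro 1 (b - C.μ) lr.w * lr.N (C.s k r0))) +
      (s - C.s k r0) * (((l.v - lr.v) ^ 2 + (l.w - lr.w) ^ 2) / 2 + A * (l.v - lr.v) +
        B * (l.w - lr.w)) := by
    have e1 : C.Zs b s ω0 = l.Z s - rd b lr.v * l.X s - C.ro 1 (b - C.μ) lr.w * l.N s := by
      rw [← hrv, ← hrw]; rfl
    have e2 : C.Zs b s r0 = lr.Z s - rd b lr.v * lr.X s - C.ro 1 (b - C.μ) lr.w * lr.N s := rfl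
    rw [e1, e2, hA, hB]
    unfold Ray.Z Ray.X Ray.N
    ring
  rw [← eX] at k1
  rw [← eN] at k2
  rw [← eZ] at k3
  have hmem := hU' (l.X s) (C.Zs b s ω0) k1 k3 ?_
  · have e1 : C.VZ (k + 1) b ω0 = (fl1 (C.a k + b + m) (l.X s), fl1 (C.a k + 2 * b + m) (C.Zs b s ω0)) := by
      unfold Pth.VZ
      rw [hss, ham]
      have e2 : C.a k + m + b = C.a k + b + m := by omega
      have e3 : C.a k + m + 2 * b = C.a k + 2 * b + m := by omega
      rw [e2, e3]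
    rw [e1]
    exact hmem
  -- the strip inequality
  have hEF : |F.g l s - F.g lr s| ≤ 2 * q2 (C.a k + b + C.R k b - 7 * C.μ) := by
    have eF : F.g l s - F.g lr s = _ := sh_sub Φ l lr (C.s k r0) s
    rw [eF]
    have q1 := mul_bd hδ hgd0
    have q3 : α * q2 (C.R k b + b - 5 * C.μ) ≤ q2 (C.a k + b + C.R k b - 7 * C.μ) := by
      rw [hα, ← q2_add]
      exact q2_le (by omega)
    refine (abs_add_le _ _).trans ?_
    linarith
  have hEG : |G.g l s - G.g lr s| ≤ 2 * q2 (C.a i + b + C.R i' b - 7 * C.μ) := by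
    have eG : G.g l s - G.g lr s = _ := sh_sub Ψ l lr (C.s i' r1) s
    rw [eG]
    have q1 := mul_bd (s_near hii (by omega : i ≤ k + 1) hTi) hgd1
    have q3 : q2 (C.a i) * q2 (C.R i' b + b - 5 * C.μ) ≤ q2 (C.a i + b + C.R i' b - 7 * C.μ) := by
      rw [← q2_add]
      exact q2_le (by omega)
    have q4 : q2 (C.a i' + b + C.R i' b - 7 * C.μ) ≤ q2 (C.a i + b + C.R i' b - 7 * C.μ) :=
      q2_le (by omega)
    refine (abs_add_le _ _).trans ?_
    linarith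
  have hX0m : X0 * (1 / 4 : ℝ) ^ m = q2 (C.a k + b + (C.R i b + m') + 2 * m) := by
    rw [hX0, q2_add (C.a k + b + (C.R i b + m')) (2 * m)]
    congr 1
    unfold q2
    rw [pow_mul]
    norm_num
  have hρF : ρ * F.cN lr s = G.cN lr s := by
    rw [hρ]; field_simp
  have hid := strip_id F G lr l s (rd b lr.v) (C.ro 1 (b - C.μ) lr.w) ρ hρF
  have e1 : C.Zs b s ω0 = l.Z s - rd b lr.v * l.X s - C.ro 1 (b - C.μ) lr.w * l.N s := by
    rw [← hrv, ← hrw]; rfl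
  have e2 : C.Zs b s r0 = lr.Z s - rd b lr.v * lr.X s - C.ro 1 (b - C.μ) lr.w * lr.N s := rfl
  rw [e1, e2]
  have hρ1 : |ρ| ≤ K ^ 2 := by rw [abs_of_nonneg hρ0]; exact hρK
  have hq1 : q2 (C.a k + b + C.R k b - 7 * C.μ) ≤
      q2 (C.a k + b + (C.R i b + m') + 2 * m) * q2 C.μ := by
    rw [← q2_add]; exact q2_le (by omega)
  have hq3 : q2 (C.a i + b + C.R i' b - 7 * C.μ) ≤
      q2 (C.a k + b + (C.R i b + m') + 2 * m) * q2 C.μ := by
    rw [← q2_add]; exact q2_le (by omega)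
  have hfin := strip_err (c2 := G.ka - ρ * F.ka) (c3 := (G.al - ρ * F.al) / 2) hK hα0 hβ0 hε0
    hS.ε1 hS.e (by positivity) h4m hμ (q2_pos _) hX0m hρ1 (hEF.trans (by linarith))
    (hEG.trans (by linarith)) hBb k2
  rw [← hid] at hfin
  exact hfin

end

end Vale.Agent.P106.U.H118
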