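import Vale.Agent.P106.U.Cell
import Vale.Agent.P106.U.QStrip

/-!
# P106 / U / H118 : real inequalities for the strip step of RISE (helper118)
-/

set_option autoImplicit false

namespace Vale.Agent.P106.U.H118

open Finset Vale.Agent.P127 Vale.Agent.P127.Stk
open Vale.Agent.P127.U.CellD (q2 rd Nb q2_pos q2_add q2_le)
open Vale.Agent.P106.U.Cell

/-- `|al| α ≤ K`, `|y| ≤ α B` gives `|al y| ≤ K B` -/
theorem al_mul {al α K y B : ℝ} (hB : 0 ≤ B) (h : |al| * α ≤ K) (hy : |y| ≤ α * B) :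
    |al * y| ≤ K * B := by
  rw [abs_mul]
  have h1 : |al| * |y| ≤ |al| * (α * B) := mul_le_mul_of_nonneg_left hy (abs_nonneg _)
  have h2 : |al| * (α * B) = (|al| * α) * B := by ring
  have h3 : (|al| * α) * B ≤ K * B := mul_le_mul_of_nonneg_right h hB
  linarith

/-- product of bounds -/
theorem mul_bd {x y X Y : ℝ} (hx : |x| ≤ X) (hy : |y| ≤ Y) : |x * y| ≤ X * Y := by
  rw [abs_mul]
  exact mul_le_mul hx hy (abs_nonneg _) ((abs_nonneg _).trans hx)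

theorem sq_bd {x X : ℝ} (hx : |x| ≤ X) : x ^ 2 ≤ X ^ 2 := by
  rw [← sq_abs]
  exact pow_le_pow_left₀ (abs_nonneg _) hx 2

theorem of_cN {c K x y : ℝ} (hK : 0 ≤ K) (hc : 1 ≤ K * c) (hy : |c * x| ≤ y) : |x| ≤ K * y := by
  have h1 : |x| ≤ |K * c * x| := by
    rw [abs_mul]
    have : 1 ≤ |K * c| := hc.trans (le_abs_self _)
    nlinarith [abs_nonneg x]
  have h2 : |K * c * x| = K * |c * x| := by
    rw [mul_assoc, abs_mul, abs_of_nonneg hK]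
  have h3 : K * |c * x| ≤ K * y := mul_le_mul_of_nonneg_left hy hK
  linarith

/-- sum of three / four bounded terms -/
theorem abs4 {a b c d A B C D : ℝ} (ha : |a| ≤ A) (hb : |b| ≤ B) (hc : |c| ≤ C) (hd : |d| ≤ D) :
    |a + b + c + d| ≤ A + B + C + D := by
  rw [abs_le] at *
  constructor <;> linarith [ha.1, ha.2, hb.1, hb.2, hc.1, hc.2, hd.1, hd.2]

section

variable {K α β β1 β2 ε : ℝ}

/-- scales : `β = 2^-b`, `β1 = 2^-(b-μ)`, `β2 = 2^-(b-2μ)`, `ε = 2^-μ` -/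
structure Sc (K α β β1 β2 ε : ℝ) : Prop where
  K1 : 1 ≤ K
  α0 : 0 < α
  β0 : 0 < β
  β10 : 0 < β1
  β20 : 0 < β2
  ε0 : 0 < ε
  ε1 : ε ≤ 1
  e1 : β1 = ε * β2
  e : β = ε * β1
  b2 : β2 ≤ ε ^ 2

theorem Sc.b11 (S : Sc K α β β1 β2 ε) : β1 ^ 2 = β * β2 := by
  rw [S.e, S.e1]; ring

theorem Sc.le1 (S : Sc K α β β1 β2 ε) : β ≤ β1 := by
  rw [S.e]
  have := S.β10
  have := S.ε1
  nlinarith

theorem Sc.le2 (S : Sc K α β β1 β2 ε) : β1 ≤ β2 := by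
  rw [S.e1]
  have := S.β20
  have := S.ε1
  nlinarith

theorem Sc.bb (S : Sc K α β β1 β2 ε) : β ^ 2 ≤ β * β2 := by
  have h1 := S.le1
  have h2 := S.le2
  have h3 := S.β0
  nlinarith

/-- bounds used below -/
theorem Sc.bbe (S : Sc K α β β1 β2 ε) : β * β2 ≤ β * ε ^ 2 :=
  mul_le_mul_of_nonneg_left S.b2 S.β0.le

theorem close_dz (S : Sc K α β β1 β2 ε) {A B dX dN dz' dz : ℝ}
    (hA : |A| ≤ β) (hB : |B| ≤ β1) (hX : |dX| ≤ α * β) (hN : |dN| ≤ α * β1)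
    (hZ : |dz'| ≤ α * β ^ 2) (h : dz = dz' + (-(A * dX)) + (-(B * dN)) + 0) :
    |dz| ≤ 3 * (α * (β * β2)) := by
  have h2 := mul_bd hA hX
  have h3 := mul_bd hB hN
  rw [h]
  refine (abs4 hZ ((abs_neg _).trans_le h2) ((abs_neg _).trans_le h3) (abs_zero.le)).trans ?_
  have h4 : β1 * (α * β1) = α * (β * β2) := by
    rw [← S.b11]; ring
  have h5 : α * β ^ 2 ≤ α * (β * β2) := mul_le_mul_of_nonneg_left S.bb S.α0.le
  have h6 : β * (α * β) = α * β ^ 2 := by ring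
  rw [h4, h6]
  linarith

theorem close_dw (S : Sc K α β β1 β2 ε) {cN cV ka al dv dw dX dN dz gd : ℝ}
    (hcN : 1 ≤ K * cN) (hcV : |cV| ≤ 3 * K * ε ^ 2) (hka : |ka| ≤ K) (hal : |al| * α ≤ K)
    (hv : |dv| ≤ β) (hw : |dw| ≤ β1) (hX : |dX| ≤ α * β) (hN : |dN| ≤ α * β1)
    (hdz : |dz| ≤ 3 * (α * (β * β2))) (hgd : |gd| ≤ β * ε ^ 2)
    (h1 : cN * dw = gd + cV * dv + ka * ((dv ^ 2 + dw ^ 2) / 2) + al * (dX * dv + dN * dw - dz)) :
    |dw| ≤ 10 * K ^ 2 * ε ^ 2 * β := by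
  have hK0 : 0 ≤ K := by linarith [S.K1]
  have hbb2 : 0 < β * β2 := mul_pos S.β0 S.β20
  have b11 := S.b11
  have bb := S.bb
  have hbe := S.bbe
  have g1 : |cV * dv| ≤ 3 * K * ε ^ 2 * β := mul_bd hcV hv
  have g2 : |ka * ((dv ^ 2 + dw ^ 2) / 2)| ≤ K * (β * β2) := by
    refine mul_bd hka ?_
    have q1 := sq_bd hv
    have q2 := sq_bd hw
    rw [b11] at q2
    rw [abs_of_nonneg (by positivity)]
    linarith
  have g3 : |al * (dX * dv + dN * dw - dz)| ≤ K * (5 * (β * β2)) := by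
    refine al_mul (by positivity) hal ?_
    have q1 := mul_bd hX hv
    have q2 := mul_bd hN hw
    have q3 : |dX * dv + dN * dw - dz| ≤ α * β * β + α * β1 * β1 + 3 * (α * (β * β2)) + 0 := by
      have : dX * dv + dN * dw - dz = dX * dv + dN * dw + (-dz) + 0 := by ring
      rw [this]
      exact abs4 q1 q2 ((abs_neg _).trans_le hdz) abs_zero.le
    refine q3.trans ?_
    have q4 : α * β1 * β1 = α * (β * β2) := by rw [← b11]; ring
    have q5 : α * β * β = α * β ^ 2 := by ring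
    have q6 : α * β ^ 2 ≤ α * (β * β2) := mul_le_mul_of_nonneg_left bb S.α0.le
    rw [q4, q5]
    linarith
  have h2 : |cN * dw| ≤ β * ε ^ 2 + 3 * K * ε ^ 2 * β + K * (β * β2) + K * (5 * (β * β2)) := by
    rw [h1]
    exact abs4 hgd g1 g2 g3
  have h3 : |cN * dw| ≤ 10 * K * ε ^ 2 * β := by
    refine h2.trans ?_
    have r1 : K * (β * β2) ≤ K * (β * ε ^ 2) := mul_le_mul_of_nonneg_left hbe hK0
    have r2 : β * ε ^ 2 ≤ K * (β * ε ^ 2) := le_mul_of_one_le_left (by have := S.β0; positivity) S.K1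
    linarith
  refine (of_cN hK0 hcN h3).trans (le_of_eq ?_)
  ring

theorem close_dN (S : Sc K α β β1 β2 ε) {cN cV ka al dX dN dz g : ℝ}
    (hcN : 1 ≤ K * cN) (hcV : |cV| ≤ 3 * K * ε ^ 2) (hka : |ka| ≤ K) (hal : |al| * α ≤ K)
    (hX : |dX| ≤ α * β) (hN : |dN| ≤ α * β1)
    (hdz : |dz| ≤ 3 * (α * (β * β2))) (hg : |g| ≤ α * β * ε ^ 2)
    (h1 : cN * dN = g + cV * dX + ka * dz + al * ((dX ^ 2 + dN ^ 2) / 2)) :
    |dN| ≤ 8 * K ^ 2 * ε ^ 2 * α * β := by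
  have hK0 : 0 ≤ K := by linarith [S.K1]
  have hα := S.α0
  have hβ := S.β0
  have hbb2 : 0 < β * β2 := mul_pos S.β0 S.β20
  have b11 := S.b11
  have bb := S.bb
  have hbe := S.bbe
  have g1 : |cV * dX| ≤ 3 * K * ε ^ 2 * (α * β) := mul_bd hcV hX
  have g2 : |ka * dz| ≤ K * (3 * (α * (β * β2))) := mul_bd hka hdz
  have g3 : |al * ((dX ^ 2 + dN ^ 2) / 2)| ≤ K * (α * (β * β2)) := by
    refine al_mul (by positivity) hal ?_
    have q1 := sq_bd hX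
    have q2 := sq_bd hN
    rw [abs_of_nonneg (by positivity)]
    have q3 : (α * β1) ^ 2 = α * (α * (β * β2)) := by
      rw [mul_pow, b11]; ring
    have q4 : (α * β) ^ 2 ≤ α * (α * (β * β2)) := by
      have : (α * β) ^ 2 = α * (α * β ^ 2) := by ring
      rw [this]
      exact mul_le_mul_of_nonneg_left (mul_le_mul_of_nonneg_left bb hα.le) hα.le
    linarith
  have h2 : |cN * dN| ≤ α * β * ε ^ 2 + 3 * K * ε ^ 2 * (α * β) + K * (3 * (α * (β * β2))) +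
      K * (α * (β * β2)) := by
    rw [h1]
    exact abs4 hg g1 g2 g3
  have h3 : |cN * dN| ≤ 8 * K * ε ^ 2 * α * β := by
    refine h2.trans ?_
    have r1 : (K * α) * (β * β2) ≤ (K * α) * (β * ε ^ 2) :=
      mul_le_mul_of_nonneg_left hbe (by positivity)
    have r2 : α * β * ε ^ 2 ≤ K * (α * β * ε ^ 2) := le_mul_of_one_le_left (by positivity) S.K1
    linarith
  refine (of_cN hK0 hcN h3).trans (le_of_eq ?_)
  ring

/-- closeness in one cell, at the time at which the functional `Φ` is written -/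
theorem close1 (S : Sc K α β β1 β2 ε) (Φ : Fu) (l l' : Ray) (s : ℝ) {rv rw' : ℝ}
    (hcN : 1 ≤ K * Φ.cN l s) (hcV : |Φ.cV l s| ≤ 3 * K * ε ^ 2) (hka : |Φ.ka| ≤ K)
    (hal : |Φ.al| * α ≤ K)
    (hA : |l.v - rv| ≤ β) (hB : |l.w - rw'| ≤ β1)
    (hv : |l'.v - l.v| ≤ β) (hw : |l'.w - l.w| ≤ β1) (hX : |l'.X s - l.X s| ≤ α * β)
    (hN : |l'.N s - l.N s| ≤ α * β1)
    (hZ : |(l'.Z s - rv * l'.X s - rw' * l'.N s) - (l.Z s - rv * l.X s - rw' * l.N s)| ≤ α * β ^ 2)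
    (hgd : |Φ.gd l' s - Φ.gd l s| ≤ β * ε ^ 2) (hg : |Φ.g l' s - Φ.g l s| ≤ α * β * ε ^ 2) :
    |l.dz l' s| ≤ 3 * (α * (β * β2)) ∧ |l'.w - l.w| ≤ 10 * K ^ 2 * ε ^ 2 * β ∧
      |l'.N s - l.N s| ≤ 8 * K ^ 2 * ε ^ 2 * α * β := by
  have hdz : |l.dz l' s| ≤ 3 * (α * (β * β2)) := close_dz S hA hB hX hN hZ (by
    unfold Ray.dz; ring)
  refine ⟨hdz, ?_, ?_⟩
  · refine close_dw S hcN hcV hka hal hv hw hX hN hdz hgd ?_
    rw [Fu.gd_sub Φ l l' s]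
    ring
  · refine close_dN S hcN hcV hka hal hX hN hdz hg ?_
    rw [Fu.g_sub Φ l l' s]
    ring

end

end Vale.Agent.P106.U.H118
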