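import Vale.Agent.P106.U.H118.StripR

/-!
# P106 / U / H118 : the strip count around a reference ray (helper118)
-/

set_option autoImplicit false

namespace Vale.Agent.P106.U.H118

open Finset Vale.Agent.P127 Vale.Agent.P127.Stk
open Vale.Agent.P127.U.CellD (q2 rd Nb q2_pos q2_add q2_le)
open Vale.Agent.P106.U.Cell

theorem fl1_bd {n k : ℕ} {x y : ℝ} (h : |x - y| ≤ k * q2 n) : |fl1 n x - fl1 n y| ≤ k := by
  have h2 : (0 : ℝ) < 2 ^ n := by positivity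
  have h3 : (2 : ℝ) ^ n * q2 n = 1 := Vale.Agent.P127.U.CellD.q2_mul_pow n
  have key : ∀ u v : ℝ, u - v ≤ k * q2 n → fl1 n u - fl1 n v ≤ k := by
    intro u v huv
    unfold fl1
    have h4 : (2 : ℝ) ^ n * u ≤ 2 ^ n * v + (k : ℤ) := by
      have := mul_le_mul_of_nonneg_left huv h2.le
      have h5 : (2 : ℝ) ^ n * (k * q2 n) = k := by
        rw [mul_comm (k : ℝ), ← mul_assoc, h3, one_mul]
      push_cast
      linarith
    have h5 := Int.floor_le_floor h4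
    rw [Int.floor_add_intCast] at h5
    linarith
  rw [abs_le] at h ⊢
  have h5 := key x y h.2
  have h6 := key y x (by linarith [h.1])
  constructor <;> linarith

section

variable {α β : ℝ}

/-- lower bound for the size of the conic -/
theorem M_lower (hα : 0 < α) (hβ : 0 < β) {c1 c2 c3 A x0 Xs X0 M : ℝ} (hA : |A| ≤ β)
    (hx : |x0 - Xs| ≤ 3 * (α * β)) (hD : X0 ≤ |c1| * (α * β) ∨ X0 ≤ |c2| * (α * β ^ 2))
    (h1 : |(c1 - c2 * A) - 2 * c3 * Xs + 2 * c3 * x0| * (α * β) ≤ M)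
    (h2 : |c2| * (α * β ^ 2) ≤ M) (h3 : |c3| * (α * β) ^ 2 ≤ M) : X0 ≤ 8 * M := by
  have hαβ : 0 < α * β := mul_pos hα hβ
  have hM : 0 ≤ M := (by positivity : (0:ℝ) ≤ |c2| * (α * β ^ 2)).trans h2
  rcases hD with hD | hD
  · have e1 : |c1| ≤ |(c1 - c2 * A) - 2 * c3 * Xs + 2 * c3 * x0| + |c2| * β + |c3| * (6 * (α * β)) := by
      have e2 : c1 = ((c1 - c2 * A) - 2 * c3 * Xs + 2 * c3 * x0) + c2 * A + (- (c3 * (2 * (x0 - Xs)))) + 0 := by
        ring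
      have e3 : |c2 * A| ≤ |c2| * β := mul_bd le_rfl hA
      have e4 : |c3 * (2 * (x0 - Xs))| ≤ |c3| * (6 * (α * β)) := by
        refine mul_bd le_rfl ?_
        rw [abs_mul, abs_of_pos (by norm_num : (0 : ℝ) < 2)]
        linarith
      have e5 := abs4 (le_refl |(c1 - c2 * A) - 2 * c3 * Xs + 2 * c3 * x0|) e3
        ((abs_neg _).trans_le e4) (abs_zero.le)
      rw [← e2] at e5
      linarith
    have e6 := mul_le_mul_of_nonneg_right e1 hαβ.le
    have e7 : (|(c1 - c2 * A) - 2 * c3 * Xs + 2 * c3 * x0| + |c2| * β + |c3| * (6 * (α * β))) * (α * β) =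
        |(c1 - c2 * A) - 2 * c3 * Xs + 2 * c3 * x0| * (α * β) + |c2| * (α * β ^ 2) +
          6 * (|c3| * (α * β) ^ 2) := by ring
    rw [e7] at e6
    linarith
  · linarith

/-- the count around a reference point -/
theorem strip_core (hα : 0 < α) (hβ : 0 < β) {p q m : ℕ} (hp : α * β = q2 p) (hq : α * β ^ 2 = q2 q)
    {c1 c2 c3 A Xs Zs X0 e : ℝ} (hA : |A| ≤ β) (hX0 : 0 < X0)
    (hD : X0 ≤ |c1| * (α * β) ∨ X0 ≤ |c2| * (α * β ^ 2))
    (he : e ≤ (X0 / 10 + |c2| * (α * β ^ 2) + |c3| * (α * β) ^ 2) * (1 / 4 : ℝ) ^ m) :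
    ∃ U : Finset (ℤ × ℤ), U.card ≤ 9540 * 2 ^ m ∧ ∀ X Z : ℝ, |X - Xs| ≤ 2 * (α * β) →
      |Z - Zs| ≤ 4 * (α * β ^ 2) →
      |(c1 - c2 * A) * (X - Xs) + c2 * (Z - Zs) + c3 * (X - Xs) ^ 2| ≤ e →
      (fl1 (p + m) X, fl1 (q + m) Z) ∈ U := by
  classical
  have hαβ : 0 < α * β := mul_pos hα hβ
  have hαβ2 : 0 < α * β ^ 2 := by positivity
  set I := Icc (fl1 p Xs - 2) (fl1 p Xs + 2) with hI
  set J := Icc (fl1 q Zs - 4) (fl1 q Zs + 4) with hJ
  have key : ∀ i0 ∈ I, ∀ j0 : ℤ, ∃ U : Finset (ℤ × ℤ), U.card ≤ 2 ^ m * (64 * 3 + 20) ∧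
      ∀ X Z : ℝ, fl1 p X = i0 → fl1 q Z = j0 →
      |(c1 - c2 * A) * (X - Xs) + c2 * (Z - Zs) + c3 * (X - Xs) ^ 2| ≤ e →
      (fl1 (p + m) X, fl1 (q + m) Z) ∈ U := by
    intro i0 hi0 j0
    set x0 : ℝ := i0 * (1 / 2 : ℝ) ^ p with hx0
    have h12 : (1 / 2 : ℝ) ^ p = α * β := by rw [hp]; rfl
    have h12q : (1 / 2 : ℝ) ^ q = α * β ^ 2 := by rw [hq]; rfl
    have h14 : (1 / 4 : ℝ) ^ p = (α * β) ^ 2 := by
      rw [← h12, ← pow_mul, mul_comm p 2, pow_mul]; norm_num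
    have hx : |x0 - Xs| ≤ 3 * (α * β) := by
      rw [hI, Finset.mem_Icc] at hi0
      have g1 := Vale.Agent.P127.U.CellD.rd_le p Xs
      have g2 := Vale.Agent.P127.U.CellD.lt_rd p Xs
      have g3 : rd p Xs = (fl1 p Xs : ℝ) * (α * β) := by
        unfold rd
        rw [Vale.Agent.P127.U.CellD.div_pow_eq, ← hp]
      rw [g3] at g1 g2
      rw [← hp] at g2
      have g4 : ((fl1 p Xs : ℝ) - 2) ≤ (i0 : ℝ) := by exact_mod_cast hi0.1
      have g5 : (i0 : ℝ) ≤ (fl1 p Xs : ℝ) + 2 := by exact_mod_cast hi0.2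
      rw [hx0, h12, abs_le]
      constructor
      · nlinarith
      · nlinarith
    set C1 : ℝ := (c1 - c2 * A) - 2 * c3 * Xs with hC1
    set M : ℝ := max (|C1 + 2 * c3 * x0| * (1 / 2 : ℝ) ^ p)
      (max (|c2| * (1 / 2 : ℝ) ^ q) (|c3| * (1 / 4 : ℝ) ^ p)) with hM
    have m1 : |C1 + 2 * c3 * x0| * (α * β) ≤ M := by
      rw [← h12]; exact le_max_left _ _
    have m2 : |c2| * (α * β ^ 2) ≤ M := by
      rw [← h12q]; exact (le_max_left _ _).trans (le_max_right _ _)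
    have m3 : |c3| * (α * β) ^ 2 ≤ M := by
      rw [← h14]; exact (le_max_right _ _).trans (le_max_right _ _)
    have hlow : X0 ≤ 8 * M := M_lower hα hβ hA hx hD m1 m2 m3
    have hMpos : 0 < M := by linarith
    have h4 : (0 : ℝ) < (1 / 4 : ℝ) ^ m := by positivity
    have he' : e ≤ ((3 : ℕ) : ℝ) * M * (1 / 4 : ℝ) ^ m := by
      refine he.trans (mul_le_mul_of_nonneg_right ?_ h4.le)
      push_cast
      linarith
    obtain ⟨U, hU, hU'⟩ := Cov.qstrip 3 (p := p) (q := q) (m := m)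
      (c0 := -(c1 - c2 * A) * Xs - c2 * Zs + c3 * Xs ^ 2) (c1 := C1) (c2 := c2) (c3 := c3) (e := e)
      i0 j0 hMpos he'
    refine ⟨U, hU, fun X Z e1 e2 e3 => hU' X Z e1 e2 ?_⟩
    have : -(c1 - c2 * A) * Xs - c2 * Zs + c3 * Xs ^ 2 + C1 * X + c2 * Z + c3 * X ^ 2 =
        (c1 - c2 * A) * (X - Xs) + c2 * (Z - Zs) + c3 * (X - Xs) ^ 2 := by
      rw [hC1]; ring
    rw [this]
    exact e3
  choose! U hU1 hU2 using key
  refine ⟨(I ×ˢ J).biUnion fun ij => U ij.1 ij.2, ?_, ?_⟩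
  · refine Finset.card_biUnion_le.trans ?_
    refine (Finset.sum_le_card_nsmul _ _ (2 ^ m * (64 * 3 + 20)) fun ij hij => ?_).trans ?_
    · exact hU1 ij.1 (Finset.mem_product.1 hij).1 ij.2
    · rw [Finset.card_product, hI, hJ, Int.card_Icc, Int.card_Icc, smul_eq_mul]
      have e1 : (fl1 p Xs + 2 + 1 - (fl1 p Xs - 2)).toNat = 5 := by
        have : fl1 p Xs + 2 + 1 - (fl1 p Xs - 2) = 5 := by ring
        rw [this]; rfl
      have e2 : (fl1 q Zs + 4 + 1 - (fl1 q Zs - 4)).toNat = 9 := by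
        have : fl1 q Zs + 4 + 1 - (fl1 q Zs - 4) = 9 := by ring
        rw [this]; rfl
      rw [e1, e2]
      omega
  · intro X Z hX hZ h
    rw [Finset.mem_biUnion]
    have b1 : |fl1 p X - fl1 p Xs| ≤ ((2 : ℕ) : ℤ) := fl1_bd (by rw [← hp]; push_cast; exact hX)
    have b2 : |fl1 q Z - fl1 q Zs| ≤ ((4 : ℕ) : ℤ) := fl1_bd (by rw [← hq]; push_cast; exact hZ)
    rw [abs_le] at b1 b2
    push_cast at b1 b2
    have hi : fl1 p X ∈ I := by
      rw [hI, Finset.mem_Icc]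
      constructor <;> linarith [b1.1, b1.2]
    have hj : fl1 q Z ∈ J := by
      rw [hJ, Finset.mem_Icc]
      constructor <;> linarith [b2.1, b2.2]
    exact ⟨(fl1 p X, fl1 q Z), Finset.mem_product.2 ⟨hi, hj⟩, hU2 _ hi _ X Z rfl rfl h⟩

end

section

variable {K α β β1 β2 ε : ℝ}

/-- differences at a later time -/
theorem shift1 (S : Sc K α β β1 β2 ε) (hε : 40 * K ^ 2 * ε ≤ 1) {δ A B dv dw dX dN dZs : ℝ}
    (hδ : |δ| ≤ α) (hA : |A| ≤ β) (hB : |B| ≤ β1) (hv : |dv| ≤ β)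
    (hw : |dw| ≤ 10 * K ^ 2 * ε ^ 2 * β) (hX : |dX| ≤ α * β)
    (hN : |dN| ≤ 8 * K ^ 2 * ε ^ 2 * α * β) (hZ : |dZs| ≤ α * β ^ 2) :
    |dX + δ * dv| ≤ 2 * (α * β) ∧ |dN + δ * dw| ≤ 18 * K ^ 2 * ε ^ 2 * (α * β) ∧
      |dZs + δ * ((dv ^ 2 + dw ^ 2) / 2 + A * dv + B * dw)| ≤ 4 * (α * β ^ 2) := by
  have hα := S.α0
  have hβ := S.β0
  have hε0 := S.ε0
  have hε1 := S.ε1
  have hK := S.K1
  refine ⟨?_, ?_, ?_⟩
  · have h1 := mul_bd hδ hv
    refine (abs_add_le _ _).trans ?_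
    linarith
  · have h1 := mul_bd hδ hw
    refine (abs_add_le _ _).trans ?_
    have : α * (10 * K ^ 2 * ε ^ 2 * β) = 10 * K ^ 2 * ε ^ 2 * (α * β) := by ring
    have h2 : 8 * K ^ 2 * ε ^ 2 * α * β = 8 * K ^ 2 * ε ^ 2 * (α * β) := by ring
    rw [this] at h1
    rw [h2] at hN
    linarith
  · have hdw : |dw| ≤ β := by
      refine hw.trans ?_
      have h1 : 10 * K ^ 2 * ε ^ 2 ≤ 1 := by
        have : 10 * K ^ 2 * ε ^ 2 = (40 * K ^ 2 * ε) * (ε / 4) := by ring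
        rw [this]
        have h2 : (40 * K ^ 2 * ε) * (ε / 4) ≤ 1 * (ε / 4) :=
          mul_le_mul_of_nonneg_right hε (by positivity)
        linarith
      have := mul_le_mul_of_nonneg_right h1 hβ.le
      linarith
    have q1 := sq_bd hv
    have q2 := sq_bd hdw
    have q3 := mul_bd hA hv
    have q4 : |B * dw| ≤ β ^ 2 := by
      refine (mul_bd hB hw).trans ?_
      have : β1 * (10 * K ^ 2 * ε ^ 2 * β) = (10 * K ^ 2 * ε) * β ^ 2 := by
        rw [pow_two β]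
        nth_rewrite 3 [S.e]
        ring
      rw [this]
      have h1 : 10 * K ^ 2 * ε ≤ 1 := by linarith [(by positivity : 0 ≤ 30 * K ^ 2 * ε)]
      have := mul_le_mul_of_nonneg_right h1 (sq_nonneg β)
      linarith
    have q5 : |(dv ^ 2 + dw ^ 2) / 2 + A * dv + B * dw| ≤ 3 * β ^ 2 := by
      have q6 : |(dv ^ 2 + dw ^ 2) / 2| ≤ β ^ 2 := by
        rw [abs_of_nonneg (by positivity)]
        linarith
      have q7 : β * β = β ^ 2 := by ring
      rw [q7] at q3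
      have := abs4 q6 q3 q4 (abs_zero.le)
      rw [add_zero] at this
      refine this.trans ?_
      linarith
    have q8 := mul_bd hδ q5
    refine (abs_add_le _ _).trans ?_
    have : α * (3 * β ^ 2) = 3 * (α * β ^ 2) := by ring
    rw [this] at q8
    linarith

end

end Vale.Agent.P106.U.H118
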