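import Vale.Agent.P106.U.H118.HSt
import Vale.Agent.P106.U.H357.USb
import Vale.Agent.P106.U.H336.SwS

/-!
# P106 / U / H118 : the sum of the errors of the heavy intervals over `St` (helper118; row of helper459)

* `dS`, `qS`, `LS` : the numbers: `d = t = 4 cμ xS x`, `q = d + J t`, `L = q + 1`.
* `XLs s L` : the exceptional levels; `xlv` : they satisfy helper357's `XLv`; **`xls_suf`** : `m #XLs ≤ κ h`.
* `UsN` : the numbers; `usN_suf` : they hold.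
* **`ush_s`** : helper357's `UsH` for `St`, any `XL` with `XLv`.
* **`us_yz`** : helper357's `us1` with the mixed letter `Yz`.
-/

set_option autoImplicit false

namespace Vale.Agent.P106.U.H118

open Finset Vale.Agent.P127 Vale.Agent.P127.Stk Vale.Agent.P127.U Vale.Agent.P106.W Vale.Agent.P106.K Vale.Agent.P106.U
open Vale.Agent.P127.U.CellD (q2 q2_pos q2_le)
open Vale.Agent.P106.U.Cell Vale.Agent.P106.U.S3
open Vale.Agent.P106.U.S5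
open Vale.Agent.P106.U.H101 (lc low)
open Vale.Agent.P106.U.H833 (aN RN)
open Vale.Agent.P106.U.H823
open Vale.Agent.P106.U.MIC (bc ix nz az rz St μS xS KS Suf eG gdR cμ)
open Vale.Agent.P106.U.H336 (SwL KR kd Rg)
open Vale.Agent.P106.U.H357 (XLv XS AK mem_AK UsH Ub cTL cYL)
open Vale.Agent.P106.U.H459 (rxI)

/-- `4 μ` in blocks -/
noncomputable def dS (x : ℕ) : ℕ := 4 * cμ * xS x

/-- the third index -/
noncomputable def qS (ρ : Thr) (x : ℕ) : ℕ := dS x + ρ.J * dS x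

/-- the reach -/
noncomputable def LS (ρ : Thr) (x : ℕ) : ℕ := qS ρ x + 1

theorem dS_pos (x : ℕ) : 1 ≤ dS x := by
  have h1 : 800 ≤ MIC.cN := le_max_left _ _
  have h2 : 0 < xS x := by
    unfold xS
    omega
  have h3 : 0 < MIC.cN := by omega
  show 0 < 4 * (8000 * MIC.cN) * xS x
  positivity

section levels

variable {η : ℝ} {x : ℕ} {σ : Cst} {ε : ℝ} {ρ : Thr} {g : Gv} {m B h : ℕ}

/-- **the exceptional levels** -/
noncomputable def XLs (s : St η x σ ε ρ g m B h) (L : ℕ) : Finset ℕ :=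
  (SwL s.R B s.Vs s.Xs L ∪ (SwL s.R B s.Vs s.Xs L).image fun z => z - 1) ∪
    Icc (az s.R s.i0 (nz s.R s.i0) - (L + 2)) (az s.R s.i0 (nz s.R s.i0))

theorem xlv (s : St η x σ ε ρ g m B h) (L : ℕ) : XLv s.R B s.Vs s.Xs s.i0 L (XLs s L) := by
  intro z _ hz hX
  unfold XLs at hX
  rw [Finset.mem_union, Finset.mem_union, not_or, not_or, Finset.mem_Icc] at hX
  obtain ⟨⟨h1, h2⟩, h3⟩ := hX
  refine ⟨by omega, h1, fun h4 => h2 ?_⟩
  rw [Finset.mem_image]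
  exact ⟨z + 1, h4, by simp⟩

theorem card_XLs (s : St η x σ ε ρ g m B h) (L : ℕ) :
    ((XLs s L).card : ℝ) ≤ 2 * (SwL s.R B s.Vs s.Xs L).card + (L + 3) := by
  unfold XLs
  have h1 := Finset.card_union_le (SwL s.R B s.Vs s.Xs L ∪ (SwL s.R B s.Vs s.Xs L).image fun z => z - 1)
    (Icc (az s.R s.i0 (nz s.R s.i0) - (L + 2)) (az s.R s.i0 (nz s.R s.i0)))
  have h2 := Finset.card_union_le (SwL s.R B s.Vs s.Xs L) ((SwL s.R B s.Vs s.Xs L).image fun z => z - 1)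
  have h3 : ((SwL s.R B s.Vs s.Xs L).image fun z => z - 1).card ≤ (SwL s.R B s.Vs s.Xs L).card := Finset.card_image_le
  rw [Nat.card_Icc] at h1
  have h4 : az s.R s.i0 (nz s.R s.i0) + 1 - (az s.R s.i0 (nz s.R s.i0) - (L + 2)) ≤ L + 3 := by omega
  have h5 : ((SwL s.R B s.Vs s.Xs L ∪ (SwL s.R B s.Vs s.Xs L).image fun z => z - 1) ∪
    Icc (az s.R s.i0 (nz s.R s.i0) - (L + 2)) (az s.R s.i0 (nz s.R s.i0))).card ≤
      2 * (SwL s.R B s.Vs s.Xs L).card + (L + 3) := by omega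
  exact_mod_cast h5

/-- the bound for one situation -/
theorem xls_le (s : St η x σ ε ρ g m B h) (L : ℕ) (hB : 1 ≤ B) : (m : ℝ) * (XLs s L).card ≤
    2 * ((L + 1) * (4 + (L + 1) * (2 * σ.K1 + 3))) * ((h : ℝ) / B) + (2 * ((L + 1) * (L + 2)) + (L + 3)) * m := by
  have h1 := H336.sw_le s L hB
  have h2 := mul_le_mul_of_nonneg_left (card_XLs s L) (Nat.cast_nonneg m : (0 : ℝ) ≤ m)
  nlinarith

/-- **few exceptional levels** -/
theorem xls_suf (η : ℝ) (x : ℕ) (σ : Cst) (ε : ℝ) (ρ : Thr) {κ : ℝ} (hκ : 0 < κ) (L : ℕ) : Suf σ ε fun g m B h =>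
    ∀ s : St η x σ ε ρ g m B h, (m : ℝ) * (XLs s L).card ≤ κ * h := by
  have h1 := H336.ev_sw (2 * ((L + 1) * (4 + (L + 1) * (2 * σ.K1 + 3)))) (2 * ((L + 1) * (L + 2)) + (L + 3)) hκ
  have h2 : H652.Ev3 fun _ B _ => 1 ≤ B := H652.Ev3.of_B' fun _ => H652.ev_nat 1
  refine Suf.of_ev3 fun g _ => (h1.mono2 h2 fun m B h g1 hB => ?_).out
  intro s
  exact (xls_le s L hB).trans g1

end levels

/-- the numbers of the sum -/
structure UsN (ρ : Thr) (x m B : ℕ) : Prop where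
  m1 : 1 ≤ m
  KB : KS ρ ≤ (B : ℝ)
  μB : μS x m ≤ B
  B2 : 2 ≤ B
  dB : dS x ≤ B
  B5 : 5 * (cμ * xS x) ≤ B
  μq : 640 * (4 * ρ.K) ^ 2 * q2 (μS x m) ≤ 1

theorem usN_ev (ρ : Thr) (x : ℕ) : H652.Ev3 fun m B _ => UsN ρ x m B := by
  have hx : 0 < cμ * xS x := by
    have h1 : 800 ≤ MIC.cN := le_max_left _ _
    have h2 : 0 < xS x := by
      unfold xS
      omega
    have h3 : 0 < MIC.cN := by omega
    show 0 < 8000 * MIC.cN * xS x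
    positivity
  have e1 : H652.Ev3 fun m _ _ => 1 ≤ m ∧ 640 * (4 * ρ.K) ^ 2 * q2 (μS x m) ≤ 1 := by
    refine H652.Ev3.of_m ?_
    filter_upwards [H652.ev_nat 1, H652.ev_q20 (640 * (4 * ρ.K) ^ 2) 0 (cμ * xS x) hx (κ := 1) one_pos] with m h1 h2
    rw [pow_zero, mul_one] at h2
    exact ⟨h1, h2⟩
  have e2 : H652.Ev3 fun m B _ => (KS ρ ≤ (B : ℝ) ∧ μS x m ≤ B) ∧ (2 ≤ B ∧ dS x ≤ B) ∧ 5 * (cμ * xS x) ≤ B := by
    refine H652.Ev3.of_B' fun m => ?_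
    filter_upwards [H652.ev_con (KS ρ) (κ := 1) one_pos, H652.ev_nat (μS x m), H652.ev_nat 2, H652.ev_nat (dS x),
      H652.ev_nat (5 * (cμ * xS x))] with B h1 h2 h3 h4 h5
    exact ⟨⟨by simpa using h1, h2⟩, ⟨h3, h4⟩, h5⟩
  exact (e1.and e2).mono fun m B h H => ⟨H.1.1, H.2.1.1, H.2.1.2, H.2.2.1.1, H.2.2.1.2, H.2.2.2, H.1.2⟩

theorem usN_suf (σ : Cst) (ε : ℝ) (ρ : Thr) (x : ℕ) : Suf σ ε fun _ m B _ => UsN ρ x m B :=
  Suf.of_ev3 fun _ _ => (usN_ev ρ x).out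

section st

variable {η : ℝ} {x : ℕ} {σ : Cst} {ε : ℝ} {ρ : Thr} {g : Gv} {m B h : ℕ}

/-- **helper357's `UsH` for `St`** -/
theorem ush_s (hρ : ρ.Ok) (s : St η x σ ε ρ g m B h) (N : UsN ρ x m B) {XL : Finset ℕ}
    (hX : XLv s.R B s.Vs s.Xs s.i0 (LS ρ x) XL) :
    UsH s.R s.pn ρ.K ρ.c' s.g' s.gU B s.bS s.bV s.F s.Vs s.Xs (μS x m) (KS ρ) s.o s.o' s.i0 (LS ρ x) (dS x) (qS ρ x) (dS x)
      (gdR s.R s.pn (eG ε ρ) s.i0) XL := by
  have hR := rec_st hρ s N.KB N.μB N.μq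
  have hmm : s.R.m = m := s.run.hm
  have hJ : s.pn.J = ρ.J := s.run.hJ
  have hJ1 : 1 ≤ s.pn.J := s.run.ok.pth.J1
  have hd := dS_pos x
  have h4 : 4 * μS x m = dS x * m := by
    unfold dS MIC.μS
    ring
  have hJd : 1 ≤ ρ.J * dS x := Nat.mul_pos (by omega) hd
  refine ⟨s.run.ok, s.f2, s.f2o, hρ.K1, N.KB, hR.hr, N.μB, hR.μC, le_rfl, hR.b8,
    H812.sdat_ix s.run.ok.pth _ (fun j _ hj => hj.isA), hX, hd, ?_, le_rfl, N.dB, ?_, ?_, ?_, ?_⟩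
  · unfold qS
    omega
  · rw [h4, hmm]
  · rw [hJ]
    unfold qS
    exact le_rfl
  · rw [h4, hmm, Nat.mul_comm]
  · have h5 := Nat.mul_le_mul_left m N.B5
    rw [hmm]
    refine le_trans (le_of_eq ?_) h5
    unfold MIC.μS
    ring

/-- **the sum of the errors with the mixed letter** -/
theorem us_yz (hρ : ρ.Ok) (s : St η x σ ε ρ g m B h) (N : UsN ρ x m B) {XL : Finset ℕ}
    (hX : XLv s.R B s.Vs s.Xs s.i0 (LS ρ x) XL) (XE : Finset ℕ) {gg pv : ℕ} {ccO ccK ccP : ℝ}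
    (hcO : ∑ j ∈ AK s.R s.Vs s.i0 XL {0, 3} \ XE, (cTL s.R.Q (lc s.R.C (μS x m) s.o) (s.R.m * s.R.b1) (ix s.R s.i0 (j + 1)) gg +
      cYL s.R.Q (lc s.R.C (μS x m) s.o) (s.R.m * s.R.b1) (ix s.R s.i0 (j + 1)) gg) ≤ ccO)
    (hcK : ∑ j ∈ AK s.R s.Vs s.i0 XL {1} \ XE,
      (cTL s.R.Q ((mt s.R s.F (μS x m) s.o s.o').fz (ix s.R s.i0 (j + 1)) (ix s.R s.i0 (j + 1))) (s.R.m * s.R.b1)
      (ix s.R s.i0 (j + 1)) gg + cYL s.R.Q ((mt s.R s.F (μS x m) s.o s.o').fz (ix s.R s.i0 (j + 1)) (ix s.R s.i0 (j + 1)))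
      (s.R.m * s.R.b1) (ix s.R s.i0 (j + 1)) gg) ≤ ccK)
    (hcP : ∑ j ∈ AK s.R s.Vs s.i0 XL {2} \ XE,
      (cTL s.R.Q ((mt0 s.R s.F (μS x m) s.o s.o').fz (ix s.R s.i0 (j + 1)) (ix s.R s.i0 (j + 1))) (s.R.m * s.R.b1)
      (ix s.R s.i0 (j + 1)) gg + cYL s.R.Q ((mt0 s.R s.F (μS x m) s.o s.o').fz (ix s.R s.i0 (j + 1)) (ix s.R s.i0 (j + 1)))
      (s.R.m * s.R.b1) (ix s.R s.i0 (j + 1)) gg) ≤ ccP) :
    ∑ j ∈ (range (nz s.R s.i0)).filter (fun j => az s.R s.i0 (j + 1) = az s.R s.i0 j + 1),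
      H357.eH s.R s.F B s.bS s.bV s.Vs s.Xs (μS x m) s.o s.o' gg pv (ix s.R s.i0) (rxI s.R s.i0 (dS x))
        (XS s.R s.i0 XL ∪ XE) (Yz s.R s.i0 s.F s.Vs s.Xs (μS x m) s.o s.o') j ≤
    Ub s.R s.pn ρ.K (KS ρ) B (μS x m) s.i0 (dS x) (qS ρ x) gg pv XL XE (nuK ρ.K + cM ρ.K) (ccO + ccK + ccP) := by
  have hR := rec_st hρ s N.KB N.μB N.μq
  have hH := ush_s hρ s N hX
  have hn := nuK_nonneg ρ.K
  have hc := cM_nonneg ρ.K
  have hB1 : 1 ≤ B := by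
    have := N.B2
    omega
  have hr := H812.r_mu s.run hR.μC
  have hL : 1 ≤ LS ρ x := by
    unfold LS
    omega
  have key : ∀ {c : Finset (Fin 4)} {j : ℕ}, j ∈ AK s.R s.Vs s.i0 XL c \ XE → az s.R s.i0 (j + 1) = az s.R s.i0 j + 1 ∧
      j < nz s.R s.i0 ∧ az s.R s.i0 j + 1 < az s.R s.i0 (nz s.R s.i0) ∧ az s.R s.i0 j ∉ SwL s.R B s.Vs s.Xs (LS ρ x) ∧
      kd s.R s.Vs (az s.R s.i0 j) ∈ c := by
    intro c j hj
    rw [Finset.mem_sdiff] at hj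
    obtain ⟨h1, h2, h3, h4⟩ := mem_AK.1 hj.1
    have h5 : az s.R s.i0 0 ≤ az s.R s.i0 j := hH.D.am (Nat.zero_le _) h1.le
    have h6 : az s.R s.i0 (j + 1) ≤ az s.R s.i0 (nz s.R s.i0) := hH.D.am h1 le_rfl
    obtain ⟨x1, x2, x3⟩ := hX _ h5 (by omega) h3
    exact ⟨h2, h1, by omega, x2, h4⟩
  refine hH.us1 XE (g := gg) (pv := pv) (Yz s.R s.i0 s.F s.Vs s.Xs (μS x m) s.o s.o') (cY := nuK ρ.K + cM ρ.K)
    (by linarith) ?_ ?_ ?_ hcO hcK hcP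
  · intro j hj
    obtain ⟨h1, _, h3, h4, h5⟩ := key hj
    have h6 := yz_O (o := s.o) (o' := s.o') hR hB1 hr s.hi0 hL h1 h3 h4 (by simpa using h5)
    linarith
  · intro j hj
    obtain ⟨h1, h2, h3, h4, h5⟩ := key hj
    have h6 := yz_K (o := s.o) (o' := s.o') hR hB1 s.hi0 hL h2 h1 h3 h4 (by simpa using h5)
    linarith
  · intro j hj
    obtain ⟨h1, h2, h3, h4, h5⟩ := key hj
    have h6 := yz_P (o := s.o) (o' := s.o') hR hB1 s.hi0 hL h2 h1 h3 h4 (by simpa using h5)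
    linarith

end st

end Vale.Agent.P106.U.H118
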