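import Vale.Agent.P106.U.H118.Look

/-!
# P106 / U / H118 : the word of the path (helper118)

`a`, `r` : levels of the path at one base level (unit steps or null steps), `g` : the good a-steps, `E` the exceptional
a-steps.  `word` : one of `p` scales `s`, and a partition of `[0, n]` into heavy intervals (rise `> M (s+1)`, and about
`N0` times the length) and light windows (`≤ L s` steps), such that all but few steps of the light windows are
counted : good a-steps, or r-steps with a good a-step on the same a-level after a rise of at most `M s`; at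
least `K s` a-levels before the end of the window.
-/

set_option autoImplicit false

namespace Vale.Agent.P106.U.H118

open Finset

section

variable {n : ℕ} {g : ℕ → Prop} {r : ℕ → ℕ}

/-- the stretch of a step is unique -/
theorem Strt.uniq {i p i' p' k : ℕ} (h : Strt n g i p) (h' : Strt n g i' p') (h1 : i ≤ k) (h2 : k < p)
    (h1' : i' ≤ k) (h2' : k < p') : i = i' ∧ p = p' := by
  have e1 : i = i' := by
    rcases lt_trichotomy i i' with h3 | h3 | h3
    · exact absurd h'.gi (h.no i' h3 (by omega))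
    · exact h3
    · exact absurd h.gi (h'.no i h3 (by omega))
  refine ⟨e1, ?_⟩
  subst e1
  rcases lt_trichotomy p p' with h3 | h3 | h3
  · rcases h.gp with h4 | h4
    · have := h'.le
      omega
    · exact absurd h4 (h'.no p h.lt h3)
  · exact h3
  · rcases h'.gp with h4 | h4
    · have := h.le
      omega
    · exact absurd h4 (h.no p' h'.lt h3)

/-- number of r-steps -/
theorem card_r (hr : ∀ i < n, r (i + 1) = r i ∨ (r (i + 1) = r i + 1 ∧ ¬ g i)) (S : Finset ℕ)
    (hS : ∀ k ∈ S, k < n ∧ r (k + 1) = r k + 1) : S.card ≤ r n - r 0 := by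
  rw [← Nat.card_Ico]
  refine Finset.card_le_card_of_injOn r ?_ ?_
  · intro k hk
    obtain ⟨h1, h2⟩ := hS k hk
    have h3 := rmono hr (Nat.zero_le k) h1.le
    have h4 := rmono hr (by omega : k + 1 ≤ n) le_rfl
    rw [Finset.mem_coe, Finset.mem_Ico]
    omega
  · intro k hk k' hk' heq
    obtain ⟨h1, h2⟩ := hS k hk
    obtain ⟨h1', h2'⟩ := hS k' hk'
    rcases lt_trichotomy k k' with h | h | h
    · have := rmono hr (by omega : k + 1 ≤ k') h1'.le
      omega
    · exact h
    · have := rmono hr (by omega : k' + 1 ≤ k) h1.le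
      omega

/-- pigeonhole for the scales -/
theorem scales {p : ℕ} (hp : 0 < p) (M : ℕ → ℕ) (hM : Monotone M)
    (hr : ∀ i < n, r (i + 1) = r i ∨ (r (i + 1) = r i + 1 ∧ ¬ g i)) :
    ∃ s < p, ∀ T : Finset ℕ, (∀ k ∈ T, k < n ∧ r (k + 1) = r k + 1 ∧
      ∃ i q, i ≤ k ∧ k < q ∧ Strt n g i q ∧ r i + M s < r q ∧ r q ≤ r i + M (s + 1)) →
      p * T.card ≤ r n - r 0 := by
  classical
  by_contra hcon
  push Not at hcon
  choose! T hT1 hT2 using hcon
  have h1 : ∑ s ∈ range p, (T s).card ≤ r n - r 0 := by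
    rw [← Finset.card_biUnion]
    · refine card_r hr _ fun k hk => ?_
      obtain ⟨s, hs, hk⟩ := Finset.mem_biUnion.1 hk
      exact ⟨(hT1 s (Finset.mem_range.1 hs) k hk).1, (hT1 s (Finset.mem_range.1 hs) k hk).2.1⟩
    · intro s hs s' hs' hne
      rw [Function.onFun, Finset.disjoint_left]
      intro k hk hk'
      obtain ⟨_, _, i, q, e1, e2, e3, e4, e5⟩ := hT1 s (Finset.mem_range.1 hs) k hk
      obtain ⟨_, _, i', q', e1', e2', e3', e4', e5'⟩ := hT1 s' (Finset.mem_range.1 hs') k hk'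
      obtain ⟨rfl, rfl⟩ := e3.uniq e3' e1 e2 e1' e2'
      rcases Nat.lt_or_gt_of_ne hne with h | h
      · have := hM (by omega : s + 1 ≤ s')
        omega
      · have := hM (by omega : s' + 1 ≤ s)
        omega
  have h2 : ∑ s ∈ range p, (r n - r 0) < ∑ s ∈ range p, p * (T s).card :=
    Finset.sum_lt_sum_of_nonempty (Finset.nonempty_range_iff.2 (by omega)) fun s hs =>
      hT2 s (Finset.mem_range.1 hs)
  rw [Finset.sum_const, card_range, smul_eq_mul, ← Finset.mul_sum] at h2
  have h3 := Nat.mul_le_mul_left p h1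
  omega

end

/-- a counted step -/
def Cnt (M n : ℕ) (g : ℕ → Prop) (a r : ℕ → ℕ) (k : ℕ) : Prop :=
  g k ∨ (r (k + 1) = r k + 1 ∧ ∃ q, k < q ∧ q < n ∧ g q ∧ a q = a k ∧ r q ≤ r k + M)

/-- **the word** -/
theorem word {p N0 n : ℕ} {g : ℕ → Prop} {a r : ℕ → ℕ} (hp : 0 < p) (M L K : ℕ → ℕ)
    (hM : Monotone M) (hL : ∀ s, 0 < L s)
    (hr : ∀ i < n, r (i + 1) = r i ∨ (r (i + 1) = r i + 1 ∧ ¬ g i))
    (ha : ∀ i < n, a (i + 1) = a i ∨ (a (i + 1) = a i + 1 ∧ r (i + 1) = r i))
    (hga : ∀ i < n, g i → a (i + 1) = a i + 1) (hn : 0 < n) (h0 : g 0)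
    (E : Finset ℕ) (hE : ∀ i < n, a (i + 1) = a i + 1 → ¬ g i → i ∈ E) :
    ∃ s < p, ∃ (V : ℕ) (σ : ℕ → ℕ) (H : Finset ℕ), Wrd (L s) (M (s + 1)) N0 n g r V σ H ∧
      (V - H.card) * L s ≤ n + (H.card + 1) * L s ∧
      ∀ Nc : ℕ → Finset ℕ, (∀ v < V, v ∉ H → ∀ k ∈ Nc v, σ v ≤ k ∧ k < σ (v + 1) ∧
        (a (k + 1) = a k + 1 ∨ r (k + 1) = r k + 1) ∧
        ¬ (Cnt (M s) n g a r k ∧ a k + K s ≤ a (σ (v + 1)))) →
        p * ∑ v ∈ range V \ H, (Nc v).card ≤ p * ((V - H.card) * (K s * (M s + 1)) +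
          M s * (E.card + 1) + E.card) + (r n - r 0) := by
  classical
  obtain ⟨s, hs, hsc⟩ := scales hp M hM hr
  obtain ⟨V, σ, H, W, hV⟩ := greedy (N1 := M (s + 1)) (N0 := N0) (hL s) hr hn h0
  refine ⟨s, hs, V, σ, H, W, hV, ?_⟩
  intro Nc hNc
  have am : ∀ i j, i ≤ j → j ≤ n → a i ≤ a j := by
    intro i j hij
    induction j, hij using Nat.le_induction with
    | base => intro _; exact le_rfl
    | succ j _ ih =>
      intro h
      have h1 := ih (by omega)
      rcases ha j (by omega) with h2 | h2 <;> omega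
  -- the tails
  have h1 : ∀ v ∈ range V \ H, (Nc v).card ≤ K s * (M s + 1) +
      ((Nc v).filter fun k => ¬ Cnt (M s) n g a r k).card := by
    intro v hv
    rw [Finset.mem_sdiff, Finset.mem_range] at hv
    rw [← Finset.card_filter_add_card_filter_not (s := Nc v) (fun k => Cnt (M s) n g a r k)]
    refine Nat.add_le_add_right ?_ _
    set A := a (σ (v + 1)) with hA
    have hle := W.le_n (v + 1) hv.1
    have h2 : (Nc v).filter (fun k => Cnt (M s) n g a r k) ⊆ (Ico (A + 1 - K s) (A + 1)).biUnion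
        fun z => ((Nc v).filter fun k => Cnt (M s) n g a r k).filter fun k => a k = z := by
      intro k hk
      rw [Finset.mem_biUnion]
      refine ⟨a k, ?_, Finset.mem_filter.2 ⟨hk, rfl⟩⟩
      rw [Finset.mem_filter] at hk
      obtain ⟨e1, e2, e3, e4⟩ := hNc v hv.1 hv.2 k hk.1
      have e5 : ¬ (a k + K s ≤ A) := fun h => e4 ⟨hk.2, h⟩
      have e6 := am k (σ (v + 1)) e2.le hle
      rw [Finset.mem_Ico]
      omega
    refine (Finset.card_le_card h2).trans (Finset.card_biUnion_le.trans ?_)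
    refine (Finset.sum_le_card_nsmul _ _ (M s + 1) fun z _ => ?_).trans ?_
    · refine lvl hr am hga _ ?_ z
      intro k hk
      rw [Finset.mem_filter] at hk
      obtain ⟨e1, e2, e3, e4⟩ := hNc v hv.1 hv.2 k hk.1
      refine ⟨by omega, ?_⟩
      rcases hk.2 with h | h
      · exact Or.inl (hga k (by omega) h)
      · exact Or.inr h
    · rw [Nat.card_Ico, smul_eq_mul]
      exact Nat.mul_le_mul_right _ (by omega)
  -- the other steps
  set U := (range V \ H).biUnion fun v => (Nc v).filter fun k => ¬ Cnt (M s) n g a r k with hU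
  have h2 : ∑ v ∈ range V \ H, ((Nc v).filter fun k => ¬ Cnt (M s) n g a r k).card = U.card := by
    rw [hU, Finset.card_biUnion]
    intro v hv v' hv' hne
    rw [Finset.mem_coe, Finset.mem_sdiff, Finset.mem_range] at hv hv'
    rw [Function.onFun, Finset.disjoint_left]
    intro k hk hk'
    rw [Finset.mem_filter] at hk hk'
    have e1 := hNc v hv.1 hv.2 k hk.1
    have e2 := hNc v' hv'.1 hv'.2 k hk'.1
    rcases Nat.lt_or_gt_of_ne hne with h | h
    · have := W.mono (by omega : v + 1 ≤ v') (by omega)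
      omega
    · have := W.mono (by omega : v' + 1 ≤ v) (by omega)
      omega
  have hUk : ∀ k ∈ U, k < n ∧ (a (k + 1) = a k + 1 ∨ r (k + 1) = r k + 1) ∧
      ¬ Cnt (M s) n g a r k ∧ Lgt (M (s + 1)) n g r k := by
    intro k hk
    obtain ⟨v, hv, hk⟩ := Finset.mem_biUnion.1 hk
    rw [Finset.mem_sdiff, Finset.mem_range] at hv
    rw [Finset.mem_filter] at hk
    obtain ⟨e1, e2, e3, e4⟩ := hNc v hv.1 hv.2 k hk.1
    have hle := W.le_n (v + 1) hv.1
    exact ⟨by omega, e3, hk.2, W.lg v hv.1 hv.2 k e1 e2⟩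
  set B := U.filter fun k => r (k + 1) = r k + 1 ∧ Lgt (M s) n g r k with hB
  set T := U.filter fun k => r (k + 1) = r k + 1 ∧ ¬ Lgt (M s) n g r k with hT
  have h3 : U ⊆ E ∪ (B ∪ T) := by
    intro k hk
    obtain ⟨e1, e2, e3, e4⟩ := hUk k hk
    rw [Finset.mem_union, Finset.mem_union]
    rcases e2 with h | h
    · exact Or.inl (hE k e1 h fun h' => e3 (Or.inl h'))
    · right
      by_cases h' : Lgt (M s) n g r k
      · exact Or.inl (Finset.mem_filter.2 ⟨hk, h, h'⟩)
      · exact Or.inr (Finset.mem_filter.2 ⟨hk, h, h'⟩)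
  have h4 : B.card ≤ M s * (E.card + 1) := by
    refine exc a hr ha B E hE fun k hk => ?_
    rw [hB, Finset.mem_filter] at hk
    refine ⟨hk.2.1, hk.2.2, fun h => (hUk k hk.1).2.2.1 (Or.inr ⟨hk.2.1, h⟩)⟩
  have h5 : p * T.card ≤ r n - r 0 := by
    refine hsc T fun k hk => ?_
    rw [hT, Finset.mem_filter] at hk
    obtain ⟨e1, e2, e3, i, q, f1, f2, f3, f4⟩ := hUk k hk.1
    refine ⟨e1, hk.2.1, i, q, f1, f2, f3, ?_, f4⟩
    by_contra hcon
    exact hk.2.2 ⟨i, q, f1, f2, f3, not_lt.1 hcon⟩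
  have h6 := Finset.card_le_card h3
  have h7 := Finset.card_union_le E (B ∪ T)
  have h8 := Finset.card_union_le B T
  have h9 := Finset.sum_le_sum h1
  rw [Finset.sum_add_distrib, h2, Finset.sum_const, smul_eq_mul,
    Finset.card_sdiff_of_subset (fun v hv => Finset.mem_range.2 (W.HV v hv)), card_range] at h9
  have h10 : ∑ v ∈ range V \ H, (Nc v).card ≤ ((V - H.card) * (K s * (M s + 1)) +
      M s * (E.card + 1) + E.card) + T.card := by omega
  have h11 := Nat.mul_le_mul_left p h10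
  rw [Nat.mul_add p _ T.card] at h11
  omega

end Vale.Agent.P106.U.H118
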